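import Vale.Agent.P247I.Ind
import Vale.Agent.P247E.Dict

/-!
# P247I: the intersection form is even
-/

open MeasureTheory Module
open scoped ContDiff ComplexConjugate RealInnerProductSpace

noncomputable section

namespace Vale.Agent.P247I

open Vale.Agent.P204.GX Vale.Agent.P204.T4 Vale.Agent.P247E
open Vale.Agent.P247.H647 (Sp En cov)

theorem even_of_sq {U : Type} [AddCommGroup U] [Module ℝ U] [FiniteDimensional ℝ U]
    (J : U →ₗ[ℝ] U) (h : ∀ v, J (J v) = -v) : Even (finrank ℝ U) := by
  have k : J ∘ₗ J = (-1 : ℝ) • LinearMap.id := LinearMap.ext fun v => by simp [h]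
  have := congrArg LinearMap.det k
  rw [LinearMap.det_comp, LinearMap.det_smul, LinearMap.det_id, mul_one] at this
  exact Nat.not_odd_iff_even.1 fun o => by
    rw [o.neg_one_pow] at this
    linarith [mul_self_nonneg (LinearMap.det J)]

variable {X : Type} [MetricSpace X] {M : CM X}
variable {V W : Type} [NormedAddCommGroup V] [InnerProductSpace ℝ V]
  [NormedAddCommGroup W] [InnerProductSpace ℝ W] {E : Bun M V} {F : Bun M W}

theorem even_ker (P : Op E F) [FiniteDimensional ℝ (LinearMap.ker (appL P))] (J : V →L[ℝ] V)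
    (hJ : ∀ v, J (J v) = -v) (m : ∀ s ∈ E.Sm, (fun x => J (s x)) ∈ E.Sm)
    (h : ∀ s ∈ E.Sm, P.app s = 0 → P.app (fun x => J (s x)) = 0) :
    Even (finrank ℝ (LinearMap.ker (appL P))) :=
  even_of_sq (U := LinearMap.ker (appL P))
    { toFun := fun s => ⟨⟨_, m _ s.1.2⟩, Subtype.ext (h _ s.1.2 (congrArg Subtype.val s.2))⟩
      map_add' := fun _ _ => Subtype.ext (Subtype.ext (funext fun _ => map_add J _ _))
      map_smul' := fun _ _ => Subtype.ext (Subtype.ext (funext fun _ => map_smul J _ _)) }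
    fun _ => Subtype.ext (Subtype.ext (funext fun _ => hJ _))

variable [MeasurableSpace X] [BorelSpace X] [CompactSpace X]

/-- complex linear operators have even real index -/
theorem Ell.even [FiniteDimensional ℝ V] [FiniteDimensional ℝ W] (H : Ell) {P : Op E F}
    (hd : finrank ℝ V = finrank ℝ W) (hc : P.Cliff) (J : V →L[ℝ] V) (J' : W →L[ℝ] W)
    (hJ : ∀ v, J (J v) = -v) (hJ' : ∀ v, J' (J' v) = -v) (a : ∀ v w, ⟪v, J' w⟫ = -⟪J' v, w⟫)
    (m : ∀ s ∈ E.Sm, (fun x => J (s x)) ∈ E.Sm) (m' : ∀ s ∈ F.Sm, (fun x => J' (s x)) ∈ F.Sm)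
    (c : ∀ s ∈ E.Sm, ∀ x, P.app (fun x => J (s x)) x = J' (P.app s x)) : Even P.ind := by
  obtain ⟨f1, f2, k, -⟩ := H.smi hd P.isAdj_adj hc
  rw [k]
  refine (even_ker P J hJ m fun s hs h => funext fun x => by simp [c s hs, h]).natCast.sub
    (even_ker P.adj J' hJ' m' fun t ht h => funext fun x => ?_).natCast
  have u := P.adj.app_mem (m' t ht)
  have k1 := P.isAdj_adj _ (m _ u) t ht
  simp only [h, c _ u, Pi.zero_apply, inner_zero_right, integral_zero] at k1
  have k2 := P.isAdj_adj _ u _ (m' t ht)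
  simp only [a, integral_neg, k1, neg_zero] at k2
  simpa using congrFun (eq_zero_of_integral (E.continuous_inner u u)
    (fun _ => real_inner_self_nonneg) (E.integrable_inner u u) k2.symm) x

theorem even_dirac (Q : QM X) (L : LBc Q.toCM) : Even (Q.dirac L).ind := by
  have j : ∀ v : Sp, reL (Complex.I • (1 : En)) v = Complex.I • v := fun _ => rfl
  have jj : ∀ v : Sp, reL (Complex.I • (1 : En)) (reL (Complex.I • (1 : En)) v) = -v := fun v => by
    rw [j, j, smul_smul, Complex.I_mul_I, neg_one_smul]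
  have l : ∀ a (s : X → Sp), L.lo a (fun x => Complex.I • s x) = fun y => Complex.I • L.lo a s y :=
    fun a s => funext fun y => smul_comm _ _ _
  refine ell.even rfl (Q.dirac_cliff L) _ _ jj jj (fun v w => ?_) (fun s hs a => ?_)
    (fun s hs a => ?_) fun s hs x => ?_
  · simp [j, Hx.inner_vec, vec_eq, Fin.sum_univ_four]
    ring
  · exact (congrArg _ (l a s)).mpr ((hs a).const_smul Complex.I)
  · refine (congrArg _ (funext fun y => ?_)).mpr ((hs a).const_smul Complex.I)
    change conj (L.γ a y) • sgm _ (Complex.I • _) = Complex.I • conj (L.γ a y) • sgm _ _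
    rw [map_smul, smul_comm]
    rfl
  · have d := fun a y => fderiv_fun_const_smul (𝕜 := ℝ) (x := y)
      (((show L.Sm s from hs) a).differentiable (by simp) y) Complex.I
    simp only [j, Q.dirac_app, LBc.cv, l, cov, d, smul_apply, Finset.smul_sum, ← map_smul, smul_sub,
      smul_comm Complex.I]

/-- **the intersection form is even** -/
theorem even : P247X.EVEN_statement := by
  intro X i μ hμ w hw L
  obtain ⟨d, hd, Q, Lc, -, -, -, h5, -⟩ := dict X μ hμ w hw L
  have hc : @CompactSpace X d.toPseudoMetricSpace.toUniformSpace.toTopologicalSpace := by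
    rw [hd]; exact i.cpt
  have hn : @ConnectedSpace X d.toPseudoMetricSpace.toUniformSpace.toTopologicalSpace := by
    rw [hd]; exact i.conn
  have hb : @BorelSpace X d.toPseudoMetricSpace.toUniformSpace.toTopologicalSpace
      i.toMeasurableSpace := by
    rw [hd]; exact i.borel
  have k := @ind X d hc hn i.toMeasurableSpace hb Q Lc
  obtain ⟨n, e1⟩ := @even_dirac X d i.toMeasurableSpace hb hc Q Lc
  obtain ⟨m, e2⟩ := @even_dirac X d i.toMeasurableSpace hb hc Q (.triv _)
  simp only [h5, e1, e2, mul_div_cancel_left₀ _ (by positivity : 4 * Real.pi ^ 2 ≠ 0)] at k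
  exact ⟨n - m, by push_cast at k ⊢; linarith⟩

end Vale.Agent.P247I
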