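import Vale.Agent.P247E.Ch

/-!
# P247I: sections of a bundle of rank four with normalised zeros
-/

open MeasureTheory Metric Set Filter Topology Function
open scoped ContDiff

noncomputable section

namespace Vale.Agent.P247I

open Vale.Agent.P204.GX Vale.Agent.P204.T4 Vale.Agent.P247E

variable {X : Type} [MetricSpace X] {M : CM X} {V : Type} [NormedAddCommGroup V]
  [InnerProductSpace ℝ V] {E : Bun M V}

/-- nondegenerate zeros -/
def ND (E : Bun M V) (s : X → V) (x : X) : Prop :=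
  ∃ a y, M.ψ a y = x ∧ Injective (fderiv ℝ (E.lo a s) y)

theorem lo_eq_zero {a : M.A} {s : X → V} {y : V4} : E.lo a s y = 0 ↔ s (M.ψ a y) = 0 := by
  rw [← norm_eq_zero, E.norm_lo, norm_eq_zero]

/-- a generic section -/
theorem gen (E : Bun M V) (ι : V4 ≃L[ℝ] V) : ∃ s ∈ E.Sm, ∀ x, s x = 0 → ND E s x := by
  let σ : M.A → Fin 4 → X → V := fun b i => E.ext b fun y => M.zl b y • ι (Pi.single i 1)
  have hσ : ∀ b i, σ b i ∈ E.Sm := fun b i => E.ext_mem b ((M.contDiff_zl b).smul contDiff_const)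
    (M.hasCompactSupport_zl b).smul_right
  let f : M.A → V4 → (M.A → V4) → V := fun a y c => ∑ b, ∑ i, c b i • E.lo a (σ b i) y
  have f1 : ∀ a y c, E.lo a (∑ b, ∑ i, c b i • σ b i) y = f a y c := fun a y c => by
    simp only [f, Bun.lo, Finset.sum_apply, Pi.smul_apply, map_sum, map_smul]
  have f2 : ∀ a y c v, f a y (c - Pi.single a v) = f a y c - M.zl a y • ι v := fun a y c v => by
    simp only [f, Pi.sub_apply, sub_smul, Finset.sum_sub_distrib]
    rw [Finset.sum_eq_single a (f := fun b => ∑ i, (Pi.single a v : M.A → V4) b i • _)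
      (fun b _ hb => by simp [hb]) (by simp)]
    simp only [σ, E.lo_ext, Pi.single_eq_same, smul_comm (v _), ← Finset.smul_sum, ← map_smul,
      ← map_sum, ← pi_eq_sum_univ']
  let j := fun a => ContinuousLinearMap.single ℝ (fun _ : M.A => V4) a
  let Θ : M.A → (M.A → V4) → M.A → V4 := fun a p =>
    p + j a (-p a - (M.zl a (p a))⁻¹ • ι.symm (f a (p a) (p - j a (p a))))
  have dz := fun a => (M.contDiff_zl a).differentiable (by simp)
  have dΘ : ∀ a p, M.zl a (p a) ≠ 0 → DifferentiableAt ℝ (Θ a) p := fun a p h => by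
    have := fun b i => (hσ b i a).differentiable (by simp)
    have := dz a
    simp only [Θ, f]
    fun_prop (disch := assumption)
  obtain ⟨c, hc⟩ := (ae_all_iff.2 fun a => measure_eq_zero_iff_ae_notMem.1
    (addHaar_image_eq_zero_of_det_fderivWithin_eq_zero volume (f := Θ a) (f' := fderiv ℝ (Θ a))
      (s := {p | M.zl a (p a) ≠ 0 ∧ (fderiv ℝ (Θ a) p).det = 0})
      (fun p h => (dΘ a p h.1).hasFDerivAt.hasFDerivWithinAt) fun p h => h.2)).exists
  have hs : ∑ b, ∑ i, c b i • σ b i ∈ E.Sm :=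
    E.Sm.sum_mem fun b _ => E.Sm.sum_mem fun i _ => E.Sm.smul_mem _ (hσ b i)
  refine ⟨_, hs, fun x hx => ?_⟩
  obtain ⟨a, ha⟩ : ∃ a, M.zeta a x ≠ 0 := by
    by_contra h
    push Not at h
    simpa [h] using M.sum_zeta x
  obtain ⟨y, -, rfl⟩ := (zeta_cases a x).resolve_left ha
  refine ⟨a, y, rfl, (injective_iff_map_eq_zero _).2 fun ξ hξ => by_contra fun h0 => ?_⟩
  have p1 : ∀ z, (c + j a (z - c a)) a = z := fun z => by simp [j]
  have e1 : ∀ z, M.zl a z ≠ 0 → Θ a (c + j a (z - c a)) =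
      c - j a ((M.zl a z)⁻¹ • ι.symm (E.lo a (∑ b, ∑ i, c b i • σ b i) z)) := fun z hz => by
    have : c + j a (z - c a) - j a z = c - Pi.single a (c a) := by
      rw [map_sub]; simp only [j, ContinuousLinearMap.single_apply]; abel
    simp only [Θ, p1, this, f2, f1]
    simp only [map_sub, map_smul, smul_sub, smul_smul, inv_mul_cancel₀ hz,
      ContinuousLinearEquiv.symm_apply_apply, one_smul, map_neg]
    abel
  have z0 := (lo_eq_zero (E := E)).2 hx
  have d1 := ((dΘ a (c + j a (y - c a)) (by rwa [p1])).hasFDerivAt.comp y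
    (((j a).hasFDerivAt.comp y ((hasFDerivAt_id y).sub_const (c a))).const_add c))
  have d2 := ((j a).hasFDerivAt.comp y (((dz a y).inv ha).hasFDerivAt.smul
    (ι.symm.hasFDerivAt.comp y ((hs a).differentiable (by simp) y).hasFDerivAt))).const_sub c
  have d3 := congrArg (fun L : V4 →L[ℝ] M.A → V4 => L ξ) (d1.unique (d2.congr_of_eventuallyEq
    (((dz a).continuous.continuousAt.eventually_ne ha).mono e1)))
  refine hc a ⟨c + j a (y - c a), ⟨by rwa [p1], LinearMap.det_eq_zero_iff_ker_ne_bot.2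
    ((Submodule.ne_bot_iff _).2 ⟨j a ξ, by simpa [hξ, z0] using d3, by simpa [j] using h0⟩)⟩, ?_⟩
  rw [e1 y ha, z0]
  simp

theorem fin_zero [CompactSpace X] {s : X → V} (hs : s ∈ E.Sm) (h : ∀ x, s x = 0 → ND E s x) :
    {x | s x = 0}.Finite := by
  have c : Continuous fun x => ‖s x‖ := cont_charts fun a => by
    simpa only [E.norm_lo] using (hs a).continuous.norm
  by_contra k
  obtain ⟨x, hx, ha⟩ := Set.Infinite.exists_accPt_of_subset_isCompact k
    (isClosed_eq c continuous_const (g := fun _ => 0)).isCompact fun x hx => norm_eq_zero.2 hx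
  obtain ⟨a, y, rfl, hi⟩ := h x (norm_eq_zero.1 hx)
  obtain ⟨K, -, hK⟩ := (fderiv ℝ (E.lo a s) y : V4 →ₗ[ℝ] V).exists_antilipschitzWith
    (LinearMap.ker_eq_bot.2 hi)
  rw [accPt_iff_frequently, ← (M.ψo a).map_nhds_eq, frequently_map] at ha
  have := ((hs a).differentiable (by simp) y).hasFDerivAt.eventually_ne (c := 0) ⟨K, hK⟩
  obtain ⟨z, h1, h2⟩ := (ha.and_eventually (eventually_nhdsWithin_iff.1 this)).exists
  exact h2 (fun e => h1.1 (congrArg _ e)) (lo_eq_zero.2 h1.2)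

/-- normalisation of one zero -/
theorem modify {s : X → V} (hs : s ∈ E.Sm) {a : M.A} {y : V4} (h0 : E.lo a s y = 0)
    {γ : ℝ → V4 →L[ℝ] V} (sm : ContDiff ℝ ∞ γ) (γ0 : γ 0 = fderiv ℝ (E.lo a s) y)
    (inj : ∀ t, Injective (γ t)) {O : Set X} (hO : O ∈ 𝓝 (M.ψ a y)) : ∃ s' ∈ E.Sm,
      (∀ x, s' x = 0 ↔ s x = 0) ∧ (∀ x ∉ O, s' =ᶠ[𝓝 x] s) ∧
        E.lo a s' =ᶠ[𝓝 y] fun z => γ 1 (z - y) := by
  have cγ := sm.continuous
  obtain ⟨c, c0, hc⟩ := ((isCompact_Icc (a := (0 : ℝ)) (b := 1)).prod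
    (isCompact_sphere (0 : V4) 1)).exists_forall_le' (f := fun p => ‖γ p.1 p.2‖) (a := 0)
      (by fun_prop) fun p hp => norm_pos_iff.2 fun k => by
        have := hp.2
        rw [(injective_iff_map_eq_zero _).1 (inj _) _ k] at this
        simp at this
  obtain ⟨r, r0, hr⟩ := nhds_basis_closedBall.eventually_iff.1
    ((((hs a).differentiable (by simp) y).hasFDerivAt.isLittleO.def (half_pos c0)).and
      ((M.continuous_ψ a).continuousAt.preimage_mem_nhds hO))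
  simp only [h0, sub_zero, ← γ0] at hr
  have key : ∀ z ∈ closedBall y r, ∀ t ∈ Icc (0 : ℝ) 1, ∀ θ ∈ Icc (0 : ℝ) 1,
      γ t (z - y) + θ • (E.lo a s z - γ 0 (z - y)) = 0 ↔ z = y := fun z hz t ht θ hθ => by
    refine ⟨fun h => by_contra fun k => ?_, fun h => by simp [h, h0]⟩
    have p := norm_pos_iff.2 (sub_ne_zero.2 k)
    have k1 := hc (t, ‖z - y‖⁻¹ • (z - y)) ⟨ht, by simp [norm_smul, p.ne']⟩
    rw [map_smul, norm_smul, eq_neg_of_add_eq_zero_left h, norm_neg, norm_smul, norm_inv, norm_norm,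
      Real.norm_of_nonneg hθ.1, le_inv_mul_iff₀ p] at k1
    nlinarith [(hr hz).1, mul_le_of_le_one_left (norm_nonneg (E.lo a s z - γ 0 (z - y))) hθ.2,
      mul_pos p c0]
  let φ : ContDiffBump y := ⟨r / 2, r, half_pos r0, half_lt_self r0⟩
  have z0 : ∀ z ∉ closedBall y r,
      (γ (φ z) - γ 0) (z - y) - φ z • (E.lo a s z - γ 0 (z - y)) = 0 := fun z hz => by
    simp [φ.zero_of_le_dist (not_le.1 hz).le]
  have d : ContDiff ℝ ∞ fun z : V4 => z - y := contDiff_id.sub contDiff_const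
  have m := E.ext_mem a ((((sm.comp φ.contDiff).sub contDiff_const).clm_apply d).sub
    (φ.contDiff.smul ((hs a).sub ((γ 0).contDiff.comp d)))) (.intro (isCompact_closedBall y r) z0)
  have e1 : ∀ z, E.lo a (s + E.ext a fun z => (γ (φ z) - γ 0) (z - y) -
      φ z • (E.lo a s z - γ 0 (z - y))) z =
      γ (φ z) (z - y) + (1 - φ z) • (E.lo a s z - γ 0 (z - y)) := fun z => by
    simp only [E.lo_add, E.lo_ext, Pi.add_apply, sub_apply, sub_smul, one_smul]
    abel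
  refine ⟨_, E.Sm.add_mem hs m, fun x => ?_, fun x hx => ?_, ?_⟩
  · by_cases hx : x ∈ M.ψ a '' closedBall y r
    · obtain ⟨z, hz, rfl⟩ := hx
      rw [← lo_eq_zero (E := E), ← lo_eq_zero (E := E)]
      refine (e1 z ▸ key z hz _ ⟨φ.nonneg, φ.le_one⟩ _ ⟨sub_nonneg.2 φ.le_one,
        sub_le_self _ φ.nonneg⟩).trans ?_
      simpa using (key z hz 0 (by simp) 1 (by simp)).symm
    · exact (congrArg (· = 0) ((congrArg (s x + ·) (E.ext_zero a z0 hx)).trans (add_zero _))).to_iff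
  · filter_upwards [((isCompact_closedBall y r).image (M.continuous_ψ a)).isClosed.isOpen_compl
      |>.mem_nhds fun ⟨z, hz, e⟩ => hx (e ▸ (hr hz).2)] with x' hx'
    exact (congrArg (s x' + ·) (E.ext_zero a z0 hx')).trans (add_zero _)
  · filter_upwards [φ.eventuallyEq_one] with z hz
    exact (e1 z).trans (by simp [hz])

/-- normalised zeros -/
def NM (E : Bun M V) (Tg : M.A → V4 → Set (V4 →L[ℝ] V)) (s : X → V) (x : X) : Prop :=
  ∃ a y, M.ψ a y = x ∧ ∃ L ∈ Tg a y, E.lo a s =ᶠ[𝓝 y] fun z => L (z - y)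

theorem lo_congr {s s' : X → V} {a : M.A} {y : V4} (h : s' =ᶠ[𝓝 (M.ψ a y)] s) :
    E.lo a s' =ᶠ[𝓝 y] E.lo a s :=
  ((M.continuous_ψ a).continuousAt.eventually h).mono fun _ k => congrArg _ k

/-- a section with finitely many zeros, all normalised -/
theorem nor [CompactSpace X] (E : Bun M V) (ι : V4 ≃L[ℝ] V) (Tg : M.A → V4 → Set (V4 →L[ℝ] V))
    (hT : ∀ a y (L : V4 →L[ℝ] V), Injective L → ∃ γ : ℝ → V4 →L[ℝ] V, ContDiff ℝ ∞ γ ∧ γ 0 = L ∧
      γ 1 ∈ Tg a y ∧ ∀ t, Injective (γ t)) :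
    ∃ s ∈ E.Sm, {x | s x = 0}.Finite ∧ ∀ x, s x = 0 → NM E Tg s x := by
  obtain ⟨s, hs, h⟩ := gen E ι
  have fin := fin_zero hs h
  suffices ∀ S : Set X, S.Finite → ∃ s' ∈ E.Sm, (∀ x, s' x = 0 ↔ s x = 0) ∧
      ∀ x, s x = 0 → (x ∈ S → NM E Tg s' x) ∧ (x ∉ S → ND E s' x) by
    obtain ⟨s', h1, h2, h3⟩ := this _ fin
    exact ⟨s', h1, by simpa only [h2] using fin, fun x hx => (h3 x ((h2 x).1 hx)).1 ((h2 x).1 hx)⟩
  intro S hS
  induction S, hS using Set.Finite.induction_on with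
  | empty => exact ⟨s, hs, fun _ => .rfl, fun x hx => ⟨fun k => k.elim, fun _ => h x hx⟩⟩
  | @insert p S hp _ ih =>
    obtain ⟨s', h1, h2, h3⟩ := ih
    by_cases h0 : s p = 0
    swap
    · exact ⟨s', h1, h2, fun x hx => ⟨fun k => (h3 x hx).1 (k.resolve_left fun e => h0 (e ▸ hx)),
        fun k => (h3 x hx).2 fun e => k (.inr e)⟩⟩
    obtain ⟨a, y, rfl, hi⟩ := (h3 p h0).2 hp
    obtain ⟨γ, g1, g2, g3, g4⟩ := hT a y _ hi
    obtain ⟨s₂, k1, k2, k3, k4⟩ := modify h1 (lo_eq_zero.2 ((h2 _).2 h0)) g1 g2 g4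
      ((fin.subset (sdiff_subset (t := {M.ψ a y}))).isClosed.isOpen_compl.mem_nhds fun k => k.2 rfl)
    refine ⟨s₂, k1, fun x => (k2 x).trans (h2 x), fun x hx => ?_⟩
    by_cases e : x = M.ψ a y
    · exact ⟨fun _ => ⟨a, y, e.symm, _, g3, k4⟩, fun k => (k (.inl e)).elim⟩
    have k5 := k3 x fun k => k ⟨hx, e⟩
    refine ⟨fun k => ?_, fun k => ?_⟩
    · obtain ⟨b, z, rfl, L, l1, l2⟩ := (h3 x hx).1 (k.resolve_left e)
      exact ⟨b, z, rfl, L, l1, (lo_congr k5).trans l2⟩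
    · obtain ⟨b, z, rfl, l1⟩ := (h3 x hx).2 fun e => k (.inr e)
      exact ⟨b, z, rfl, by rwa [(lo_congr k5).fderiv_eq]⟩

end Vale.Agent.P247I
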