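import Mathlib

/-!
# P247I: smooth paths of invertible matrices
-/

open Matrix
open scoped ContDiff

noncomputable section

namespace Vale.Agent.P247I

/-- four by four matrices -/
abbrev Mx := Matrix (Fin 4) (Fin 4) ℝ

/-- joined to the identity -/
def Jn (G : Mx) : Prop := ∃ γ : ℝ → Mx, (∀ i j, ContDiff ℝ ∞ fun t => γ t i j) ∧ γ 0 = G ∧
  γ 1 = 1 ∧ ∀ t, (γ t).det ≠ 0

/-- the conjugation -/
def cM : Mx := diagonal ![1, -1, -1, -1]

theorem cM_sq : cM * cM = 1 := by
  rw [cM, diagonal_mul_diagonal, ← diagonal_one]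
  congr 1
  funext i
  fin_cases i <;> simp

theorem sm_mul {γ δ : ℝ → Mx} (h : ∀ i j, ContDiff ℝ ∞ fun t => γ t i j)
    (k : ∀ i j, ContDiff ℝ ∞ fun t => δ t i j) (i j : Fin 4) :
    ContDiff ℝ ∞ fun t => (γ t * δ t) i j := by
  simp only [mul_apply]
  exact ContDiff.sum fun l _ => (h i l).mul (k l j)

theorem Jn.mul {G H : Mx} (h : Jn G) (k : Jn H) : Jn (G * H) := by
  obtain ⟨γ, a1, a2, a3, a4⟩ := h
  obtain ⟨δ, b1, b2, b3, b4⟩ := k
  exact ⟨fun t => γ t * δ t, sm_mul a1 b1, by simp [a2, b2], by simp [a3, b3],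
    fun t => by simp [a4, b4]⟩

theorem det_cM : cM.det ≠ 0 := fun h => by simpa [h] using congrArg det cM_sq

theorem Jn.conj {G : Mx} (h : Jn G) : Jn (cM * G * cM) := by
  obtain ⟨γ, a1, a2, a3, a4⟩ := h
  exact ⟨fun t => cM * γ t * cM, sm_mul (sm_mul (fun _ _ => contDiff_const) a1)
    fun _ _ => contDiff_const, by simp [a2], by simp [a3, cM_sq], fun t => by simp [a4, det_cM]⟩

theorem jn_trans {i j : Fin 4} (h : i ≠ j) (c : ℝ) : Jn (transvection i j c) :=
  ⟨fun t => transvection i j ((1 - t) * c), fun k l => by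
    simp only [transvection, Matrix.add_apply, single_apply]
    split_ifs <;> fun_prop, by simp, by simp, fun t => by simp [det_transvection_of_ne _ _ h]⟩

theorem jn_pos {d : Fin 4 → ℝ} (h : ∀ i, 0 < d i) : Jn (diagonal d) :=
  ⟨fun t => diagonal fun i => Real.exp ((1 - t) * Real.log (d i)), fun k l => by
    simp only [diagonal_apply]
    split_ifs <;> fun_prop, by simp [Real.exp_log (h _)], by simp,
    fun t => by simp [Finset.prod_eq_zero_iff]⟩

theorem jn_rot {i j : Fin 4} (h : i ≠ j) :
    Jn (diagonal fun k => if k = i ∨ k = j then -1 else 1) := by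
  have k := ((jn_trans h (-1)).mul (jn_trans h.symm 1)).mul (jn_trans h (-1))
  convert k.mul k using 1
  simp only [transvection, mul_add, add_mul, one_mul, mul_one, single_mul_single_same,
    single_mul_single_of_ne _ _ _ _ h, single_mul_single_of_ne _ _ _ _ h.symm, add_zero]
  ext a b
  simp only [Matrix.add_apply, single_apply, diagonal_apply, one_apply]
  by_cases h1 : i = a <;> by_cases h2 : j = a <;> by_cases h3 : i = b <;> by_cases h4 : j = b <;>
    simp_all [eq_comm]

theorem jn_mul {G H : Mx} (h : Jn G ∨ Jn (G * cM)) (k : Jn H ∨ Jn (H * cM)) :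
    Jn (G * H) ∨ Jn (G * H * cM) := by
  have e : ∀ A : Mx, cM * (cM * A) = A := fun A => by rw [← mul_assoc, cM_sq, one_mul]
  rcases h with h | h <;> rcases k with k | k
  · exact .inl (h.mul k)
  · exact .inr (by simpa only [mul_assoc] using h.mul k)
  · exact .inr (by simpa only [mul_assoc, e] using h.mul k.conj)
  · exact .inl (by simpa only [mul_assoc, e, cM_sq, mul_one] using h.mul k.conj)

theorem Jn.of {d d' : Fin 4 → ℝ} (h : Jn (diagonal d)) (k : ∀ i, d i = d' i) : Jn (diagonal d') :=
  funext k ▸ h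

theorem jn_refl (i : Fin 4) : Jn (diagonal (fun k => if k = i then -1 else 1) * cM) := by
  rw [cM, diagonal_mul_diagonal]
  fin_cases i
  · have := (jn_rot (i := 0) (j := 1) (by decide)).mul (jn_rot (i := 2) (j := 3) (by decide))
    rw [diagonal_mul_diagonal] at this
    exact this.of fun k => by fin_cases k <;> simp
  · exact (jn_rot (i := 2) (j := 3) (by decide)).of fun k => by fin_cases k <;> simp
  · exact (jn_rot (i := 1) (j := 3) (by decide)).of fun k => by fin_cases k <;> simp
  · exact (jn_rot (i := 1) (j := 2) (by decide)).of fun k => by fin_cases k <;> simp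

theorem jn_or {G : Mx} (h : G.det ≠ 0) : Jn G ∨ Jn (G * cM) := by
  refine diagonal_transvection_induction_of_det_ne_zero (fun G => Jn G ∨ Jn (G * cM)) G h
    (fun d hd => ?_) (fun t => .inl (jn_trans t.hij t.c)) fun _ _ _ _ => jn_mul
  have k : ∀ i, Jn (diagonal fun k => if k = i then d i else 1) ∨
      Jn (diagonal (fun k => if k = i then d i else 1) * cM) := fun i => by
    have : d i ≠ 0 := fun k => hd (by
      rw [det_diagonal]; exact Finset.prod_eq_zero (Finset.mem_univ i) k)
    rcases this.lt_or_gt with h | h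
    · have := (jn_pos (d := fun k => if k = i then -d i else 1) fun k => by
        split_ifs <;> linarith).mul (jn_refl i)
      rw [← mul_assoc, diagonal_mul_diagonal] at this
      rw [show (fun k => if k = i then d i else 1) = fun k => (if k = i then -d i else 1) *
        if k = i then -1 else 1 from funext fun k => by split_ifs <;> simp]
      exact .inr this
    · exact .inl (jn_pos fun k => by split_ifs <;> linarith)
  have := jn_mul (jn_mul (jn_mul (k 0) (k 1)) (k 2)) (k 3)
  simp only [diagonal_mul_diagonal] at this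
  convert this <;> rename_i l <;> fin_cases l <;> simp

/-- every invertible matrix is joined to the identity or to the conjugation -/
theorem glp {G : Mx} (h : G.det ≠ 0) : ∃ γ : ℝ → Mx, (∀ i j, ContDiff ℝ ∞ fun t => γ t i j) ∧
    γ 0 = G ∧ (γ 1 = 1 ∨ γ 1 = cM) ∧ ∀ t, (γ t).det ≠ 0 := by
  rcases jn_or h with ⟨γ, a1, a2, a3, a4⟩ | ⟨γ, a1, a2, a3, a4⟩
  · exact ⟨γ, a1, a2, .inl a3, a4⟩
  · exact ⟨fun t => γ t * cM, sm_mul a1 fun _ _ => contDiff_const,
      by simp [a2, mul_assoc, cM_sq], .inr (by simp [a3]), fun t => by simp [a4, det_cM]⟩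

end Vale.Agent.P247I
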