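import Vale.Agent.P247I.Qa
import Vale.Agent.P247I.Gen
import Vale.Agent.P247I.Glp

/-!
# P247I: the index of the twisted Dirac operator
-/

open Filter Topology Function WithLp
open scoped ContDiff ComplexConjugate RealInnerProductSpace

noncomputable section

namespace Vale.Agent.P247I

open Vale.Agent.P204.GX Vale.Agent.P204.T4 Vale.Agent.P247E
open Vale.Agent.P247.H74 (e)
open Vale.Agent.P247.H647 (Sp)

/-- matrices as linear maps -/
def apL : M4 →L[ℝ] V4 →L[ℝ] V4 := (LinearMap.mk₂ ℝ app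
  (fun _ _ _ => by funext i; simp [app, add_mul, Finset.sum_add_distrib])
  (fun _ _ _ => by funext i; simp [app, Finset.mul_sum, mul_assoc]) app_add
  fun _ _ _ => app_smul _ _ _).toContinuousBilinearMap

theorem det_apL (G : Mx) : (apL G).det = G.det := LinearMap.det_toLin' G

theorem inj_apL (G : Mx) : Injective (apL G) ↔ G.det ≠ 0 :=
  (Matrix.mulVec_injective_iff_isUnit (A := G)).trans (G.isUnit_iff_isUnit_det.trans isUnit_iff_ne_zero)

theorem apL_cM : apL cM = cqL := ContinuousLinearMap.ext fun v => funext fun i => by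
  change (cM.mulVec v) i = cq v i
  fin_cases i <;> simp [cM, Matrix.mulVec_diagonal, cq]

variable {X : Type} [MetricSpace X] (Q : QM X)

/-- the coframe -/
def nE (a : Q.A) (y : V4) : V4 ≃L[ℝ] V4 :=
  .equivOfInverse (apL (Q.n a y)) (apL (Q.n' a y)) (Q.n'_n a y) (Q.n_n' a y)

theorem det_nE (a : Q.A) (y : V4) : 0 < (nE Q a y : V4 →L[ℝ] V4).det := by
  have h := Q.m_det a y
  have k : det4 (Rq (Q.p a y)) = (∑ c, Q.p a y c ^ 2) ^ 2 := by
    simp [det4, mn, Rq, Fin.sum_univ_four]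
    ring
  rw [Q.m_eq, det4_mm, k, Q.p_unit, one_pow, one_mul, det4_eq_det] at h
  exact h.trans_eq (det_apL _).symm

/-- the normal forms of the zeros -/
def Tg (a : Q.A) (y : V4) : Set (V4 →L[ℝ] Sp) := {K | ∃ A : V4 ≃L[ℝ] V4,
  ((A : V4 →L[ℝ] V4) = .id ℝ V4 ∨ (A : V4 →L[ℝ] V4) = cqL) ∧ ∀ t, K t = spn (A (nE Q a y t))}

theorem path (a : Q.A) (y : V4) (L : V4 →L[ℝ] Sp) (h : Injective L) : ∃ γ : ℝ → V4 →L[ℝ] Sp,
    ContDiff ℝ ∞ γ ∧ γ 0 = L ∧ γ 1 ∈ Tg Q a y ∧ ∀ t, Injective (γ t) := by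
  let K : V4 →L[ℝ] V4 := vecL.comp (L.comp ((nE Q a y).symm : V4 →L[ℝ] V4))
  have k : apL (fun i j => K (e j) i) = K := ContinuousLinearMap.ext fun v => funext fun i => by
    rw [clm_vec K, Finset.sum_apply]
    change ∑ j, K (e j) i * v j = _
    exact Finset.sum_congr rfl fun j _ => mul_comm _ _
  have i : Injective K := (LeftInverse.injective spn_vec).comp (h.comp (nE Q a y).symm.injective)
  obtain ⟨γ, g1, g2, g3, g4⟩ := glp ((inj_apL _).1 (k.symm ▸ i))
  have g0 : ContDiff ℝ ∞ fun t => apL (γ t) :=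
    apL.contDiff.comp (contDiff_pi.2 fun i => contDiff_pi.2 (g1 i))
  refine ⟨fun t => spnL.comp ((apL (γ t)).comp (nE Q a y : V4 →L[ℝ] V4)),
    contDiff_const.clm_comp (g0.clm_comp contDiff_const),
    ContinuousLinearMap.ext fun v => ?_, ?_, fun t => (LeftInverse.injective vec_spn).comp
      (((inj_apL _).2 (g4 t)).comp (nE Q a y).injective)⟩
  · simp only [g2, k]
    simp [K, spn_vec]
  · rcases g3 with g | g
    · exact ⟨.refl ℝ _, .inl rfl, fun t => by
        simp only [g]; exact congrArg spn (Matrix.one_mulVec (nE Q a y t))⟩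
    · exact ⟨.equivOfInverse cqL cqL cq_cq cq_cq, .inr rfl, fun t => by simp only [g, apL_cM]; rfl⟩

theorem exists_zr {V W : Type} [NormedAddCommGroup V] [InnerProductSpace ℝ V]
    [NormedAddCommGroup W] [InnerProductSpace ℝ W] {E : Bun Q.toCM V} {F : Bun Q.toCM W}
    {P : Op E F} {B : X → V →L[ℝ] W} {A S : V4 →L[ℝ] V →L[ℝ] W} {a : Q.A} {y : V4} {x : X}
    (hx : Q.ψ a y = x) (hM : ∀ j, P.Mi a j y = A fun d => Q.b a y d j)
    (hB : Bl E F B a =ᶠ[𝓝 y] fun z => S (nE Q a y (z - y)))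
    (hc : Cl (A.comp (i1 : R4 →L[ℝ] V4)) (S.comp (i1 : R4 →L[ℝ] V4))) :
    ∃ Z : Zr P B x, Z.Mm = A.comp (i1 : R4 →L[ℝ] V4) ∧ Z.S = S.comp (i1 : R4 →L[ℝ] V4) := by
  refine ⟨⟨a, y, hx, i1.trans (nE Q a y).symm, _, _, hc, fun k => ?_, by
    simpa using hB.self_of_nhds, ?_⟩, rfl, rfl⟩
  · simp only [hM, ← map_smul, ← map_sum]
    refine congrArg A (funext fun d => ?_)
    have := congrFun (Q.n_n' a y (e d)) k
    rw [Finset.sum_apply]
    refine Eq.trans ?_ (this.symm.trans (Finset.sum_congr rfl fun j _ => congrArg (· * _)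
      (app_e _ _ _).symm))
    simp [i1_ee, e, Pi.single_apply, eq_comm]
  · have t : Tendsto (fun z => y + (i1.trans (nE Q a y).symm) z) (𝓝 0) (𝓝 y) :=
      Continuous.tendsto' (by fun_prop) _ _ (by simp)
    exact (S.comp (i1 : R4 →L[ℝ] V4)).hasFDerivAt.congr_of_eventuallyEq
      ((t.eventually hB).mono fun z k => by simpa using k)

theorem cliff_Mq {E F : Bun Q.toCM (Su Sp Sp)} {P : Op E F}
    (hM : ∀ a j y, P.Mi a j y = Mq fun d => Q.b a y d j) : P.Cliff := fun a y ξ h => by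
  refine ⟨‖spn (copp ξ (Q.n' a y))‖, norm_pos_iff.2 fun k => h ?_, fun v =>
    (sq_eq_sq₀ (by positivity) (by positivity)).1 ?_⟩
  · rw [← Q.copp_n'_n a y ξ, ← vec_spn (copp ξ (Q.n' a y)), k, ← vecL_apply, map_zero, copp_zero]
  · simp only [hM, ← map_smul, ← map_sum]
    rw [norm_Mq, mul_pow, ← ns_vec, vec_spn]
    refine congrArg (ns · * _) (funext fun d => ?_)
    simp [copp, Q.b_apply]

theorem ell : Ell := ⟨fred, REG, ZER, CLG, CLA⟩

variable (L : LBc Q.toCM) (s : X → Sp)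

theorem bl1 (a : Q.A) : Bl (bsum L.bp Q.t1) (bsum (Q.bm L) Q.t0) (fun x => Bm (s x)) a =
    fun y => Bm (L.lo a s y) := funext fun y => ContinuousLinearMap.ext fun v => by
  change toLp 2 (conj (L.γ a y) • sgm (cq (Q.p a y)) (ph (s _) ((1 : ℂ) • sgm (Q.p a y) v.snd)),
    conj (1 : ℂ) • -ph' (s _) (L.γ a y • v.fst)) = toLp 2 (ph (_ • _) _, -ph' (_ • _) _)
  simp [ph_sgm, sgm_cq, Q.p_unit, ph_smul, ph'_smul]

theorem bl2 (a : Q.A) : Bl (bsum (Q.bm L) Q.t0) (bsum L.bp Q.t1) (fun x => -Bm (s x)) a =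
    fun y => -Bm (L.lo a s y) := funext fun y => ContinuousLinearMap.ext fun v => by
  change toLp 2 (conj (L.γ a y) • -ph (s _) ((1 : ℂ) • v.snd), conj (1 : ℂ) • sgm (cq (Q.p a y))
    (- -ph' (s _) (L.γ a y • sgm (Q.p a y) v.fst))) = toLp 2 (-ph (_ • _) _, - -ph' (_ • _) _)
  simp [ph'_sgm, sgm_cq, Q.p_unit, ph_smul, ph'_smul]

variable [MeasurableSpace X] [BorelSpace X]

theorem mi1 (a : Q.A) (j : Fin 4) (y : V4) :
    (osum (Q.dirac L) (Hx.Ds Q)).Mi a j y = Mq fun d => Q.b a y d j :=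
  ContinuousLinearMap.ext fun _ => congrArg (toLp 2) (Prod.ext rfl (Hx.Ds_Mi Q a j y _))

theorem mi2 (a : Q.A) (j : Fin 4) (y : V4) :
    (osum (Q.dirac L).adj (Q.dirac (.triv _))).Mi a j y = (-Mq.comp cqL) fun d => Q.b a y d j :=
  ContinuousLinearMap.ext fun v => by
    rw [neg_apply, neg_apply, ContinuousLinearMap.comp_apply, cqL_apply, Mq_apply, cq_cq, ← toLp_neg,
      Prod.neg_mk, neg_neg, ← Hx.Ds_Mi]
    rfl

variable [CompactSpace X] {s}

theorem wd (hs : L.Sm s) : Wd (osum (Q.dirac L) (Hx.Ds Q))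
    (osum (Q.dirac L).adj (Q.dirac (.triv _))) (fun x => Bm (s x)) fun x => -Bm (s x) :=
  ⟨osum_adj (Q.dirac L).isAdj_adj (Q.dirac _).isAdj_adj.symm,
    fun a => (congrArg _ (bl1 Q L s a)).mpr (Bm.contDiff.comp (hs a)),
    fun a => (congrArg _ (bl2 Q L s a)).mpr (Bm.contDiff.comp (hs a)).neg, fun x => adj_Bm _,
    fun a j y v w => by rw [mi1, bl1]; exact sy_Bm _ _ _ _,
    fun a j y v w => by rw [mi2, bl2]; simpa using sy_Bm _ _ _ _⟩

theorem ind_sub : (osum (Q.dirac L) (Hx.Ds Q)).ind = (Q.dirac L).ind + -(Q.dirac (.triv _)).ind := by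
  have c0 := Q.dirac_cliff (.triv _)
  have a0 := (Q.dirac (.triv _)).isAdj_adj
  rw [ell.ind_sum rfl rfl rfl (Q.dirac L).isAdj_adj a0.symm (Q.dirac_cliff L)
    (CLA _ _ _ _ _ _ rfl _ _ a0 c0) (cliff_Mq Q (mi1 Q L)), ell.ind_adj rfl a0 c0]

open Classical in
theorem ind_card (hs : L.Sm s) {ι : Type} [Fintype ι] {q : ι → X} (hq : Injective q)
    (hz : ∀ x, s x = 0 → x ∈ Set.range q) {a : ι → Q.A} {y : ι → V4}
    (hy : ∀ i, Q.ψ (a i) (y i) = q i) {A : ι → V4 →L[ℝ] V4} (hA : ∀ i, A i = .id ℝ V4 ∨ A i = cqL)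
    (hl : ∀ i, L.lo (a i) s =ᶠ[𝓝 (y i)] fun z => spn (A i (nE Q (a i) (y i) (z - y i)))) :
    (osum (Q.dirac L) (Hx.Ds Q)).ind =
      (Fintype.card {i // A i = .id ℝ V4} : ℤ) - Fintype.card {i // ¬ A i = .id ℝ V4} := by
  have n : ∀ i t, ns (A i t) = ns t := fun i t => by
    rcases hA i with h | h <;> rw [h]
    exacts [rfl, ns_cq t]
  choose Z z1 z2 using fun i => exists_zr Q (A := Mq.comp (.id ℝ V4))
    (S := Bm.comp (spnL.comp (A i))) (hy i) (mi1 Q L _ · _) (by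
      rw [bl1]; exact (hl i).mono fun z k => congrArg Bm k) (cl_Mq (fun _ => rfl) (n i))
  choose Z' z3 z4 using fun i => exists_zr Q (A := -Mq.comp cqL)
    (S := -Bm.comp (spnL.comp (A i))) (hy i) (mi2 Q L _ · _) (by
      rw [bl2]; exact (hl i).mono fun z k => congrArg (-Bm ·) k) (by
      simpa only [ContinuousLinearMap.neg_comp] using (cl_Mq ns_cq (n i)).neg)
  simp only [ContinuousLinearMap.neg_comp] at z3 z4
  exact (wd Q L hs).ind ell rfl (cliff_Mq Q (mi1 Q L)) hq Z Z' (σ := fun x => ‖s x‖ ^ 2)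
    (hs.cont_norm.pow 2) (fun x => norm_Bm _) (fun x v => by simp [norm_Bm])
    (fun x => by positivity) (fun x hx => pow_pos (norm_pos_iff.2 fun k => hx (hz x k)) 2) _
    (fun i h => by rw [z1, z2, h]; exact ker_Mq (.inl rfl))
    (fun i h => by rw [z1, z2]; exact nok_Mq (.inl ⟨rfl, (hA i).resolve_left h⟩))
    (fun i h => by rw [z3, z4, (hA i).resolve_left h]; exact (ker_Mq (.inr rfl)).neg)
    fun i h => by rw [z3, z4]; exact (nok_Mq (.inr ⟨rfl, h⟩)).neg

/-- **the index formula** -/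
theorem ind : IND_statement := by
  intro X _ _ _ _ _ Q L
  classical
  obtain ⟨s, hs, fin, hz⟩ := nor L.bp (.equivOfInverse spnL vecL vec_spn spn_vec) (Tg Q) (path Q)
  have := fin.fintype
  choose a y hy K hK hl using fun i : {x | s x = 0} => hz i i.2
  choose A hA hK using hK
  have hq : Injective fun i : {x | s x = 0} => (i : X) := Subtype.val_injective
  have k := congrArg (Int.cast : ℤ → ℝ) ((ind_sub Q L).symm.trans (ind_card Q L hs hq
    (fun x k => ⟨⟨x, k⟩, rfl⟩) hy hA fun i => (hl i).mono fun z k => k.trans (hK i _)))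
  have d : ∀ i, ((nE Q (a i) (y i)).trans (A i) : V4 →L[ℝ] V4).det /
      |((nE Q (a i) (y i)).trans (A i) : V4 →L[ℝ] V4).det| =
        if (A i : V4 →L[ℝ] V4) = .id ℝ V4 then 1 else -1 := fun i => by
    have p := det_nE Q (a i) (y i)
    rw [show ((nE Q (a i) (y i)).trans (A i) : V4 →L[ℝ] V4).det = (A i : V4 →L[ℝ] V4).det *
      (nE Q (a i) (y i) : V4 →L[ℝ] V4).det from LinearMap.det_comp _ _]
    split_ifs with h
    · rw [h, show (ContinuousLinearMap.id ℝ V4).det = 1 from LinearMap.det_id, one_mul,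
        abs_of_pos p, div_self p.ne']
    · rw [(hA i).resolve_left h, ← apL_cM, det_apL, show cM.det = -1 by
        simp [cM, Fin.prod_univ_four], neg_one_mul, abs_neg, abs_of_pos p,
        neg_div, div_self p.ne']
  rw [cnt L hs hq (fun x k => ⟨⟨x, k⟩, rfl⟩) hy
    (fun i => (nE Q (a i) (y i)).trans (A i)) fun i => (hl i).mono fun z k =>
      (congrArg vec (k.trans (hK i _))).trans (vec_spn _), ← Finset.sum_mul,
    mul_div_cancel_right₀ _ (by positivity), ← sub_eq_iff_eq_add', sub_eq_add_neg]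
  push_cast at k
  simp only [d, k]
  simp [Finset.sum_ite, Fintype.card_subtype, sub_eq_add_neg]

end Vale.Agent.P247I
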