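import Mathlib

/-!
# P247I: the index from a spectral gap and an approximate cokernel
-/

open Module

namespace Vale.Agent.P247I

theorem abs_ind {U U' Y : Type} [AddCommGroup U] [Module ℝ U] [AddCommGroup U'] [Module ℝ U']
    [AddCommGroup Y] [Module ℝ Y] [FiniteDimensional ℝ Y] (b : U →ₗ[ℝ] U →ₗ[ℝ] ℝ)
    (b' : U' →ₗ[ℝ] U' →ₗ[ℝ] ℝ) (T : U →ₗ[ℝ] U') (T' : U' →ₗ[ℝ] U) (l : U →ₗ[ℝ] Y)
    (F : Submodule ℝ U') [FiniteDimensional ℝ F] [FiniteDimensional ℝ (LinearMap.ker T')]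
    (b0 : ∀ u, 0 ≤ b u u) (bs : ∀ u v, b u v = b v u) (bd : ∀ u, b u u = 0 → u = 0)
    (adj : ∀ u w, b' (T u) w = b u (T' w))
    (solv : ∀ g, (∀ t, T' t = 0 → b' g t = 0) → ∃ u, T u = g) {a c : ℝ} (ha : 0 < a) (hc : c < a)
    (gap : ∀ u, l u = 0 → a * b u u ≤ b' (T u) (T u))
    (apx : ∀ w ∈ F, b (T' w) (T' w) ≤ c * b' w w) :
    finrank ℝ (LinearMap.ker T) + finrank ℝ F ≤ finrank ℝ Y + finrank ℝ (LinearMap.ker T') := by
  have inj : Function.Injective (l.domRestrict (F.comap T)) := by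
    rw [injective_iff_map_eq_zero]
    intro u hu
    have h1 := gap u hu
    have h2 := apx _ u.2
    have h3 := b0 (a • (u : U) - T' (T u))
    have h4 := adj u (T u)
    simp only [map_sub, map_smul, LinearMap.sub_apply, LinearMap.smul_apply, smul_eq_mul,
      bs (T' _) u] at h3
    have h5 := mul_le_mul_of_nonneg_left h1 ha.le
    have h6 : b' (T u) (T u) ≤ 0 := by
      by_contra h
      nlinarith [mul_pos (sub_pos.2 hc) (not_le.1 h)]
    exact Subtype.ext (bd _ (le_antisymm (by nlinarith) (b0 _)))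
  have := FiniteDimensional.of_injective _ inj
  have k1 := LinearMap.finrank_le_finrank_of_injective inj
  let R : F.comap T →ₗ[ℝ] F := T.restrict fun _ h => h
  let φ : F →ₗ[ℝ] Dual ℝ (LinearMap.ker T') := b'.domRestrict₁₂ F _
  have k2 := R.finrank_range_add_finrank_ker
  have k3 := φ.finrank_range_add_finrank_ker
  have k4 : finrank ℝ (LinearMap.ker φ) ≤ finrank ℝ (LinearMap.range R) :=
    Submodule.finrank_mono fun g hg => by
      obtain ⟨u, hu⟩ := solv g fun t ht => LinearMap.congr_fun hg ⟨t, ht⟩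
      exact ⟨⟨u, by rw [Submodule.mem_comap, hu]; exact g.2⟩, Subtype.ext hu⟩
  have k5 : finrank ℝ (LinearMap.range φ) ≤ finrank ℝ (LinearMap.ker T') :=
    (Submodule.finrank_le _).trans Subspace.dual_finrank_eq.le
  have k6 : finrank ℝ (LinearMap.ker R) = finrank ℝ (LinearMap.ker T) := by
    rw [LinearMap.ker_restrict]
    exact (Submodule.comapSubtypeEquivOfLe fun u hu => by
      rw [Submodule.mem_comap, LinearMap.mem_ker.1 hu]; exact F.zero_mem).finrank_eq
  omega

end Vale.Agent.P247I
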