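import Vale.Agent.P247I.Deg
import Vale.Agent.P247E.Jac

/-!
# P247I: the square of the curvature counts the common zeros of two sections
-/

open MeasureTheory Metric Set Filter Topology
open scoped ContDiff ComplexConjugate

noncomputable section

namespace Vale.Agent.P247I

open Vale.Agent.P204.GX Vale.Agent.P204.T4 Vale.Agent.P247E
open Vale.Agent.P247.H74 (e)
open Vale.Agent.P247.H647 (Sp cov)

theorem ns_vec (φ : Sp) : ns (vec φ) = ‖φ‖ ^ 2 := by
  simp [ns, vec_eq, Fin.sum_univ_four, P247.H647.norm_sq_sp, Complex.sq_norm, Complex.normSq_apply]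
  ring

theorem im_inner (φ ψ : Sp) : (inner ℂ φ ψ).im = ∑ k, lv (vec φ) k * vec ψ k := by
  simp [lv, vec_eq, Fin.sum_univ_four, PiLp.inner_apply, Fin.sum_univ_two]
  ring

variable {X : Type} [MetricSpace X] {M : CM X} (L : LBc M) {s : X → Sp}

/-- the cut-off connection form of a pair of sections -/
def ga (u : ℝ → ℝ) (s : X → Sp) (x : X) : V4 :=
  u (‖s x‖ ^ 2) • fun c => (inner ℂ (s x) (L.cv s x c)).im

theorem cf1_ga (u : ℝ → ℝ) (hs : L.Sm s) (a : M.A) : (fun y i => L.A a y (e i)) +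
    M.cf1 a (ga L u s) = om u (fun y => vec (L.lo a s y)) fun y i => L.A a y (e i) := by
  funext y i
  have d := ((hs a).differentiable (by simp) y).hasFDerivAt
  have e1 : ∀ k, Dm (fun y => vec (L.lo a s y)) y k i = vec (fderiv ℝ (L.lo a s) y (e i)) k :=
    fun k => congrArg (fun T : V4 →L[ℝ] ℝ => T (e i)) ((hasFDerivAt_pi'.1
      (vecL.hasFDerivAt.comp y d)) k).fderiv
  have e2 : ∀ c, (inner ℂ (s (M.ψ a y)) (L.cv s (M.ψ a y) c)).im =
      ∑ k, lv (vec (L.lo a s y)) k * vec (fderiv ℝ (L.lo a s) y (fv M a y c)) k -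
        L.A a y (fv M a y c) * ns (vec (L.lo a s y)) := fun c => by
    rw [L.cv_psi hs, ← L.γ_lo a s y, inner_smul_left, inner_smul_right, ← mul_assoc, L.conj_mul,
      one_mul, cov, inner_sub_right, inner_smul_right, Complex.sub_im, im_inner, ns_vec,
      inner_self_eq_norm_sq_to_K]
    simp [← Complex.ofReal_pow]
  simp only [om, Pi.add_apply, Pi.smul_apply, CM.cf1, copp, ga, a0, e1, e2, ← L.norm_lo a s y,
    ← ns_vec, smul_eq_mul]
  rw [← sum_m_fv (fderiv ℝ (L.lo a s) y) a y, ← sum_m_fv (L.A a y) a y]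
  simp only [← vecL_apply, map_add, map_smul, Fin.sum_univ_four, Pi.add_apply, Pi.smul_apply,
    smul_eq_mul]
  ring

theorem sm_om {u : ℝ → ℝ} {δ : ℝ} (h : Cu u δ) {τ A : V4 → V4} (hτ : ContDiff ℝ ∞ τ)
    (hA : ContDiff ℝ ∞ A) : ContDiff ℝ ∞ (om u τ A) :=
  (contDiff_copp.comp ((h.sm_a0.comp hτ).prodMk (contDiff_Dm hτ))).add
    ((contDiff_const.sub ((sm_ns.comp hτ).mul (h.sm.comp (sm_ns.comp hτ)))).smul hA)

variable [CompactSpace X] [MeasurableSpace X] [BorelSpace X]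

/-- **the count** -/
theorem cnt (hs : L.Sm s) {ι : Type} [Fintype ι] {q : ι → X} (hq : Function.Injective q)
    (hz : ∀ x, s x = 0 → x ∈ range q) {a : ι → M.A} {y : ι → V4} (hy : ∀ i, M.ψ (a i) (y i) = q i)
    (N : ι → V4 ≃L[ℝ] V4)
    (hN : ∀ i, (fun z => vec (L.lo (a i) s z)) =ᶠ[𝓝 (y i)] fun z => N i (z - y i)) :
    M.pr L.F L.F =
      ∑ i, (N i : V4 →L[ℝ] V4).det / |(N i : V4 →L[ℝ] V4).det| * (4 * Real.pi ^ 2) := by
  obtain ⟨O', hO, hd⟩ := (finite_range q).t2_separation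
  let O := fun i => O' (q i) ∩ M.ψ (a i) ''
    {z | (fun z => vec (L.lo (a i) s z)) =ᶠ[𝓝 z] fun z => N i (z - y i)}
  have o1 : ∀ i, IsOpen (O i) := fun i =>
    (hO _).2.inter ((M.ψo _).isOpenMap _ isOpen_setOfPred_eventually_nhds)
  have o2 : ∀ i, q i ∈ O i := fun i => ⟨(hO _).1, _, hN i, hy i⟩
  obtain ⟨δ₀, δ0, h0⟩ := (isOpen_iUnion o1).isClosed_compl.isCompact.exists_forall_le'
    (f := fun x => ‖s x‖ ^ 2) (a := 0) (hs.cont_norm.pow 2).continuousOn fun x hx =>
      pow_pos (norm_pos_iff.2 fun k => by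
        obtain ⟨i, rfl⟩ := hz x k
        exact hx (mem_iUnion.2 ⟨i, o2 i⟩)) 2
  have ev : ∀ i, ∀ᶠ δ in 𝓝[>] (0 : ℝ), ∀ z, M.ψ (a i) z ∉ O i → δ < ns (N i (z - y i)) := fun i => by
    have c : Continuous fun t => M.ψ (a i) (y i + (N i).symm t) :=
      (M.continuous_ψ _).comp (by fun_prop)
    obtain ⟨r, r0, hr⟩ := Metric.mem_nhds_iff.1 (c.continuousAt (x := 0).preimage_mem_nhds
      ((o1 i).mem_nhds (by simpa [hy] using o2 i)))
    filter_upwards [nhdsWithin_le_nhds (gt_mem_nhds (pow_pos r0 2))] with δ hδ z hz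
    refine hδ.trans_le ((pow_le_pow_left₀ r0.le (not_lt.1 fun k => hz ?_) 2).trans (CM.le_sum_sq _))
    simpa using hr (mem_ball_zero_iff.2 k)
  obtain ⟨δ, ⟨h1, h2⟩, h3⟩ := (((eventually_all.2 ev).and
    (nhdsWithin_le_nhds (gt_mem_nhds δ0))).and self_mem_nhdsWithin).exists
  obtain ⟨u, hu⟩ := exists_cu h3
  have τs : ∀ a, ContDiff ℝ ∞ fun y => vec (L.lo a s y) := fun a => vecL.contDiff.comp (hs a)
  have g1 : M.Sm1 (ga L u s) := fun a => by
    rw [eq_sub_of_add_eq' (cf1_ga L u hs a)]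
    exact (sm_om hu (τs a) (L.cd_A a)).sub (L.cd_A a)
  have c1 : ∀ a z, Q ((L.F + M.dX (ga L u s)) (M.ψ a z)) ((L.F + M.dX (ga L u s)) (M.ψ a z)) *
      det4 (M.m a z) = Q (d1 (om u (fun y => vec (L.lo a s y)) fun y i => L.A a y (e i)) z)
        (d1 (om u (fun y => vec (L.lo a s y)) fun y i => L.A a y (e i)) z) := fun a z => by
    rw [mul_comm, ← Q_pull, ← CM.cf, M.cf_add, L.cf_F, M.cf_dX g1, Pi.add_apply,
      ← d1_add ((L.cd_A a).differentiable (by simp)) ((g1 a).differentiable (by simp)),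
      cf1_ga L u hs]
  have m1 := M.dX_mem_Om g1
  have it : ∀ {v w : X → L2}, v ∈ M.Om → w ∈ M.Om → Integrable (fun x => Q (v x) (w x)) M.mu :=
    fun hv hw => M.integrable_Q7 (M.Om_le_C07 hv) (M.Om_le_C07 hw)
  have e1 : M.pr L.F L.F =
      ∫ x, Q ((L.F + M.dX (ga L u s)) x) ((L.F + M.dX (ga L u s)) x) ∂M.mu := by
    have k1 := pr_dX g1 L.F_mem L.F_closed
    have k2 := pr_dX g1 m1 fun a => by rw [M.cf_dX g1]; exact closed_d1 (g1 a)
    simp only [Pi.add_apply, Q_add_left, Q_add_right, Q_comm (L.F _) (M.dX _ _)]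
    rw [integral_add (by exact (it L.F_mem L.F_mem).add (it m1 L.F_mem))
      (by exact (it m1 L.F_mem).add (it m1 m1)), integral_add (it L.F_mem L.F_mem) (it m1 L.F_mem),
      integral_add (it m1 L.F_mem) (it m1 m1)]
    simp only [CM.pr] at k1 k2 ⊢
    rw [k1, k2]
    ring
  have m2 := M.Om.add_mem L.F_mem m1
  rw [e1, ← setIntegral_eq_integral_of_forall_compl_eq_zero (s := ⋃ i, O i) fun x hx => by
    have := (c1 (M.ch x) (M.cy x)).trans (hu.Q_zero (τs _) _ (by
      rw [ns_vec, L.norm_lo, M.ψ_cy]; exact h2.trans_le (h0 x hx)))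
    rw [M.ψ_cy] at this
    exact (mul_eq_zero.1 this).resolve_right (M.m_det _ _).ne',
    integral_iUnion_fintype (fun i => (o1 i).measurableSet) (fun i j hij =>
      (hd (mem_range_self i) (mem_range_self j) (hq.ne hij)).mono inter_subset_left
        inter_subset_left) fun i => (it m2 m2).integrableOn]
  refine Finset.sum_congr rfl fun i _ => ?_
  rw [← hu.int_om (N i) (y i) (L.cd_A (a i)), ← integral_indicator (o1 i).measurableSet,
    M.integral_chart (a i) fun x hx => indicator_of_notMem (fun k => hx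
      (image_subset_range _ _ k.2)) _]
  refine integral_congr_ae (.of_forall fun z => ?_)
  by_cases hz : M.ψ (a i) z ∈ O i
  · obtain ⟨z', k, e⟩ := hz.2
    simp only [indicator_of_mem hz, c1, om_congr _ (M.ψ_inj _ e ▸ k)]
  · simp only [indicator_of_notMem hz, zero_mul]
    exact (hu.Q_zero ((N i).contDiff.comp (contDiff_id.sub contDiff_const)) _ (h1 i z hz)).symm

end Vale.Agent.P247I
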