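import Vale.Agent.P247I.Osc
import Vale.Agent.P204.Bdl.B4

/-!
# P247I: the local degree formula
-/

open MeasureTheory Metric Set Filter Topology
open scoped ContDiff

noncomputable section

namespace Vale.Agent.P247I

open Vale.Agent.P204.GX Vale.Agent.P204.T4

/-- the square of the Euclidean norm -/
def ns (t : V4) : ℝ := ∑ i, t i ^ 2

theorem sm_ns : ContDiff ℝ ∞ ns := by unfold ns; fun_prop

/-- cut-off inverses -/
structure Cu (u : ℝ → ℝ) (δ : ℝ) : Prop where
  sm : ContDiff ℝ ∞ u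
  one : ∀ r, δ ≤ r → r * u r = 1

theorem exists_cu {δ : ℝ} (h : 0 < δ) : ∃ u, Cu u δ := by
  refine ⟨fun r => Real.smoothTransition (2 * r / δ - 1) / r, contDiff_iff_contDiffAt.2 fun r => ?_,
    fun r hr => ?_⟩
  · by_cases h0 : r = 0
    · refine (contDiffAt_const (c := 0)).congr_of_eventuallyEq ?_
      filter_upwards [h0 ▸ gt_mem_nhds (half_pos h)] with s hs
      rw [Real.smoothTransition.zero_of_nonpos (by
        rw [sub_nonpos, div_le_one h]; linarith), zero_div]
    · exact (Real.smoothTransition.contDiffAt.comp r (by fun_prop)).div contDiffAt_id h0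
  · rw [Real.smoothTransition.one_of_one_le (by
      rw [le_sub_iff_add_le, le_div_iff₀ h]; linarith), mul_one_div_cancel (h.trans_le hr).ne']

/-- the Liouville form -/
def lv (t : V4) : V4 := ![-t 3, -t 2, t 1, t 0]

/-- the model one-form -/
def a0 (u : ℝ → ℝ) (t : V4) : V4 := u (ns t) • lv t

/-- the square of its differential -/
def hh (u : ℝ → ℝ) (r : ℝ) : ℝ := 8 * u r * (u r + r * deriv u r)

theorem sm_lv : ContDiff ℝ ∞ lv := contDiff_pi.2 fun i => by
  fin_cases i <;> simp only [lv, Fin.zero_eta, Fin.mk_one, Fin.reduceFinMk, Matrix.cons_val] <;>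
    fun_prop

variable {u : ℝ → ℝ} {δ : ℝ} (h : Cu u δ)
include h

theorem Cu.sm_a0 : ContDiff ℝ ∞ (a0 u) := (h.sm.comp sm_ns).smul sm_lv

theorem Cu.Q_a0 (t : V4) : Q (d1 (a0 u) t) (d1 (a0 u) t) = hh u (ns t) := by
  have d := (h.sm.differentiable (by simp) (ns t)).hasDerivAt
  have p : ∀ i, HasFDerivAt (fun t : V4 => t i) (.proj i : V4 →L[ℝ] ℝ) t :=
    fun i => hasFDerivAt_apply i t
  have d1' := d.comp_hasFDerivAt t (f := ns) (HasFDerivAt.fun_sum fun i _ => (p i).pow 2)
  have k0 : fderiv ℝ (fun y => a0 u y 0) t = _ := (d1'.mul (p 3).neg).fderiv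
  have k1 : fderiv ℝ (fun y => a0 u y 1) t = _ := (d1'.mul (p 2).neg).fderiv
  have k2 : fderiv ℝ (fun y => a0 u y 2) t = _ := (d1'.mul (p 1)).fderiv
  have k3 : fderiv ℝ (fun y => a0 u y 3) t = _ := (d1'.mul (p 0)).fderiv
  simp only [Q, d1, ofEnt, pd, k0, k1, k2, k3, Matrix.cons_val, hh]
  simp [Fin.sum_univ_four, ns]
  ring

theorem Cu.hh_zero {r : ℝ} (hr : δ < r) : hh u r = 0 := by
  have d := ((hasDerivAt_id r).mul (h.sm.differentiable (by simp) r).hasDerivAt).unique
    ((hasDerivAt_const r (1 : ℝ)).congr_of_eventuallyEq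
      ((lt_mem_nhds hr).mono fun s hs => h.one s hs.le))
  simp only [one_mul, id] at d
  rw [hh, d, mul_zero]

theorem Cu.int_hh : ∫ t : V4, hh u (ns t) = 4 * Real.pi ^ 2 := by
  have c := h.sm.continuous
  have c' := h.sm.continuous_deriv (by simp)
  have e1 : ∫ t : V4, hh u (ns t) = ∫ z : R4, hh u (‖z‖ ^ 2) := by
    rw [← (PiLp.volume_preserving_toLp (Fin 4)).integral_comp
      (MeasurableEquiv.toLp 2 _).measurableEmbedding]
    simp only [nsq, ns]
  have e2 : ∫ r in Ioi (0 : ℝ), r ^ 3 • hh u (r ^ 2) = 2 - 2 * (0 ^ 2 * u (0 ^ 2)) ^ 2 := by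
    refine integral_Ioi_of_hasDerivAt_of_tendsto' (f := fun r => 2 * (r ^ 2 * u (r ^ 2)) ^ 2)
      (fun r _ => ?_) ?_ (tendsto_const_nhds.congr' ?_)
    · have := ((hasDerivAt_pow 2 r).mul ((h.sm.differentiable (by simp) (r ^ 2)).hasDerivAt.comp r
        (hasDerivAt_pow 2 r))).pow 2 |>.const_mul 2
      refine this.congr_deriv ?_
      simp [hh]
      ring
    · refine (Continuous.integrable_of_hasCompactSupport (by unfold hh; fun_prop)
        (.intro (isCompact_closedBall 0 (|δ| + 1)) fun r hr => ?_)).integrableOn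
      rw [mem_closedBall_zero_iff, Real.norm_eq_abs, not_le] at hr
      rw [h.hh_zero (by nlinarith [le_abs_self δ, abs_nonneg δ, sq_abs r]), smul_zero]
    · filter_upwards [eventually_ge_atTop (|δ| + 1)] with r hr
      rw [h.one _ (by nlinarith [le_abs_self δ, abs_nonneg δ])]
      norm_num
  rw [e1, integral_fun_norm_addHaar volume fun r => hh u (r ^ 2), Measure.real,
    InnerProductSpace.volume_ball_of_dim_even (k := 2) (by simp)]
  simp only [finrank_euclideanSpace, Fintype.card_fin, Nat.add_one_sub_one, e2]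
  simp [ENNReal.toReal_ofReal (show 0 ≤ Real.pi ^ 2 / 2 by positivity)]

omit h in
/-- the form of a map `τ` and a potential `A` -/
def om (u : ℝ → ℝ) (τ A : V4 → V4) (y : V4) : V4 :=
  copp (a0 u (τ y)) (Dm τ y) + (1 - ns (τ y) * u (ns (τ y))) • A y

omit h in
theorem om_congr {τ τ' : V4 → V4} (A : V4 → V4) {y : V4} (k : τ =ᶠ[𝓝 y] τ') :
    d1 (om u τ A) y = d1 (om u τ' A) y :=
  d1_congr (k.eventuallyEq_nhds.mono fun z hz => by simp only [om, Dm_congr hz, hz.eq_of_nhds])

theorem Cu.Q_pb {τ : V4 → V4} (hτ : ContDiff ℝ ∞ τ) (y : V4) :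
    Q (d1 (fun y => copp (a0 u (τ y)) (Dm τ y)) y) (d1 (fun y => copp (a0 u (τ y)) (Dm τ y)) y) =
      det4 (Dm τ y) * hh u (ns (τ y)) := by
  rw [d1_pull (h.sm_a0.differentiable (by simp) _) hτ.contDiffAt, Q_pull, h.Q_a0]

theorem Cu.Q_zero {τ : V4 → V4} (hτ : ContDiff ℝ ∞ τ) (A : V4 → V4) {y : V4}
    (hy : δ < ns (τ y)) : Q (d1 (om u τ A) y) (d1 (om u τ A) y) = 0 := by
  rw [d1_congr (b := fun y => copp (a0 u (τ y)) (Dm τ y)) (((sm_ns.comp hτ).continuous.tendsto
    y).eventually (lt_mem_nhds hy) |>.mono fun z hz => by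
      simp [om, h.one (ns (τ z)) hz.le]), h.Q_pb hτ, h.hh_zero hy, mul_zero]

/-- **the local degree formula** -/
theorem Cu.int_om (N : V4 ≃L[ℝ] V4) (y₀ : V4) {A : V4 → V4} (hA : ContDiff ℝ ∞ A) :
    ∫ y, Q (d1 (om u (fun y => N (y - y₀)) A) y) (d1 (om u (fun y => N (y - y₀)) A) y) =
      (N : V4 →L[ℝ] V4).det / |(N : V4 →L[ℝ] V4).det| * (4 * Real.pi ^ 2) := by
  have hτ : ContDiff ℝ ∞ fun y => N (y - y₀) := N.contDiff.comp (contDiff_id.sub contDiff_const)
  have cK : IsCompact ((fun t => y₀ + N.symm t) '' closedBall 0 (|δ| + 1)) :=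
    (isCompact_closedBall _ _).image (by fun_prop)
  have far : ∀ y ∉ (fun t => y₀ + N.symm t) '' closedBall 0 (|δ| + 1), δ < ns (N (y - y₀)) :=
    fun y hy => by
      have : |δ| + 1 < ‖N (y - y₀)‖ := not_le.1 fun k => hy ⟨_, mem_closedBall_zero_iff.2 k, by simp⟩
      exact lt_of_lt_of_le (by nlinarith [le_abs_self δ, abs_nonneg δ]) (CM.le_sum_sq _)
  have s1 : ContDiff ℝ ∞ fun y => copp (a0 u (N (y - y₀))) (Dm (fun y => N (y - y₀)) y) :=
    contDiff_copp.comp ((h.sm_a0.comp hτ).prodMk (contDiff_Dm hτ))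
  have s2 : ContDiff ℝ ∞ fun y => (1 - ns (N (y - y₀)) * u (ns (N (y - y₀)))) • A y :=
    (contDiff_const.sub ((sm_ns.comp hτ).mul (h.sm.comp (sm_ns.comp hτ)))).smul hA
  have c2 : HasCompactSupport fun y => (1 - ns (N (y - y₀)) * u (ns (N (y - y₀)))) • A y :=
    .intro cK fun y hy => by rw [h.one _ (far y hy).le, sub_self, zero_smul]
  have st : ∀ {η : V4 → V4}, ContDiff ℝ ∞ η → (∫ y, Q (d1 (fun y => (1 - ns (N (y - y₀)) *
      u (ns (N (y - y₀)))) • A y) y) (d1 η y)) = 0 ∧ Integrable fun y => Q (d1 (fun y =>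
        (1 - ns (N (y - y₀)) * u (ns (N (y - y₀)))) • A y) y) (d1 η y) := fun hη =>
    ⟨stokes4 (s2.of_le (by simp)) c2 ((contDiff_d1 hη).of_le (by simp)) (closed_d1 hη),
      (continuous_Q.comp ((contDiff_d1 s2).continuous.prodMk (contDiff_d1 hη).continuous))
        |>.integrable_of_hasCompactSupport (.intro (hasCompactSupport_d1 c2) fun y hy => by
          simp only [Function.comp, image_eq_zero_of_notMem_tsupport hy, Q_zero_left])⟩
  have i1 : Integrable fun y => Q (d1 (fun y => copp (a0 u (N (y - y₀)))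
      (Dm (fun y => N (y - y₀)) y)) y) (d1 (fun y => copp (a0 u (N (y - y₀)))
        (Dm (fun y => N (y - y₀)) y)) y) :=
    (continuous_Q.comp ((contDiff_d1 s1).continuous.prodMk (contDiff_d1 s1).continuous))
      |>.integrable_of_hasCompactSupport (.intro cK fun y hy => by
        simp only [Function.comp, h.Q_pb hτ, h.hh_zero (far y hy), mul_zero])
  have e1 := d1_add (s1.differentiable (by simp)) (s2.differentiable (by simp))
  have dn : LinearMap.det (N : V4 →ₗ[ℝ] V4) ≠ 0 := N.toLinearEquiv.isUnit_det'.ne_zero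
  have e2 : ∀ y, det4 (Dm (fun y => N (y - y₀)) y) = (N : V4 →L[ℝ] V4).det := fun y => by
    rw [← det_fderiv_eq (hτ.differentiable (by simp) y)]
    exact congrArg _ (N.hasFDerivAt.comp y ((hasFDerivAt_id y).sub_const y₀)).fderiv
  have e3 : ∫ y, hh u (ns (N (y - y₀))) = |(N : V4 →L[ℝ] V4).det|⁻¹ * (4 * Real.pi ^ 2) := by
    rw [integral_sub_right_eq_self (fun y => hh u (ns (N y))) y₀, ← h.int_hh]
    refine (integral_map_equiv N.toHomeomorph.toMeasurableEquiv fun t => hh u (ns t)).symm.trans ?_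
    erw [Measure.map_linearMap_addHaar_eq_smul_addHaar volume dn]
    rw [integral_smul_measure, ENNReal.toReal_ofReal (abs_nonneg _), abs_inv]
    rfl
  simp only [show ∀ y, d1 (om u (fun y => N (y - y₀)) A) y = _ from e1, Q_add_left, Q_add_right,
    Q_comm (d1 (fun y => copp (a0 u (N (y - y₀))) _) _) (d1 (fun y => _ • A y) _)]
  rw [integral_add (by exact i1.add (st s1).2) (by exact (st s1).2.add (st s2).2),
    integral_add i1 (st s1).2, integral_add (st s1).2 (st s2).2, (st s1).1, (st s2).1]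
  simp only [h.Q_pb hτ, e2, integral_const_mul, e3, add_zero]
  ring

end Vale.Agent.P247I
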