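import Vale.Agent.P247I.Poi

/-!
# P247I: the harmonic oscillator on `ℝ⁴`
-/

open MeasureTheory Metric Set Filter Topology
open scoped ContDiff RealInnerProductSpace

noncomputable section

namespace Vale.Agent.P247I

variable {V W : Type} [NormedAddCommGroup V] [InnerProductSpace ℝ V] [NormedAddCommGroup W]
  [InnerProductSpace ℝ W]

/-- the standard basis -/
def ee (i : Fin 4) : R4 := EuclideanSpace.single i 1

/-- partial derivatives -/
def dd (i : Fin 4) (ψ : R4 → V) (z : R4) : V := fderiv ℝ ψ z (ee i)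

/-- the square of the gradient -/
def gg (ψ : R4 → V) (z : R4) : ℝ := ∑ i, ‖dd i ψ z‖ ^ 2

/-- test functions -/
structure Ts (ψ : R4 → V) : Prop where
  sm : ContDiff ℝ ∞ ψ
  cs : HasCompactSupport ψ

theorem inner_ee (i j : Fin 4) : ⟪ee i, ee j⟫ = if i = j then 1 else 0 := by
  simp [ee, EuclideanSpace.inner_single_left]

theorem gg_nonneg (ψ : R4 → V) (z : R4) : 0 ≤ gg ψ z := Finset.sum_nonneg fun _ _ => sq_nonneg _

theorem sm_dd {ψ : R4 → V} (h : ContDiff ℝ ∞ ψ) (i : Fin 4) : ContDiff ℝ ∞ (dd i ψ) :=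
  (h.fderiv_right (m := ∞) le_rfl).clm_apply contDiff_const

theorem dd_comm {ψ : R4 → V} (h : ContDiff ℝ ∞ ψ) (i j : Fin 4) (z : R4) :
    dd i (dd j ψ) z = dd j (dd i ψ) z := by
  have d := (h.fderiv_right (m := ∞) le_rfl).differentiable (by simp) z
  have e : ∀ i j, dd i (dd j ψ) z = fderiv ℝ (fderiv ℝ ψ) z (ee i) (ee j) := fun i j => by
    unfold dd
    rw [fderiv_clm_apply d (differentiableAt_const _)]
    simp
  rw [e, e]
  exact (h.contDiffAt.isSymmSndFDerivAt (by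
    rw [minSmoothness_of_isRCLikeNormedField]; exact WithTop.coe_le_coe.2 le_top)).eq _ _

theorem int_div {F : R4 → ℝ} (hF : ContDiff ℝ ∞ F) (hc : HasCompactSupport F) (v : R4) :
    ∫ z, fderiv ℝ F z v = 0 := by
  have c := hF.continuous_fderiv (by simp)
  have := integral_mul_fderiv_eq_neg_fderiv_mul_of_integrable (μ := volume) (f := fun _ => 1)
    (g := F) (v := v) (by simp) (by
      simpa using Continuous.integrable_of_hasCompactSupport (by fun_prop) (hc.fderiv_apply ℝ v))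
    (by simpa using hF.continuous.integrable_of_hasCompactSupport hc) (fun _ _ => by fun_prop)
    fun z _ => hF.differentiable (by simp) z
  simpa using this

namespace Ts

variable {ψ : R4 → V} (h : Ts ψ)
include h

theorem cont : Continuous ψ := h.sm.continuous

theorem cdd (i : Fin 4) : Continuous (dd i ψ) := (sm_dd h.sm i).continuous

theorem cgg : Continuous (gg ψ) := continuous_finsetSum _ fun i _ => (h.cdd i).norm.pow 2

theorem supp {U : Type} [Zero U] {F : R4 → U} (h0 : ∀ z, ψ z = 0 → (∀ i, dd i ψ z = 0) → F z = 0) :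
    HasCompactSupport F :=
  .intro h.cs fun z hz => h0 z (image_eq_zero_of_notMem_tsupport hz) fun i => by
    rw [dd, fderiv_of_notMem_tsupport ℝ hz]; rfl

theorem int {F : R4 → ℝ} (hF : Continuous F)
    (h0 : ∀ z, ψ z = 0 → (∀ i, dd i ψ z = 0) → F z = 0) : Integrable F :=
  hF.integrable_of_hasCompactSupport (h.supp h0)

theorem igg : Integrable (gg ψ) := h.int h.cgg fun z _ h1 => by simp [gg, h1]

theorem isq : Integrable fun z => ‖ψ z‖ ^ 2 := h.int (h.cont.norm.pow 2) fun z h1 _ => by simp [h1]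

theorem iwt : Integrable fun z => ‖z‖ ^ 2 * ‖ψ z‖ ^ 2 :=
  h.int ((continuous_norm.pow 2).mul (h.cont.norm.pow 2)) fun z h1 _ => by simp [h1]

theorem swap (A B : V →L[ℝ] W) (i j : Fin 4) :
    ∫ z, ⟪A (dd i ψ z), B (dd j ψ z)⟫ = ∫ z, ⟪A (dd j ψ z), B (dd i ψ z)⟫ := by
  have k : ∀ i j, ∫ z, (⟪A (ψ z), B (dd i (dd j ψ) z)⟫ + ⟪A (dd i ψ z), B (dd j ψ z)⟫) = 0 :=
    fun i j => by
      rw [← int_div (F := fun z => ⟪A (ψ z), B (dd j ψ z)⟫) ((A.contDiff.comp h.sm).inner ℝ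
        (B.contDiff.comp (sm_dd h.sm j))) (h.supp fun z h1 _ => by simp [h1]) (ee i)]
      refine integral_congr_ae (.of_forall fun z => ?_)
      have := ((A.hasFDerivAt.comp z (h.sm.differentiable (by simp) z).hasFDerivAt).inner ℝ
        (B.hasFDerivAt.comp z ((sm_dd h.sm j).differentiable (by simp) z).hasFDerivAt)).fderiv
      simp only [Function.comp_def] at this
      simp only [this]
      rfl
  have c := h.cont
  have c1 := h.cdd
  have c2 := fun i j => (sm_dd (sm_dd h.sm j) i).continuous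
  have k1 := k i j
  have k2 := k j i
  rw [integral_add (h.int (by fun_prop) fun z h1 _ => by simp [h1])
    (h.int (by fun_prop) fun z _ h1 => by simp [h1])] at k1 k2
  simp only [dd_comm h.sm j i] at k2
  linarith

theorem cross (A : V →L[ℝ] W) (S : R4 →L[ℝ] V →L[ℝ] W)
    (hs : ∀ z v w, ⟪A v, S z w⟫ = ⟪A w, S z v⟫) (i : Fin 4) :
    ∫ z, (2 * ⟪A (dd i ψ z), S z (ψ z)⟫ + ⟪A (ψ z), S (ee i) (ψ z)⟫) = 0 := by
  rw [← int_div (F := fun z => ⟪A (ψ z), S z (ψ z)⟫) ((A.contDiff.comp h.sm).inner ℝ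
    (S.contDiff.clm_apply h.sm)) (h.supp fun z h1 _ => by simp [h1]) (ee i)]
  refine integral_congr_ae (.of_forall fun z => ?_)
  have d := (h.sm.differentiable (by simp) z).hasFDerivAt
  have := ((A.hasFDerivAt.comp z d).inner ℝ (S.hasFDerivAt.clm_apply d)).fderiv
  simp only [Function.comp_def] at this
  simp only [this]
  change _ = ⟪A (ψ z), S z (dd i ψ z) + S (ee i) (ψ z)⟫ + ⟪A (dd i ψ z), S z (ψ z)⟫
  rw [inner_add_right, hs z (ψ z) (dd i ψ z)]
  ring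

end Ts

/-- polarisation -/
theorem polar {M : R4 →L[ℝ] V →L[ℝ] W} (h : ∀ ξ v, ‖M ξ v‖ = ‖ξ‖ * ‖v‖) (ξ η : R4) (v w : V) :
    ⟪M ξ v, M η w⟫ + ⟪M η v, M ξ w⟫ = 2 * ⟪ξ, η⟫ * ⟪v, w⟫ := by
  have k : ∀ ξ, ⟪M ξ v, M ξ w⟫ = ‖ξ‖ ^ 2 * ⟪v, w⟫ := fun ξ => by
    have h1 := norm_add_sq_real (M ξ v) (M ξ w)
    rw [← map_add, h, h, h, mul_pow, norm_add_sq_real] at h1
    linarith
  have h1 := k (ξ + η)
  simp only [map_add, add_apply, inner_add_left, inner_add_right, k,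
    norm_add_sq_real] at h1
  linarith

/-- the symbols of the model operators -/
structure Cl (M S : R4 →L[ℝ] V →L[ℝ] W) : Prop where
  mm : ∀ ξ v, ‖M ξ v‖ = ‖ξ‖ * ‖v‖
  ss : ∀ z v, ‖S z v‖ = ‖z‖ * ‖v‖
  ms : ∀ ξ z v w, ⟪M ξ v, S z w⟫ = ⟪M ξ w, S z v⟫

/-- the first order part -/
def dM (M : R4 →L[ℝ] V →L[ℝ] W) (ψ : R4 → V) (z : R4) : W := ∑ i, M (ee i) (dd i ψ z)

/-- the model operator -/
def mo (M S : R4 →L[ℝ] V →L[ℝ] W) (t : ℝ) (ψ : R4 → V) (z : R4) : W := dM M ψ z + t • S z (ψ z)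

/-- the term of order zero in the square of the model operator -/
def be (M S : R4 →L[ℝ] V →L[ℝ] W) (v : V) : ℝ := ∑ i, ⟪M (ee i) v, S (ee i) v⟫

variable {M S : R4 →L[ℝ] V →L[ℝ] W} {ψ : R4 → V} {t : ℝ}

theorem Ts.cdM (h : Ts ψ) (M : R4 →L[ℝ] V →L[ℝ] W) : Continuous (dM M ψ) := by
  have := h.cdd
  unfold dM
  fun_prop

theorem Ts.cmo (h : Ts ψ) (M S : R4 →L[ℝ] V →L[ℝ] W) (t : ℝ) : Continuous (mo M S t ψ) := by
  have := h.cdM M
  have := h.cont
  unfold mo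
  fun_prop

theorem Ts.imo (h : Ts ψ) (M S : R4 →L[ℝ] V →L[ℝ] W) (t : ℝ) :
    Integrable fun z => ‖mo M S t ψ z‖ ^ 2 :=
  h.int ((h.cmo M S t).norm.pow 2) fun z h1 h2 => by simp [mo, dM, h1, h2]

theorem Ts.ibe (h : Ts ψ) (M S : R4 →L[ℝ] V →L[ℝ] W) : Integrable fun z => be M S (ψ z) :=
  h.int (by have := h.cont; unfold be; fun_prop) fun z h1 _ => by simp [be, h1]

theorem Ts.dM_sq (h : Ts ψ) (hM : ∀ ξ v, ‖M ξ v‖ = ‖ξ‖ * ‖v‖) :
    ∫ z, ‖dM M ψ z‖ ^ 2 = ∫ z, gg ψ z := by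
  have c := h.cdd
  have i1 : ∀ a b i j, Integrable fun z => ⟪M (ee a) (dd i ψ z), M (ee b) (dd j ψ z)⟫ :=
    fun a b i j => h.int (by fun_prop) fun z _ h1 => by simp [h1]
  have e1 : ∫ z, ‖dM M ψ z‖ ^ 2 = ∑ i, ∑ j, ∫ z, ⟪M (ee i) (dd i ψ z), M (ee j) (dd j ψ z)⟫ := by
    simp only [← real_inner_self_eq_norm_sq, dM, sum_inner, inner_sum]
    rw [integral_finsetSum _ fun i _ => integrable_finsetSum _ fun j _ => i1 _ _ _ _,
      Finset.sum_comm]
    simp only [integral_finsetSum _ fun j _ => i1 _ _ _ _]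
  have e2 : 2 * ∫ z, gg ψ z = ∑ i, ∑ j, ((∫ z, ⟪M (ee i) (dd i ψ z), M (ee j) (dd j ψ z)⟫) +
      ∫ z, ⟪M (ee j) (dd i ψ z), M (ee i) (dd j ψ z)⟫) := by
    simp only [← integral_add (i1 _ _ _ _) (i1 _ _ _ _), polar hM, inner_ee, mul_ite, ite_mul,
      mul_one, mul_zero, zero_mul, gg]
    rw [integral_finsetSum _ fun i _ => h.int (by fun_prop) fun z _ h1 => by simp [h1],
      Finset.mul_sum]
    refine Finset.sum_congr rfl fun i _ => ?_
    rw [Finset.sum_eq_single i (fun j _ hj => by simp [hj.symm]) (by simp)]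
    simp [integral_const_mul]
  have e3 : ∀ i j, ∫ z, ⟪M (ee j) (dd i ψ z), M (ee i) (dd j ψ z)⟫ =
      ∫ z, ⟪M (ee i) (dd i ψ z), M (ee j) (dd j ψ z)⟫ := fun i j => by
    rw [h.swap]; simp only [real_inner_comm]
  simp only [e3, ← two_mul, ← Finset.mul_sum] at e2
  linarith

/-- the square of the model operator -/
theorem Ts.mo_sq (h : Ts ψ) (hc : Cl M S) (t : ℝ) : ∫ z, ‖mo M S t ψ z‖ ^ 2 =
    (∫ z, gg ψ z) + t ^ 2 * (∫ z, ‖z‖ ^ 2 * ‖ψ z‖ ^ 2) - t * ∫ z, be M S (ψ z) := by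
  have c := h.cdd
  have c0 := h.cont
  have c1 := h.cdM M
  have i1 : Integrable fun z => ‖dM M ψ z‖ ^ 2 := h.int (by fun_prop) fun z _ h1 => by simp [dM, h1]
  have i2 : Integrable fun z => 2 * ⟪dM M ψ z, S z (ψ z)⟫ :=
    h.int (by fun_prop) fun z h1 _ => by simp [h1]
  have e1 : ∀ z, ‖mo M S t ψ z‖ ^ 2 = ‖dM M ψ z‖ ^ 2 + t ^ 2 * (‖z‖ ^ 2 * ‖ψ z‖ ^ 2) +
      t * (2 * ⟪dM M ψ z, S z (ψ z)⟫) := fun z => by
    rw [mo, norm_add_sq_real, norm_smul, hc.ss, inner_smul_right, mul_pow, mul_pow,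
      Real.norm_eq_abs, sq_abs]
    ring
  have e2 : ∫ z, (2 * ⟪dM M ψ z, S z (ψ z)⟫ + be M S (ψ z)) = 0 := by
    simp only [dM, be, sum_inner, Finset.mul_sum, ← Finset.sum_add_distrib]
    rw [integral_finsetSum _ fun i _ => h.int (by fun_prop) fun z h1 _ => by simp [h1]]
    exact Finset.sum_eq_zero fun i _ => h.cross _ S (hc.ms _) i
  rw [integral_add i2 (h.ibe M S)] at e2
  simp only [e1]
  rw [integral_add (by exact i1.add (h.iwt.const_mul _)) (i2.const_mul _),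
    integral_add i1 (h.iwt.const_mul _), integral_const_mul, integral_const_mul t, h.dM_sq hc.mm,
    eq_neg_of_add_eq_zero_left e2]
  ring

end Vale.Agent.P247I
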