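import Mathlib

/-!
# P247I: the index of an abstract elliptic pair

`J : H → L` and `J' : H' → L'` are the inclusions of the Sobolev spaces, `T : H → L'` is the
operator and `T' : H' → L` its formal adjoint.
-/

open Metric Set Filter Topology Module
open scoped RealInnerProductSpace

noncomputable section

namespace Vale.Agent.P247I

variable {H L H' L' : Type*} [NormedAddCommGroup H] [NormedSpace ℝ H] [NormedAddCommGroup L]
  [InnerProductSpace ℝ L] [NormedAddCommGroup H'] [NormedSpace ℝ H'] [NormedAddCommGroup L']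
  [InnerProductSpace ℝ L']

/-- one half of the axioms: Rellich, Gårding, adjointness, weak = strong -/
structure Half (J : H →L[ℝ] L) (T : H →L[ℝ] L') (J' : H' →L[ℝ] L') (T' : H' →L[ℝ] L) : Prop where
  inj : Function.Injective J
  cpt : IsCompactOperator J
  gar : ∃ C, ∀ u, ‖u‖ ≤ C * (‖T u‖ + ‖J u‖)
  adj : ∀ u w, ⟪T u, J' w⟫ = ⟪J u, T' w⟫
  ws : ∀ y f, (∀ u, ⟪T u, y⟫ = ⟪J u, f⟫) → ∃ w, J' w = y ∧ T' w = f

/-- elliptic pairs -/
def EP (J : H →L[ℝ] L) (T : H →L[ℝ] L') (J' : H' →L[ℝ] L') (T' : H' →L[ℝ] L) : Prop :=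
  Half J T J' T' ∧ Half J' T' J T

/-- the (real) index -/
def aind (T : H →L[ℝ] L') (T' : H' →L[ℝ] L) : ℤ := (finrank ℝ T.ker : ℤ) - finrank ℝ T'.ker

variable {J : H →L[ℝ] L} {T : H →L[ℝ] L'} {J' : H' →L[ℝ] L'} {T' : H' →L[ℝ] L}

theorem EP.symm (h : EP J T J' T') : EP J' T' J T := ⟨h.2, h.1⟩

theorem ind_symm (T : H →L[ℝ] L') (T' : H' →L[ℝ] L) : aind T' T = -aind T T' := by
  simp [aind]

namespace Half

variable [CompleteSpace H] (h : Half J T J' T')
include h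

theorem seq {u : ℕ → H} (hu : ∀ n, ‖u n‖ ≤ 1) (h0 : Tendsto (fun n => T (u n)) atTop (𝓝 0)) :
    ∃ a, ∃ φ : ℕ → ℕ, StrictMono φ ∧ Tendsto (u ∘ φ) atTop (𝓝 a) := by
  obtain ⟨K, hK, hs⟩ := h.cpt.image_closedBall_subset_compact (f := (J : H →ₗ[ℝ] L)) 1
  obtain ⟨y, -, φ, hφ, hy⟩ := hK.tendsto_subseq (x := fun n => J (u n)) fun n =>
    hs ⟨u n, mem_closedBall_zero_iff.2 (hu n), rfl⟩
  obtain ⟨C, hC⟩ := h.gar
  have c1 := cauchySeq_iff_tendsto_dist_atTop_0.1 (h0.comp hφ.tendsto_atTop).cauchySeq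
  have c2 := cauchySeq_iff_tendsto_dist_atTop_0.1 hy.cauchySeq
  obtain ⟨a, ha⟩ := cauchySeq_tendsto_of_complete (u := u ∘ φ)
    (cauchySeq_iff_tendsto_dist_atTop_0.2 (squeeze_zero (fun _ => dist_nonneg) (fun p => by
      simpa [dist_eq_norm] using hC (u (φ p.1) - u (φ p.2)))
      (by simpa [dist_eq_norm] using (c1.add c2).const_mul C)))
  exact ⟨a, φ, hφ, ha⟩

theorem fin : FiniteDimensional ℝ T.ker := by
  refine .of_isCompact_closedBall₀ ℝ one_pos (IsSeqCompact.isCompact fun u hu => ?_)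
  obtain ⟨a, φ, hφ, ha⟩ := h.seq (u := fun n => u n) (fun n => mem_closedBall_zero_iff.1 (hu n))
    (by simp)
  have m : a ∈ T.ker := T.isClosed_ker.mem_of_tendsto ha (.of_forall fun n => (u (φ n)).2)
  have t : Tendsto (u ∘ φ) atTop (𝓝 ⟨a, m⟩) := tendsto_subtype_rng.2 ha
  exact ⟨⟨a, m⟩, isClosed_closedBall.mem_of_tendsto t (.of_forall fun n => hu _), φ, hφ, t⟩

theorem gap : ∃ C > (0 : ℝ), ∀ u, (∀ k ∈ T.ker, ⟪J u, J k⟫ = 0) → ‖u‖ ≤ C * ‖T u‖ := by
  by_contra hc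
  push Not at hc
  choose u h1 h2 using fun n : ℕ => hc (n + 1) (by positivity)
  have p : ∀ n, 0 < ‖u n‖ := fun n => lt_of_le_of_lt (by positivity) (h2 n)
  have n1 : ∀ n, ‖‖u n‖⁻¹ • u n‖ = 1 := fun n => by
    rw [norm_smul, norm_inv, norm_norm, inv_mul_cancel₀ (p n).ne']
  have t0 : Tendsto (fun n => T (‖u n‖⁻¹ • u n)) atTop (𝓝 0) := by
    refine squeeze_zero_norm (fun n => ?_) tendsto_one_div_add_atTop_nhds_zero_nat
    rw [map_smul, norm_smul, norm_inv, norm_norm, inv_mul_le_iff₀ (p n), mul_one_div,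
      le_div_iff₀' (by positivity)]
    exact (h2 n).le
  obtain ⟨a, φ, hφ, ha⟩ := h.seq (fun n => (n1 n).le) t0
  have m : T a = 0 := tendsto_nhds_unique ((T.continuous.tendsto a).comp ha)
    (t0.comp hφ.tendsto_atTop)
  have e : ⟪J a, J a⟫ = 0 := tendsto_nhds_unique
    (((J.continuous.tendsto a).comp ha).inner tendsto_const_nhds)
    (by simp [Function.comp_def, inner_smul_left, h1 _ a m])
  have a1 : ‖a‖ = 1 := tendsto_nhds_unique ha.norm (by simp [n1])
  rw [h.inj ((inner_self_eq_zero.1 e).trans J.map_zero.symm), norm_zero] at a1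
  exact zero_ne_one a1

theorem solv [CompleteSpace L'] {f : L'} (hf : ∀ w ∈ T'.ker, ⟪f, J' w⟫ = 0) : ∃ u, T u = f := by
  obtain ⟨C, C0, hC⟩ := h.gap
  have := h.fin
  let N : Submodule ℝ H := ((T.ker.map (J : H →ₗ[ℝ] L))ᗮ).comap (J : H →ₗ[ℝ] L)
  have cN : IsClosed (N : Set H) := (Submodule.isClosed_orthogonal _).preimage J.continuous
  have := cN.completeSpace_coe
  have cl := ((T ∘L N.subtypeL).antilipschitz_of_bound (K := ⟨C, C0.le⟩) fun u =>
    hC u fun k hk => real_inner_comm (J k) _ ▸ u.2 _ ⟨k, hk, rfl⟩).isClosed_range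
      (T ∘L N.subtypeL).uniformContinuous
  have e : range (T ∘L N.subtypeL) = T.range := by
    refine Subset.antisymm (by rintro _ ⟨u, rfl⟩; exact ⟨u, rfl⟩) ?_
    rintro _ ⟨u, rfl⟩
    obtain ⟨_, ⟨k, hk, rfl⟩, z, hz, e⟩ :=
      (T.ker.map (J : H →ₗ[ℝ] L)).exists_add_mem_mem_orthogonal (J u)
    refine ⟨⟨u - k, ?_⟩, by simpa using hk⟩
    simpa [N, e] using hz
  rw [e] at cl
  have := cl.completeSpace_coe
  have : f ∈ T.rangeᗮᗮ := fun y hy => by
    obtain ⟨w, rfl, hw⟩ := h.ws y 0 fun u => by simpa using hy _ ⟨u, rfl⟩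
    exact real_inner_comm f _ ▸ hf w hw
  rwa [Submodule.orthogonal_orthogonal] at this

end Half

variable [CompleteSpace H] [CompleteSpace H'] [CompleteSpace L] [CompleteSpace L']

omit [CompleteSpace L] in
/-- approximate kernels -/
theorem EP.le (h : EP J T J' T') {Y : Type*} [AddCommGroup Y] [Module ℝ Y] [FiniteDimensional ℝ Y]
    (l : H →ₗ[ℝ] Y) (F : Submodule ℝ H') [FiniteDimensional ℝ F] {a b : ℝ} (hb : 0 ≤ b)
    (hab : b < a) (h1 : ∀ u, l u = 0 → a * ‖J u‖ ≤ ‖T u‖) (h2 : ∀ w ∈ F, ‖T' w‖ ≤ b * ‖J' w‖) :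
    aind T T' ≤ (finrank ℝ Y : ℤ) - finrank ℝ F := by
  have f1 := h.1.fin
  have f2 := h.2.fin
  let G : Submodule ℝ L' := F.map (J' : H' →ₗ[ℝ] L')
  let V : Submodule ℝ H := G.comap (T : H →ₗ[ℝ] L')
  have i1 : Function.Injective (l ∘ₗ V.subtype) := (injective_iff_map_eq_zero _).2 fun u hu => by
    obtain ⟨u, w, hw, e⟩ := u
    have e' : J' w = T u := e
    have k1 := h1 u hu
    have k2 := h2 w hw
    have k3 := (h.1.adj u w).le.trans (real_inner_le_norm _ _)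
    rw [e'] at k2 k3
    rw [real_inner_self_eq_norm_sq] at k3
    have k4 : ‖J u‖ = 0 := by
      by_contra n
      have p := (norm_nonneg _).lt_of_ne' n
      have q : 0 < ‖T u‖ := (mul_pos (hb.trans_lt hab) p).trans_le k1
      nlinarith [mul_le_mul_of_nonneg_left k2 p.le, mul_lt_mul_of_pos_right hab p]
    exact Subtype.ext (h.1.inj ((norm_eq_zero.1 k4).trans J.map_zero.symm))
  have f3 := FiniteDimensional.of_injective _ i1
  have k1 := LinearMap.finrank_le_finrank_of_injective i1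
  let P : G →ₗ[ℝ] Dual ℝ T'.ker := ((innerₗ L').compl₁₂ G.subtype
    ((J' : H' →ₗ[ℝ] L') ∘ₗ T'.ker.subtype))
  let Q : V →ₗ[ℝ] G := (T : H →ₗ[ℝ] L').restrict fun _ hu => hu
  have k2 := P.finrank_range_add_finrank_ker
  have k3 := Q.finrank_range_add_finrank_ker
  have k4 : finrank ℝ P.ker ≤ finrank ℝ Q.range := Submodule.finrank_mono fun y hy => by
    obtain ⟨u, hu⟩ := h.1.solv (f := y) fun w hw => LinearMap.congr_fun hy ⟨w, hw⟩
    exact ⟨⟨u, show T u ∈ G from hu ▸ y.2⟩, Subtype.ext hu⟩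
  have k5 : finrank ℝ T.ker ≤ finrank ℝ Q.ker := LinearMap.finrank_le_finrank_of_injective
    (f := LinearMap.codRestrict _ (Submodule.inclusion (show T.ker ≤ V from fun u hu =>
      show T u ∈ G from (show T u = 0 from hu) ▸ G.zero_mem)) fun u => Subtype.ext u.2)
    fun u v e => Subtype.ext (congrArg (fun x => x.1.1) e)
  have k6 : finrank ℝ P.range ≤ finrank ℝ T'.ker :=
    (Submodule.finrank_le _).trans_eq Subspace.dual_finrank_eq
  have k7 : finrank ℝ G = finrank ℝ F := (Submodule.equivMapOfInjective _ h.2.inj F).finrank_eq.symm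
  unfold aind
  omega

omit [CompleteSpace H] [CompleteSpace H'] [CompleteSpace L] [CompleteSpace L'] in
theorem Half.add (h : Half J T J' T') {B : L →L[ℝ] L'} {B' : L' →L[ℝ] L}
    (hB : ∀ x y, ⟪B x, y⟫ = ⟪x, B' y⟫) : Half J (T + B ∘L J) J' (T' + B' ∘L J') := by
  obtain ⟨C, hC⟩ := h.gar
  refine ⟨h.inj, h.cpt, ⟨|C| * (1 + ‖B‖), fun u => (hC u).trans ?_⟩, fun u w => ?_,
    fun y f hf => ?_⟩
  · have k := norm_sub_le (T u + B (J u)) (B (J u))
    rw [add_sub_cancel_right] at k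
    rw [mul_assoc]
    refine mul_le_mul (le_abs_self _) ?_ (by positivity) (abs_nonneg _)
    change _ ≤ _ * (‖T u + B (J u)‖ + _)
    nlinarith [B.le_opNorm (J u), mul_nonneg (norm_nonneg B) (norm_nonneg (T u + B (J u)))]
  · simp [inner_add_left, inner_add_right, h.adj, hB]
  · obtain ⟨w, rfl, hw⟩ := h.ws y (f - B' y) fun u => by
      have := hf u
      simp only [add_apply, inner_add_left, ContinuousLinearMap.comp_apply, hB] at this
      rw [inner_sub_right, ← this, add_sub_cancel_right]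
    exact ⟨w, rfl, by simp [hw]⟩

omit [CompleteSpace H] [CompleteSpace H'] [CompleteSpace L] [CompleteSpace L'] in
theorem EP.add (h : EP J T J' T') {B : L →L[ℝ] L'} {B' : L' →L[ℝ] L}
    (hB : ∀ x y, ⟪B x, y⟫ = ⟪x, B' y⟫) : EP J (T + B ∘L J) J' (T' + B' ∘L J') :=
  ⟨h.1.add hB, h.2.add fun x y => by rw [real_inner_comm, ← hB, real_inner_comm]⟩

omit [CompleteSpace L] in
theorem EP.near (h : EP J T J' T') : ∃ d > (0 : ℝ), ∀ (B : L →L[ℝ] L') (B' : L' →L[ℝ] L),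
    (∀ x y, ⟪B x, y⟫ = ⟪x, B' y⟫) → ‖B‖ ≤ d → ‖B'‖ ≤ d →
      aind (T + B ∘L J) (T' + B' ∘L J') ≤ aind T T' := by
  obtain ⟨C, C0, hC⟩ := h.1.gap
  have f1 := h.1.fin
  have f2 := h.2.fin
  have p : 0 < C * (‖J‖ + 1) := by positivity
  refine ⟨(C * (‖J‖ + 1))⁻¹ / 3, by positivity, fun B B' hB b1 b2 => ?_⟩
  have := (h.add hB).le (((innerₗ L).compl₁₂ (J : H →ₗ[ℝ] L)
    ((J : H →ₗ[ℝ] L) ∘ₗ T.ker.subtype))) T'.ker (a := 2 * ((C * (‖J‖ + 1))⁻¹ / 3))
    (b := (C * (‖J‖ + 1))⁻¹ / 3) (by positivity) (by linarith [inv_pos.2 p]) (fun u hu => by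
      have k1 := hC u fun k hk => LinearMap.congr_fun hu ⟨k, hk⟩
      have k2 : (C * (‖J‖ + 1))⁻¹ * ‖J u‖ ≤ ‖T u‖ := by
        rw [inv_mul_le_iff₀ p]
        nlinarith [J.le_opNorm u, mul_le_mul_of_nonneg_left k1 (norm_nonneg J), norm_nonneg (T u)]
      have k := norm_sub_le (T u + B (J u)) (B (J u))
      rw [add_sub_cancel_right] at k
      change _ ≤ ‖T u + B (J u)‖
      linarith [B.le_of_opNorm_le b1 (J u)]) fun w hw => by
      simpa [show T' w = 0 from hw] using B'.le_of_opNorm_le b2 (J' w)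
  rwa [Subspace.dual_finrank_eq] at this

/-- the index does not see terms of order zero -/
theorem EP.ind_add (h : EP J T J' T') {B : L →L[ℝ] L'} {B' : L' →L[ℝ] L}
    (hB : ∀ x y, ⟪B x, y⟫ = ⟪x, B' y⟫) : aind (T + B ∘L J) (T' + B' ∘L J') = aind T T' := by
  have hs : ∀ t : ℝ, ∀ x y, ⟪(t • B) x, y⟫ = ⟪x, (t • B') y⟫ := fun t x y => by
    simp [inner_smul_left, inner_smul_right, hB]
  have lc : IsLocallyConstant fun t : ℝ => aind (T + (t • B) ∘L J) (T' + (t • B') ∘L J') := by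
    refine (IsLocallyConstant.iff_eventually_eq _).2 fun t => ?_
    obtain ⟨d, d0, hd⟩ := (h.add (hs t)).near
    obtain ⟨d', d0', hd'⟩ := (h.add (hs t)).symm.near
    have c : ∀ {A : Type _} [NormedAddCommGroup A] [NormedSpace ℝ A] (x : A),
        ∀ᶠ s in 𝓝 t, ‖(s - t) • x‖ ≤ min d d' := fun x =>
      (show ContinuousAt (fun s => ‖(s - t) • x‖) t by fun_prop).eventually
        (ge_mem_nhds (by simpa using ⟨d0, d0'⟩))
    filter_upwards [c B, c B'] with s h1 h2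
    have k1 := hd _ _ (hs (s - t)) (h1.trans (min_le_left _ _)) (h2.trans (min_le_left _ _))
    have k2 := hd' _ _ (fun x y => by rw [real_inner_comm, ← hs, real_inner_comm])
      (h2.trans (min_le_right _ _)) (h1.trans (min_le_right _ _))
    simp only [add_assoc, ← ContinuousLinearMap.add_comp, ← add_smul, add_sub_cancel] at k1 k2
    rw [ind_symm, ind_symm (T + _)] at k2
    omega
  simpa using lc.apply_eq_of_preconnectedSpace 1 0

end Vale.Agent.P247I
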