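import Vale.Agent.P247I.Wit

/-!
# P247I: the localisation theorem
-/

open MeasureTheory Metric Set Filter Topology Module
open scoped ContDiff RealInnerProductSpace

noncomputable section

namespace Vale.Agent.P247I

open Vale.Agent.P204.GX Vale.Agent.P204.T4 Vale.Agent.P247E

/-- what is used of the elliptic package -/
structure Ell : Prop where
  fred : FRED_statement
  reg : REG_statement
  zer : ZER_statement
  clg : CLG_statement
  cla : CLA_statement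

variable {X : Type} [MetricSpace X] {M : CM X}
variable {V W : Type} [NormedAddCommGroup V] [InnerProductSpace ℝ V]
  [NormedAddCommGroup W] [InnerProductSpace ℝ W] {E : Bun M V} {F : Bun M W}
variable {P : Op E F} {P' : Op F E} {B : X → V →L[ℝ] W} {B' : X → W →L[ℝ] V}

theorem finrank_kerS (P : Op E F) :
    Nonempty (LinearMap.ker (appL P) ≃ₗ[ℝ] Submodule.span ℝ P.kerS) := by
  have : P.kerS = ((LinearMap.ker (appL P)).map E.Sm.subtype : Submodule ℝ (X → V)) := by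
    ext s
    exact ⟨fun h => ⟨⟨s, h.1⟩, Subtype.ext (funext h.2), rfl⟩,
      fun ⟨u, hu, e⟩ => e ▸ ⟨u.2, congrFun (congrArg Subtype.val hu)⟩⟩
  rw [this, Submodule.span_eq]
  exact ⟨Submodule.equivMapOfInjective _ E.Sm.injective_subtype _⟩

variable [MeasurableSpace X] [BorelSpace X] [CompactSpace X] [FiniteDimensional ℝ V]
  [FiniteDimensional ℝ W]

/-- the index on smooth sections -/
theorem Ell.smi (H : Ell) (hd : finrank ℝ V = finrank ℝ W) (h : P.IsAdj P') (hc : P.Cliff) :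
    FiniteDimensional ℝ (LinearMap.ker (appL P)) ∧ FiniteDimensional ℝ (LinearMap.ker (appL P')) ∧
    P.ind = (finrank ℝ (LinearMap.ker (appL P)) : ℤ) - finrank ℝ (LinearMap.ker (appL P')) ∧
    ∀ g, (∀ t, appL P' t = 0 → ip F g t = 0) → ∃ u, appL P u = g := by
  have g1 : P.Gar := fun a => H.clg V W _ (P.Mi_smooth a) (hc a)
  have g2 : P'.Gar := fun a => H.clg W V _ (P'.Mi_smooth a) (H.cla X M V W E F hd P P' h hc a)
  obtain ⟨-, -, -, k1, k2, k3, k4⟩ := H.fred X M V W E F P P' h g1 g2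
  obtain ⟨e1⟩ := finrank_kerS P
  obtain ⟨e2⟩ := finrank_kerS P'
  refine ⟨e1.symm.finiteDimensional, e2.symm.finiteDimensional, by
    rw [k4, e1.finrank_eq, e2.finrank_eq], fun g hg => ?_⟩
  have m := (F.bm g.2).memLp (M := M) 2
  obtain ⟨w, hw⟩ := (k1 (m.toLp _)).2 fun t ht => by
    rw [← hg ⟨t, ht.1⟩ (Subtype.ext (funext ht.2))]
    exact integral_congr_ae (m.coeFn_toLp.mono fun x hx => by simp only [hx])
  obtain ⟨s, hs, -, e⟩ := (H.reg X M V W E F P g1 w).2 g g.2 (hw ▸ m.coeFn_toLp)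
  exact ⟨⟨s, hs⟩, Subtype.ext e⟩

theorem Ell.ind_adj (H : Ell) (hd : finrank ℝ V = finrank ℝ W) (h : P.IsAdj P') (hc : P.Cliff) :
    P'.ind = -P.ind := by
  rw [(H.smi hd h hc).2.2.1, (H.smi hd.symm (fun s hs t ht => by
    simpa only [real_inner_comm] using (h t ht s hs).symm)
      (H.cla X M V W E F hd P P' h hc)).2.2.1, neg_sub]

theorem Ell.deform (H : Ell) (hd : finrank ℝ V = finrank ℝ W) (hc : P.Cliff) (h : E.Hom F B)
    (t : ℝ) : ∃ Q : Op E F, Q.Cliff ∧ Q.ind = P.ind ∧ appL Q = AtL P h t := by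
  obtain ⟨Q, h1, h2, -⟩ := (H.zer X M V W E F).1 P (fun x => t • B x) fun a => by
    simpa only [ContinuousLinearMap.smul_comp, ContinuousLinearMap.comp_smul] using
      (h a).const_smul t
  exact ⟨Q, by simpa only [Op.Cliff, h1] using hc, (H.zer X M V W E F).2 hd P Q hc h1,
    LinearMap.ext fun s => Subtype.ext (funext (h2 s))⟩

theorem Wd.le (H : Ell) (hd : finrank ℝ V = finrank ℝ W) (h : Wd P P' B B') (hc : P.Cliff)
    {ι : Type} [Fintype ι] {q : ι → X} (hq : Function.Injective q) (Z : ∀ i, Zr P B (q i))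
    (Z' : ∀ i, Zr P' B' (q i)) {σ : X → ℝ} (hσ : Continuous σ)
    (hB : ∀ x v, ‖B x v‖ ^ 2 = σ x * ‖v‖ ^ 2) (h0 : ∀ x, 0 ≤ σ x) (h1 : ∀ x ∉ range q, 0 < σ x)
    {p p' : ι → Prop} [DecidablePred p] [DecidablePred p'] {v : ι → V} (hv : ∀ i, ‖v i‖ ≤ 1)
    (hb : ∀ i w, be (Z i).Mm (Z i).S w ≤ 2 * ‖w‖ ^ 2 + 2 * ⟪w, v i⟫ ^ 2)
    (v0 : ∀ i, ¬ p i → v i = 0) {v' : ι → W} (hv' : ∀ i, p' i → ‖v' i‖ = 1)
    (hk : ∀ i, p' i → ∀ ξ, (Z' i).Mm ξ (v' i) = (Z' i).S ξ (v' i)) :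
    P.ind ≤ (Fintype.card {i // p i} : ℤ) - Fintype.card {i // p' i} := by
  obtain ⟨κ, κ0, g⟩ := h.gap Z hσ hB h0 h1 hv hb v0
  obtain ⟨t, ⟨l, hl⟩, ⟨G, G1, G2, G3⟩, t0⟩ := (g.and ((apx h.hom' (q := fun i : {i // p' i} => q i)
    (hq.comp Subtype.val_injective) (fun i => Z' i) (fun i => hv' i i.2) (fun i => hk i i.2)
      (half_pos κ0)).and (eventually_gt_atTop 0))).exists
  obtain ⟨Q, c1, i1, e1⟩ := H.deform hd hc h.hom t
  obtain ⟨Q', -, -, e2⟩ := H.deform hd.symm (H.cla X M V W E F hd P P' h.adj hc) h.hom' t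
  have adj : ∀ u w, ip F (AtL P h.hom t u) w = ip E u (AtL P' h.hom' t w) := fun u w => by
    simp only [AtL, LinearMap.add_apply, map_add, LinearMap.smul_apply, map_smul]
    exact congrArg₂ _ (h.adj _ u.2 _ w.2) (congrArg _ (integral_congr_ae (.of_forall fun x =>
      h.tr _ _ _)))
  obtain ⟨-, f2, f3, f4⟩ := H.smi hd (P := Q) (P' := Q') (fun s hs w hw => by
    have := adj ⟨s, hs⟩ ⟨w, hw⟩
    rwa [← e1, ← e2] at this) c1
  rw [e1, e2] at f3 f4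
  rw [e2] at f2
  have k := abs_ind (ip E) (ip F) _ _ l G (fun u => by
      rw [ip_self]; exact integral_nonneg fun x => by positivity)
    (fun u w => integral_congr_ae (.of_forall fun x => real_inner_comm _ _))
    (fun u hu => Subtype.ext (funext fun x => by
      simpa using congrFun (eq_zero_of_integral (E.continuous_inner u.2 u.2)
        (fun _ => real_inner_self_nonneg) (E.integrable_inner u.2 u.2) hu) x))
    adj f4 (mul_pos κ0 t0) (mul_lt_mul_of_pos_right (half_lt_self κ0) t0) hl G3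
  rw [G2, finrank_fintype_fun_eq_card] at k
  omega

/-- the model operator has a kernel -/
def Ker (M S : R4 →L[ℝ] V →L[ℝ] W) : Prop := ∃ v, ‖v‖ = 1 ∧ (∀ ξ, M ξ v = S ξ v) ∧
  ∀ w, be M S w ≤ 2 * ‖w‖ ^ 2 + 2 * ⟪w, v⟫ ^ 2

/-- the model operator has no kernel -/
def Nok (M S : R4 →L[ℝ] V →L[ℝ] W) : Prop := ∀ w, be M S w ≤ 2 * ‖w‖ ^ 2

omit [FiniteDimensional ℝ V] [FiniteDimensional ℝ W] in
theorem ker_or {M S : R4 →L[ℝ] V →L[ℝ] W} {p : Prop} (h1 : p → Ker M S) (h2 : ¬ p → Nok M S) :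
    ∃ v, ‖v‖ ≤ 1 ∧ (∀ w, be M S w ≤ 2 * ‖w‖ ^ 2 + 2 * ⟪w, v⟫ ^ 2) ∧ (¬ p → v = 0) ∧
      (p → ‖v‖ = 1) ∧ (p → ∀ ξ, M ξ v = S ξ v) := by
  by_cases h : p
  · obtain ⟨v, a, b, c⟩ := h1 h
    exact ⟨v, a.le, c, fun k => (k h).elim, fun _ => a, fun _ => b⟩
  · exact ⟨0, by simp, by simpa [Nok] using h2 h, fun _ => rfl, fun k => (h k).elim, fun k => (h k).elim⟩

/-- **localisation** -/
theorem Wd.ind (H : Ell) (hd : finrank ℝ V = finrank ℝ W) (h : Wd P P' B B') (hc : P.Cliff)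
    {ι : Type} [Fintype ι] {q : ι → X} (hq : Function.Injective q) (Z : ∀ i, Zr P B (q i))
    (Z' : ∀ i, Zr P' B' (q i)) {σ : X → ℝ} (hσ : Continuous σ)
    (hB : ∀ x v, ‖B x v‖ ^ 2 = σ x * ‖v‖ ^ 2) (hB' : ∀ x v, ‖B' x v‖ ^ 2 = σ x * ‖v‖ ^ 2)
    (h0 : ∀ x, 0 ≤ σ x) (h1 : ∀ x ∉ range q, 0 < σ x) (p : ι → Prop) [DecidablePred p]
    (k1 : ∀ i, p i → Ker (Z i).Mm (Z i).S) (k2 : ∀ i, ¬ p i → Nok (Z i).Mm (Z i).S)
    (k3 : ∀ i, ¬ p i → Ker (Z' i).Mm (Z' i).S) (k4 : ∀ i, p i → Nok (Z' i).Mm (Z' i).S) :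
    P.ind = (Fintype.card {i // p i} : ℤ) - Fintype.card {i // ¬ p i} := by
  choose v a1 a2 a3 a4 a5 using fun i => ker_or (k1 i) (k2 i)
  choose v' b1 b2 b3 b4 b5 using fun i => ker_or (k3 i) fun k => k4 i (not_not.1 k)
  have l1 := h.le H hd hc hq Z Z' hσ hB h0 h1 a1 a2 a3 b4 b5
  have l2 := h.symm.le H hd.symm (H.cla X M V W E F hd P P' h.adj hc) hq Z' Z hσ hB' h0 h1
    b1 b2 b3 a4 a5
  rw [H.ind_adj hd h.adj hc] at l2
  omega

end Vale.Agent.P247I
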