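import Vale.Agent.P247I.Flat

/-!
# P247I: the spectral gap of the model operators
-/

open MeasureTheory Metric Set Filter Topology
open scoped ContDiff RealInnerProductSpace

noncomputable section

namespace Vale.Agent.P247I

variable {V W : Type} [NormedAddCommGroup V] [InnerProductSpace ℝ V] [NormedAddCommGroup W]
  [InnerProductSpace ℝ W] {M S : R4 →L[ℝ] V →L[ℝ] W} {ψ : R4 → V} {t : ℝ} {v : V}

theorem nsq (z : R4) : ‖z‖ ^ 2 = ∑ i, z i ^ 2 := by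
  simp [EuclideanSpace.norm_sq_eq]

theorem sum_ee (z : R4) : ∑ i, z i • ee i = z := by
  simpa [ee] using (EuclideanSpace.basisFun (Fin 4) ℝ).sum_repr z

theorem opn_le (L : R4 →L[ℝ] V) : ‖L‖ ^ 2 ≤ ∑ i, ‖L (ee i)‖ ^ 2 := by
  have p : 0 ≤ ∑ i, ‖L (ee i)‖ ^ 2 := Finset.sum_nonneg fun _ _ => sq_nonneg _
  rw [← Real.le_sqrt (norm_nonneg _) p]
  refine L.opNorm_le_bound (Real.sqrt_nonneg _) fun z => ?_
  conv_lhs => rw [← sum_ee z, map_sum]
  refine (norm_sum_le _ _).trans ?_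
  simp only [map_smul, norm_smul]
  refine (Real.sum_mul_le_sqrt_mul_sqrt _ _ _).trans_eq ?_
  rw [mul_comm, EuclideanSpace.norm_eq]

/-- the square of the annihilation operators -/
def uu (t : ℝ) (ψ : R4 → V) (z : R4) : ℝ := ∑ i, ‖dd i ψ z + (t * z i) • ψ z‖ ^ 2

theorem Ts.cuu (h : Ts ψ) (t : ℝ) : Continuous (uu t ψ) := by
  have := h.cdd
  have := h.cont
  unfold uu
  fun_prop

theorem Ts.iuu (h : Ts ψ) (t : ℝ) : Integrable (uu t ψ) :=
  h.int (h.cuu t) fun z h1 h2 => by simp [uu, h1, h2]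

theorem Ts.uu_eq (h : Ts ψ) (t : ℝ) : ∫ z, uu t ψ z =
    (∫ z, gg ψ z) + t ^ 2 * (∫ z, ‖z‖ ^ 2 * ‖ψ z‖ ^ 2) - 4 * t * ∫ z, ‖ψ z‖ ^ 2 := by
  have c := h.cdd
  have c0 := h.cont
  have k : ∀ i, ∫ z, (2 * ⟪dd i ψ z, z i • ψ z⟫ + ‖ψ z‖ ^ 2) = 0 := fun i => by
    have := h.cross (.id ℝ V) ((EuclideanSpace.proj i).smulRight (.id ℝ V))
      (fun z v w => by simp [inner_smul_right, real_inner_comm]) i
    simpa [ee] using this
  have i2 : ∀ i, Integrable fun z => 2 * ⟪dd i ψ z, z i • ψ z⟫ + ‖ψ z‖ ^ 2 := fun i =>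
    h.int (by fun_prop) fun z h1 _ => by simp [h1]
  have e : ∀ z, uu t ψ z = gg ψ z + t ^ 2 * (‖z‖ ^ 2 * ‖ψ z‖ ^ 2) - 4 * t * ‖ψ z‖ ^ 2 +
      t * ∑ i, (2 * ⟪dd i ψ z, z i • ψ z⟫ + ‖ψ z‖ ^ 2) := fun z => by
    simp only [uu, gg, nsq z, norm_add_sq_real, norm_smul, inner_smul_right, mul_pow,
      Real.norm_eq_abs, sq_abs, Fin.sum_univ_four]
    ring
  have i3 : Integrable fun z => gg ψ z + t ^ 2 * (‖z‖ ^ 2 * ‖ψ z‖ ^ 2) :=
    h.igg.add (h.iwt.const_mul _)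
  simp only [e]
  rw [integral_add (by exact i3.sub (h.isq.const_mul _))
    ((integrable_finsetSum _ fun i _ => i2 i).const_mul _), integral_sub i3 (h.isq.const_mul _),
    integral_add h.igg (h.iwt.const_mul _), integral_const_mul, integral_const_mul,
    integral_const_mul, integral_finsetSum _ fun i _ => i2 i]
  simp [k]

/-- the functional which kills the ground state -/
def el (t : ℝ) (v : V) (ψ : R4 → V) : ℝ :=
  ∫ z in ball (0 : R4) (3 / √t), ⟪ψ z, v⟫ * Real.exp (t / 2 * ‖z‖ ^ 2)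

theorem Ts.ball_le (h : Ts ψ) (ht : 0 < t) (hv : ‖v‖ ≤ 1) (h0 : el t v ψ = 0) :
    t * ∫ z in ball (0 : R4) (3 / √t), ⟪ψ z, v⟫ ^ 2 ≤ 2304 * Real.exp 9 * ∫ z, uu t ψ z := by
  have c0 := h.cont
  have s0 := Real.sqrt_pos.2 ht
  have io : ∀ {f : R4 → ℝ}, Continuous f → IntegrableOn f (ball (0 : R4) (3 / √t)) := fun hf =>
    (hf.continuousOn.integrableOn_compact (isCompact_closedBall 0 _)).mono_set ball_subset_closedBall
  have sm : ContDiff ℝ 1 fun z : R4 => ⟪ψ z, v⟫ * Real.exp (t / 2 * ‖z‖ ^ 2) :=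
    ((h.sm.of_le (by simp)).inner ℝ contDiff_const).mul
      (contDiff_const.mul (contDiff_norm_sq ℝ)).exp
  have k := poincare sm (by positivity) h0
  have e : t * (3 / √t) ^ 2 = 9 := by rw [div_pow, Real.sq_sqrt ht.le]; field_simp; norm_num
  have k1 : ∫ z in ball (0 : R4) (3 / √t), ⟪ψ z, v⟫ ^ 2 ≤
      ∫ z in ball (0 : R4) (3 / √t), (⟪ψ z, v⟫ * Real.exp (t / 2 * ‖z‖ ^ 2)) ^ 2 :=
    integral_mono (io (by fun_prop)) (io (by fun_prop)) fun z => by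
      simp only [mul_pow]
      exact le_mul_of_one_le_right (sq_nonneg _) (one_le_pow₀ (Real.one_le_exp (by positivity)))
  have k2 : ∫ z in ball (0 : R4) (3 / √t),
      ‖fderiv ℝ (fun z : R4 => ⟪ψ z, v⟫ * Real.exp (t / 2 * ‖z‖ ^ 2)) z‖ ^ 2 ≤
      Real.exp 9 * ∫ z, uu t ψ z := by
    rw [← integral_const_mul]
    refine (setIntegral_mono_on (io ((sm.continuous_fderiv one_ne_zero).norm.pow 2))
      ((h.iuu t).const_mul _).integrableOn measurableSet_ball fun z hz => ?_).trans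
      (setIntegral_le_integral ((h.iuu t).const_mul _) (.of_forall fun z => mul_nonneg
        (Real.exp_pos _).le (Finset.sum_nonneg fun _ _ => sq_nonneg _)))
    have d := (((h.sm.differentiable (by simp) z).hasFDerivAt.inner ℝ
      (hasFDerivAt_const v z)).fun_mul
        (((hasStrictFDerivAt_norm_sq z).hasFDerivAt.const_mul (t / 2)).exp)).fderiv
    simp only [Pi.pow_apply]
    rw [d, uu, Finset.mul_sum]
    refine (opn_le _).trans (Finset.sum_le_sum fun i _ => ?_)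
    have e1 : Real.exp (t / 2 * ‖z‖ ^ 2) ^ 2 ≤ Real.exp 9 := by
      rw [← Real.exp_nat_mul, Real.exp_le_exp, ← e]
      have := pow_le_pow_left₀ (norm_nonneg _) (mem_ball_zero_iff.1 hz).le 2
      push_cast
      nlinarith
    have e2 := (abs_real_inner_le_norm (dd i ψ z + (t * z i) • ψ z) v).trans
      (mul_le_of_le_one_right (norm_nonneg _) hv)
    refine le_trans (le_of_eq ?_) (mul_le_mul e1 ((sq_abs _).ge.trans
      (pow_le_pow_left₀ (abs_nonneg _) e2 2)) (sq_nonneg _) (Real.exp_pos _).le)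
    simp [dd, ee, inner_add_left, inner_smul_left, fderivInnerCLM_apply,
      EuclideanSpace.inner_single_right]
    ring
  have k3 := mul_le_mul_of_nonneg_left (k1.trans (k.trans
    (mul_le_mul_of_nonneg_left k2 (by positivity)))) ht.le
  calc _ ≤ _ := k3
    _ = 256 * (t * (3 / √t) ^ 2) * (Real.exp 9 * ∫ z, uu t ψ z) := by ring
    _ = _ := by rw [e]; ring

/-- the constant of the gap -/
def cg : ℝ := 7 + 9 * (2304 * Real.exp 9)

theorem cg_pos : 0 < cg := by unfold cg; positivity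

/-- **the gap** -/
theorem Ts.gap (h : Ts ψ) (hc : Cl M S) (ht : 0 < t) (hv : ‖v‖ ≤ 1)
    (hb : ∀ w, be M S w ≤ 2 * ‖w‖ ^ 2 + 2 * ⟪w, v⟫ ^ 2) (h0 : el t v ψ = 0) :
    (∫ z, gg ψ z) + t * (∫ z, ‖ψ z‖ ^ 2) + t ^ 2 * ∫ z, ‖z‖ ^ 2 * ‖ψ z‖ ^ 2 ≤
      cg * ∫ z, ‖mo M S t ψ z‖ ^ 2 := by
  have c0 := h.cont
  have s0 := Real.sqrt_pos.2 ht
  have k1 := h.ball_le ht hv h0
  have k2 := h.uu_eq t
  have k3 := h.mo_sq hc t
  have i1 : Integrable fun z => ⟪ψ z, v⟫ ^ 2 := h.int (by fun_prop) fun z h1 _ => by simp [h1]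
  have f1 : ∀ w, ⟪w, v⟫ ^ 2 ≤ ‖w‖ ^ 2 := fun w => (sq_abs _).ge.trans (pow_le_pow_left₀
    (abs_nonneg _) ((abs_real_inner_le_norm w v).trans (mul_le_of_le_one_right (norm_nonneg _) hv)) 2)
  have k4 : ∫ z, be M S (ψ z) ≤ 2 * (∫ z, ‖ψ z‖ ^ 2) + 2 * ∫ z, ⟪ψ z, v⟫ ^ 2 := by
    rw [← integral_const_mul, ← integral_const_mul,
      ← integral_add (h.isq.const_mul _) (i1.const_mul _)]
    exact integral_mono (h.ibe M S) ((h.isq.const_mul _).add (i1.const_mul _)) fun z => hb _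
  have k5 : ∫ z, ⟪ψ z, v⟫ ^ 2 ≤ ∫ z, ‖ψ z‖ ^ 2 := integral_mono i1 h.isq fun z => f1 _
  have k6 : 9 * ∫ z, ⟪ψ z, v⟫ ^ 2 ≤ t * (∫ z, ‖z‖ ^ 2 * ‖ψ z‖ ^ 2) +
      9 * ∫ z in ball (0 : R4) (3 / √t), ⟪ψ z, v⟫ ^ 2 := by
    have i2 := (i1.indicator (measurableSet_ball (x := (0 : R4)) (ε := 3 / √t))).const_mul 9
    rw [← integral_indicator measurableSet_ball, ← integral_const_mul, ← integral_const_mul,
      ← integral_const_mul, ← integral_add (h.iwt.const_mul _) i2]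
    refine integral_mono (i1.const_mul _) ((h.iwt.const_mul _).add i2) fun z => ?_
    by_cases hz : z ∈ ball (0 : R4) (3 / √t)
    · simp only [indicator_of_mem hz, le_add_iff_nonneg_left]
      positivity
    · simp only [indicator_of_notMem hz, mul_zero, add_zero]
      have h1 := pow_le_pow_left₀ (by positivity) (not_lt.1 (mt mem_ball_zero_iff.2 hz)) 2
      rw [div_pow, Real.sq_sqrt ht.le, div_le_iff₀ ht] at h1
      nlinarith [f1 (ψ z), sq_nonneg ⟪ψ z, v⟫]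
  have k7 : 0 ≤ ∫ z, gg ψ z := integral_nonneg (gg_nonneg ψ)
  have k8 : 0 ≤ ∫ z, uu t ψ z := integral_nonneg fun z => Finset.sum_nonneg fun _ _ => sq_nonneg _
  have k9 : 0 ≤ ∫ z, ‖z‖ ^ 2 * ‖ψ z‖ ^ 2 := integral_nonneg fun z => by positivity
  have l4 := mul_le_mul_of_nonneg_left k4 ht.le
  have l5 := mul_le_mul_of_nonneg_left k5 ht.le
  have l6 := mul_le_mul_of_nonneg_left k6 ht.le
  have l1 : ∫ z, uu t ψ z ≤ ∫ z, ‖mo M S t ψ z‖ ^ 2 := by linarith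
  have l2 := mul_le_mul_of_nonneg_left l1 (show 0 ≤ 2304 * Real.exp 9 by positivity)
  have l3 : 0 ≤ t ^ 2 * ∫ z, ‖z‖ ^ 2 * ‖ψ z‖ ^ 2 := by positivity
  rw [cg]
  nlinarith

end Vale.Agent.P247I
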