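import Vale.Agent.P247I.Osc

/-!
# P247I: perturbations of the model operators
-/

open MeasureTheory Metric Set Filter Topology
open scoped ContDiff RealInnerProductSpace

noncomputable section

namespace Vale.Agent.P247I

variable {V W : Type} [NormedAddCommGroup V] [InnerProductSpace ℝ V] [NormedAddCommGroup W]
  [InnerProductSpace ℝ W] {M S : R4 →L[ℝ] V →L[ℝ] W} {ψ : R4 → V} {g : R4 → W} {t η C : ℝ} {v : V}

/-- `g` is close to the model operator applied to `ψ` -/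
def Clo (M S : R4 →L[ℝ] V →L[ℝ] W) (t η C : ℝ) (ψ : R4 → V) (g : R4 → W) : Prop :=
  ∀ z, ‖g z - mo M S t ψ z‖ ^ 2 ≤ η * (gg ψ z + t ^ 2 * (‖z‖ ^ 2 * ‖ψ z‖ ^ 2)) + C * ‖ψ z‖ ^ 2

omit [InnerProductSpace ℝ W] in
theorem sq_add_le (a b : W) : ‖a + b‖ ^ 2 ≤ 2 * ‖a‖ ^ 2 + 2 * ‖b‖ ^ 2 := by
  have := pow_le_pow_left₀ (norm_nonneg _) (norm_add_le a b) 2
  nlinarith [sq_nonneg (‖a‖ - ‖b‖)]

theorem Clo.zero (k : Clo M S t η C ψ g) (z : R4) (h1 : ψ z = 0) (h2 : ∀ i, dd i ψ z = 0) :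
    g z = 0 := by
  have := k z
  simpa [mo, dM, gg, h1, h2] using this

theorem Clo.int (k : Clo M S t η C ψ g) (h : Ts ψ) (hg : Continuous g) :
    Integrable fun z => ‖g z‖ ^ 2 :=
  h.int (hg.norm.pow 2) fun z h1 h2 => by simp [k.zero z h1 h2]

theorem Clo.le (k : Clo M S t η C ψ g) (h : Ts ψ) (hg : Continuous g) :
    ∫ z, ‖mo M S t ψ z‖ ^ 2 ≤ 2 * (∫ z, ‖g z‖ ^ 2) + 2 * (η * ((∫ z, gg ψ z) +
      t ^ 2 * ∫ z, ‖z‖ ^ 2 * ‖ψ z‖ ^ 2) + C * ∫ z, ‖ψ z‖ ^ 2) ∧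
    ∫ z, ‖g z‖ ^ 2 ≤ 2 * (∫ z, ‖mo M S t ψ z‖ ^ 2) + 2 * (η * ((∫ z, gg ψ z) +
      t ^ 2 * ∫ z, ‖z‖ ^ 2 * ‖ψ z‖ ^ 2) + C * ∫ z, ‖ψ z‖ ^ 2) := by
  have i1 : Integrable fun z => gg ψ z + t ^ 2 * (‖z‖ ^ 2 * ‖ψ z‖ ^ 2) :=
    h.igg.add (h.iwt.const_mul _)
  have i2 : Integrable fun z => η * (gg ψ z + t ^ 2 * (‖z‖ ^ 2 * ‖ψ z‖ ^ 2)) + C * ‖ψ z‖ ^ 2 :=
    (i1.const_mul _).add (h.isq.const_mul _)
  have e : η * ((∫ z, gg ψ z) + t ^ 2 * ∫ z, ‖z‖ ^ 2 * ‖ψ z‖ ^ 2) + C * ∫ z, ‖ψ z‖ ^ 2 =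
      ∫ z, (η * (gg ψ z + t ^ 2 * (‖z‖ ^ 2 * ‖ψ z‖ ^ 2)) + C * ‖ψ z‖ ^ 2) := by
    rw [integral_add (i1.const_mul _) (h.isq.const_mul _), integral_const_mul, integral_const_mul,
      integral_add h.igg (h.iwt.const_mul _), integral_const_mul]
  have i3 := k.int h hg
  have i4 := h.imo M S t
  rw [e, ← integral_const_mul, ← integral_const_mul, ← integral_const_mul,
    ← integral_add (i3.const_mul _) (i2.const_mul _), ← integral_add (i4.const_mul _)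
    (i2.const_mul _)]
  refine ⟨integral_mono i4 ((i3.const_mul _).add (i2.const_mul _)) fun z => ?_,
    integral_mono i3 ((i4.const_mul _).add (i2.const_mul _)) fun z => ?_⟩
  · have := sq_add_le (g z) (mo M S t ψ z - g z)
    rw [add_sub_cancel, norm_sub_rev] at this
    linarith [k z]
  · have := sq_add_le (mo M S t ψ z) (g z - mo M S t ψ z)
    rw [add_sub_cancel] at this
    linarith [k z]

/-- the gap of the perturbed operator -/
theorem Clo.gap (k : Clo M S t η C ψ g) (h : Ts ψ) (hg : Continuous g) (hc : Cl M S) (ht : 0 < t)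
    (hv : ‖v‖ ≤ 1) (hb : ∀ w, be M S w ≤ 2 * ‖w‖ ^ 2 + 2 * ⟪w, v⟫ ^ 2) (h0 : el t v ψ = 0)
    (hη : 8 * cg * η ≤ 1) (hC : 8 * cg * C ≤ t) :
    t * ∫ z, ‖ψ z‖ ^ 2 ≤ 4 * cg * ∫ z, ‖g z‖ ^ 2 := by
  have k1 := h.gap hc ht hv hb h0
  have k2 := mul_le_mul_of_nonneg_left (k.le h hg).1 cg_pos.le
  have p1 : 0 ≤ ∫ z, gg ψ z := integral_nonneg (gg_nonneg ψ)
  have p2 : 0 ≤ t ^ 2 * ∫ z, ‖z‖ ^ 2 * ‖ψ z‖ ^ 2 :=
    mul_nonneg (sq_nonneg _) (integral_nonneg fun z => by positivity)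
  have p3 : 0 ≤ ∫ z, ‖ψ z‖ ^ 2 := integral_nonneg fun z => by positivity
  have k3 := mul_le_mul_of_nonneg_right hη (add_nonneg p1 p2)
  have k4 := mul_le_mul_of_nonneg_right hC p3
  have p4 := mul_nonneg ht.le p3
  nlinarith

/-- the cut-off function -/
def bu (r : ℝ) (hr : 0 < r) : ContDiffBump (0 : R4) := ⟨r / 2, r, by positivity, by linarith⟩

/-- the cut-off ground state -/
def gs (r : ℝ) (hr : 0 < r) (t : ℝ) (v : V) (z : R4) : V :=
  (bu r hr z * Real.exp (-t / 2 * ‖z‖ ^ 2)) • v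

variable {r : ℝ} (hr : 0 < r)

theorem gs_zero {z : R4} (hz : r ≤ ‖z‖) : gs r hr t v z = 0 := by
  rw [gs, (bu r hr).zero_of_le_dist (by simpa [bu] using hz), zero_mul, zero_smul]

theorem gs_supp : tsupport (gs r hr t v) ⊆ closedBall 0 r :=
  closure_minimal (fun _ hz => mem_closedBall_zero_iff.2
    (not_lt.1 fun h => hz (gs_zero hr h.le))) isClosed_closedBall

theorem ts_gs : Ts (gs r hr t v) :=
  ⟨((bu r hr).contDiff.mul (contDiff_const.mul (contDiff_norm_sq ℝ)).exp).smul contDiff_const,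
    (isCompact_closedBall 0 r).of_isClosed_subset (isClosed_tsupport _) (gs_supp hr)⟩

theorem mo_gs (hk : ∀ ξ, M ξ v = S ξ v) (z : R4) : mo M S t (gs r hr t v) z =
    Real.exp (-t / 2 * ‖z‖ ^ 2) • M (∑ i, fderiv ℝ (bu r hr) z (ee i) • ee i) v := by
  have d := ((((bu r hr).contDiff (n := 1)).differentiable one_ne_zero z).hasFDerivAt.fun_mul
    (((hasStrictFDerivAt_norm_sq z).hasFDerivAt.const_mul (-t / 2)).exp)).smul_const v
  have e : ∀ i, dd i (gs r hr t v) z = (Real.exp (-t / 2 * ‖z‖ ^ 2) * (fderiv ℝ (bu r hr) z (ee i)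
      - t * bu r hr z * z i)) • v := fun i => by
    unfold dd gs
    rw [d.fderiv]
    simp [ee, EuclideanSpace.inner_single_right]
    congr 1
    ring
  have e2 : S z v = ∑ i, z i • M (ee i) v := by
    rw [← hk]
    conv_lhs => rw [← sum_ee z]
    simp
  simp only [mo, dM, e, gs, map_smul, e2, map_sum, sum_apply,
    smul_apply, Finset.smul_sum, smul_smul, ← Finset.sum_add_distrib,
    ← add_smul]
  refine Finset.sum_congr rfl fun i _ => ?_
  congr 1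
  ring

theorem gs_le (hc : Cl M S) (hv : ‖v‖ = 1) (hk : ∀ ξ, M ξ v = S ξ v) : ∃ K : ℝ, ∀ t, 0 < t →
    0 < ∫ z, ‖gs r hr t v z‖ ^ 2 ∧
    ∫ z, ‖mo M S t (gs r hr t v) z‖ ^ 2 ≤ K * ∫ z, ‖gs r hr t v z‖ ^ 2 := by
  have c := ((bu r hr).contDiff (n := 1)).continuous_fderiv one_ne_zero
  obtain ⟨K, hK⟩ := (isCompact_closedBall (0 : R4) r).exists_bound_of_continuousOn
    (f := fun z => ‖∑ i, fderiv ℝ (bu r hr) z (ee i) • ee i‖ ^ 2) (by fun_prop)
  have K0 : 0 ≤ K := (norm_nonneg _).trans (hK 0 (mem_closedBall_self hr.le))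
  have v0 : 0 < volume.real (ball (0 : R4) (r / 2)) :=
    ENNReal.toReal_pos (measure_ball_pos _ _ (by positivity)).ne' measure_ball_lt_top.ne
  refine ⟨K * volume.real (closedBall (0 : R4) r) / volume.real (ball (0 : R4) (r / 2)),
    fun t ht => ?_⟩
  have h := ts_gs hr (t := t) (v := v)
  have k1 : Real.exp (-t * (r / 2) ^ 2) * volume.real (ball (0 : R4) (r / 2)) ≤
      ∫ z, ‖gs r hr t v z‖ ^ 2 := by
    refine le_trans ?_ (setIntegral_le_integral (s := ball 0 (r / 2)) h.isq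
      (.of_forall fun z => by positivity))
    refine setIntegral_ge_of_const_le_real measurableSet_ball measure_ball_lt_top.ne
      (fun z hz => ?_) h.isq.integrableOn
    rw [gs, (bu r hr).one_of_mem_closedBall (ball_subset_closedBall hz), one_mul, norm_smul, hv,
      mul_one, Real.norm_eq_abs, sq_abs, ← Real.exp_nat_mul, Real.exp_le_exp]
    have := pow_le_pow_left₀ (norm_nonneg _) (mem_ball_zero_iff.1 hz).le 2
    push_cast
    nlinarith
  have k2 : ∫ z, ‖mo M S t (gs r hr t v) z‖ ^ 2 ≤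
      K * Real.exp (-t * (r / 2) ^ 2) * volume.real (closedBall (0 : R4) r) := by
    rw [← setIntegral_eq_integral_of_forall_compl_eq_zero (s := closedBall 0 r) fun z hz => by
      have h1 := mt (gs_supp hr (t := t) (v := v) (a := z)) hz
      simp [mo, dM, dd, image_eq_zero_of_notMem_tsupport h1, fderiv_of_notMem_tsupport ℝ h1]]
    refine (Real.le_norm_self _).trans (norm_setIntegral_le_of_norm_le_const
      measure_closedBall_lt_top fun z hz => ?_)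
    rw [mo_gs hr hk, norm_smul, hc.mm, hv, mul_one, mul_pow, norm_mul, mul_comm]
    by_cases h2 : ‖z‖ < r / 2
    · have : fderiv ℝ (bu r hr) z = 0 := by
        rw [((bu r hr).eventuallyEq_one_of_mem_ball (mem_ball_zero_iff.2 h2)).fderiv_eq]
        exact fderiv_const_apply 1
      simp only [this, zero_apply, zero_smul, Finset.sum_const_zero, norm_zero]
      simpa using by positivity
    · refine mul_le_mul (hK z hz) ?_ (norm_nonneg _) K0
      rw [Real.norm_eq_abs, Real.norm_eq_abs, sq_abs, abs_of_nonneg (sq_nonneg _),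
        ← Real.exp_nat_mul, Real.exp_le_exp]
      have := pow_le_pow_left₀ (by positivity) (not_lt.1 h2) 2
      push_cast
      nlinarith
  refine ⟨lt_of_lt_of_le (by positivity) k1, k2.trans (le_trans (le_of_eq ?_)
    (mul_le_mul_of_nonneg_left k1 (by positivity)))⟩
  field_simp

/-- the approximate kernel -/
theorem gs_apx (hc : Cl M S) (hv : ‖v‖ = 1) (hk : ∀ ξ, M ξ v = S ξ v) (hη : 0 ≤ η) (C : ℝ) :
    ∃ K : ℝ, ∀ t, 0 < t → 0 < ∫ z, ‖gs r hr t v z‖ ^ 2 ∧ ∀ g : R4 → W, Continuous g →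
      Clo M S t η C (gs r hr t v) g →
      ∫ z, ‖g z‖ ^ 2 ≤ (8 * η * t + K) * ∫ z, ‖gs r hr t v z‖ ^ 2 := by
  obtain ⟨K, hK⟩ := gs_le hr hc hv hk
  refine ⟨(2 + 2 * η) * K + 2 * C, fun t ht => ⟨(hK t ht).1, fun g hg k => ?_⟩⟩
  have h := ts_gs hr (t := t) (v := v)
  have k1 := (k.le h hg).2
  have k2 := h.mo_sq hc t
  have k3 : ∫ z, be M S (gs r hr t v z) = 4 * ∫ z, ‖gs r hr t v z‖ ^ 2 := by
    rw [← integral_const_mul]
    refine integral_congr_ae (.of_forall fun z => ?_)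
    have : ∀ i, S (ee i) (gs r hr t v z) = M (ee i) (gs r hr t v z) := fun i => by
      simp only [gs, map_smul, hk]
    simp only [be, this, real_inner_self_eq_norm_sq, hc.mm]
    simp [ee]
  have k4 := mul_le_mul_of_nonneg_left (hK t ht).2 (show 0 ≤ 2 + 2 * η by positivity)
  rw [k3] at k2
  have k5 : (∫ z, gg (gs r hr t v) z) + t ^ 2 * ∫ z, ‖z‖ ^ 2 * ‖gs r hr t v z‖ ^ 2 =
    (∫ z, ‖mo M S t (gs r hr t v) z‖ ^ 2) + t * (4 * ∫ z, ‖gs r hr t v z‖ ^ 2) := by linarith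
  rw [k5] at k1
  nlinarith

end Vale.Agent.P247I
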