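import Vale.Agent.P247I.Qa

/-!
# P247I: the bundle `ℝ ⊕ Λ⁻`
-/

open scoped ContDiff

noncomputable section

namespace Vale.Agent.P247I

open Vale.Agent.P204.GX Vale.Agent.P204.T4 Vale.Agent.P247E
open Vale.Agent.P247.H74 (e)
open Vale.Agent.P247.H647 (Sp)

theorem ph'_ph' (q p : V4) (v : Sp) :
    ph' (spn q) (ph' (spn p) v) = ph' (spn (app (Rq q) p)) v := by
  ext i
  fin_cases i <;> apply Complex.ext <;> simp [ph'_apply, spn_fin, app_eq, Rq] <;> ring

theorem ph'_cq (p : V4) (v : Sp) : ph' (spn (cq p)) v = ph (spn p) v := by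
  ext i
  fin_cases i <;> apply Complex.ext <;> simp [ph'_apply, ph_apply, spn_fin, cq] <;> ring

/-- conjugation by a quaternion, `v ↦ p v p̄` -/
def Ad (p : V4) : Sp →L[ℝ] Sp := (reL (sgm p)).comp (ph' (spn p))

theorem Ad_apply (p : V4) (v : Sp) : Ad p v = sgm p (ph' (spn p) v) := rfl

theorem sm_Ad : ContDiff ℝ ∞ Ad :=
  (contDiff_reL (contDiff_sgm contDiff_id)).clm_comp (ph'.comp spnL).contDiff

theorem Ad_Ad (q p : V4) (v : Sp) : Ad q (Ad p v) = Ad (app (Rq q) p) v := by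
  simp only [Ad_apply, ph'_sgm, sgm_sgm, ph'_ph']

theorem Ad_one (v : Sp) : Ad (e 0) v = v := by
  ext i
  fin_cases i <;> simp [Ad_apply, ph'_apply, spn_fin, sgm_fin, e]

theorem Ad_cq {p : V4} (h : ∑ c, p c ^ 2 = 1) (v : Sp) : Ad (cq p) (Ad p v) = v := by
  have := app_Rq_cq p (e 0)
  rw [app_Rq_e0, h, one_smul] at this
  rw [Ad_Ad, this, Ad_one]

theorem norm_Ad {p : V4} (h : ∑ c, p c ^ 2 = 1) (v : Sp) : ‖Ad p v‖ = ‖v‖ :=
  (sq_eq_sq₀ (norm_nonneg _) (norm_nonneg _)).1 (by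
    rw [Ad_apply, norm_sgm_sq, norm_ph', ← ns_vec (spn p), vec_spn, ns, h, one_mul, one_mul])

variable {X : Type} [MetricSpace X] (Q : QM X)

/-- the bundle `ℝ ⊕ Λ⁻` -/
def tm : Bun Q.toCM Sp where
  u a y := Ad (Q.p a y)
  u' a y := Ad (cq (Q.p a y))
  u_meas a := sm_Ad.continuous.comp_stronglyMeasurable (Q.p_meas a).stronglyMeasurable
  u'_meas a := (sm_Ad.continuous.comp continuous_cq).comp_stronglyMeasurable
    (Q.p_meas a).stronglyMeasurable
  u_u' a y v := by simpa only [cq_cq] using Ad_cq ((ns_cq _).trans (Q.p_unit a y)) v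
  u'_u a y := Ad_cq (Q.p_unit a y)
  u_norm a y := norm_Ad (Q.p_unit a y)
  trans a b := by
    have k : ContDiffOn ℝ ∞ (fun y => app (Q.n b (Q.τ a b y)) (fderiv ℝ (Q.τ a b) y (Q.b a y 0)))
        (Q.O a b) := fun y hy => by
      have h := Q.contDiffAt_τ hy
      have h3 : ContDiffAt ℝ ∞ (fun y => fderiv ℝ (Q.τ a b) y (Q.b a y 0)) y :=
        (h.fderiv_right (m := ∞) (by simp)).clm_apply (Q.b_smooth a 0).contDiffAt
      exact (contDiff_app.contDiffAt.comp y
        (((Q.n_smooth b).contDiffAt.comp y h).prodMk h3)).contDiffWithinAt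
    refine (sm_Ad.comp_contDiffOn k).congr fun y hy => ContinuousLinearMap.ext fun v => ?_
    rw [ContinuousLinearMap.comp_apply, Ad_Ad, Q.p_trans hy, Function.comp_apply]

end Vale.Agent.P247I
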