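import Vale.Agent.P247I.Ind
import Vale.Agent.P247I.Tm
import Vale.Agent.P247A.SpecQ

/-!
# P247I: the signed number of zeros of a one-form is an index
-/

open Filter Topology Function WithLp Set
open scoped ContDiff ComplexConjugate RealInnerProductSpace

noncomputable section

namespace Vale.Agent.P247I

open Vale.Agent.P204.GX Vale.Agent.P204.T4 Vale.Agent.P247E Vale.Agent.P247A
open Vale.Agent.P247.H74 (e)
open Vale.Agent.P247.H647 (Sp)

section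
variable {V : Type} [NormedAddCommGroup V] [InnerProductSpace ℝ V] {K : V →L[ℝ] V}
  {M S : R4 →L[ℝ] V →L[ℝ] V}

/-- conjugation by an involution -/
def kk (K : V →L[ℝ] V) : (V →L[ℝ] V) →L[ℝ] V →L[ℝ] V :=
  (ContinuousLinearMap.compL ℝ V V V K).comp ((ContinuousLinearMap.compL ℝ V V V).flip K)

theorem kk_apply (K A : V →L[ℝ] V) (v : V) : kk K A v = K (A (K v)) := rfl

/-- reflections -/
structure Rf (K : V →L[ℝ] V) : Prop where
  kk : ∀ v, K (K v) = v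
  sy : ∀ v w, ⟪K v, w⟫ = ⟪v, K w⟫

theorem Rf.inner (h : Rf K) (v w : V) : ⟪K v, K w⟫ = ⟪v, w⟫ := by rw [h.sy, h.kk]

theorem Rf.norm (h : Rf K) (v : V) : ‖K v‖ = ‖v‖ := by
  rw [norm_eq_sqrt_real_inner, h.inner, ← norm_eq_sqrt_real_inner]

theorem Rf.cl (h : Rf K) (c : Cl M S) : Cl ((P247I.kk K).comp M) ((P247I.kk K).comp S) :=
  ⟨fun _ v => (h.norm _).trans ((c.mm _ _).trans (congrArg _ (h.norm v))),
    fun _ v => (h.norm _).trans ((c.ss _ _).trans (congrArg _ (h.norm v))),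
    fun _ _ _ _ => (h.inner _ _).trans ((c.ms _ _ _ _).trans (h.inner _ _).symm)⟩

theorem Rf.be (h : Rf K) (w : V) : be ((P247I.kk K).comp M) ((P247I.kk K).comp S) w = be M S (K w) :=
  Finset.sum_congr rfl fun _ _ => h.inner _ _

theorem Rf.ker (h : Rf K) (c : Ker M S) : Ker ((P247I.kk K).comp M) ((P247I.kk K).comp S) := by
  obtain ⟨v, h1, h2, h3⟩ := c
  exact ⟨K v, (h.norm v).trans h1, fun ξ => by simp [kk_apply, h.kk, h2], fun w => by
    simpa only [h.be, h.norm, h.sy] using h3 (K w)⟩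

theorem Rf.nok (h : Rf K) (c : Nok M S) : Nok ((P247I.kk K).comp M) ((P247I.kk K).comp S) :=
  fun w => by simpa only [h.be, h.norm] using c (K w)

theorem Rf.all (h : Rf K) {A S : V4 →L[ℝ] V →L[ℝ] V} {i : R4 →L[ℝ] V4}
    {p : (R4 →L[ℝ] V →L[ℝ] V) → (R4 →L[ℝ] V →L[ℝ] V) → Prop} (hp : p = Cl ∨ p = Ker ∨ p = Nok)
    (c : p (A.comp i) (S.comp i)) :
    p (((P247I.kk K).comp A).comp i) (((P247I.kk K).comp S).comp i) ∧
      p ((-(P247I.kk K).comp A).comp i) ((-(P247I.kk K).comp S).comp i) := by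
  simp only [ContinuousLinearMap.neg_comp, ContinuousLinearMap.comp_assoc (P247I.kk K)]
  rcases hp with rfl | rfl | rfl
  exacts [⟨h.cl c, (h.cl c).neg⟩, ⟨h.ker c, (h.ker c).neg⟩, ⟨h.nok c, (h.nok c).neg⟩]

end

/-- the quaternionic conjugation -/
def cj : Sp →L[ℝ] Sp := ph'.flip s0

theorem cj_apply (v : Sp) : cj v = !₂[conj (v 0), -v 1] := by
  ext i; fin_cases i <;> simp [cj, ph'_apply, s0]

theorem cj_cj (v : Sp) : cj (cj v) = v := by ext i; fin_cases i <;> simp [cj_apply]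

theorem cj_sgm (β : V4) (v : Sp) : cj (sgm β v) = ph' (spn β) (cj v) := by
  ext i; fin_cases i <;> simp [cj_apply, ph'_apply, sgm_fin, spn_fin] <;> ring

theorem sgm_cj (β : V4) (ζ v : Sp) : sgm β (cj (ph' ζ v)) = cj (ph' (sgm β ζ) v) := by
  ext i; fin_cases i <;> simp [cj_apply, ph'_apply, sgm_fin] <;> ring

theorem ph_ph' (β : V4) (ζ v : Sp) : ph ζ (ph' (spn β) v) = ph (sgm (cq β) ζ) v := by
  ext i; fin_cases i <;> simp [ph_apply, ph'_apply, sgm_fin, spn_fin, cq] <;> ring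

theorem ph'_spn (β : V4) (ζ v : Sp) : ph' (spn β) (ph' ζ v) = ph' (sgm β ζ) v := by
  rw [← spn_vec ζ, ph'_ph', sgm_spn]

theorem cj_Ad (β : V4) (v : Sp) : cj (Ad β v) = Ad β (cj v) := by
  ext i; fin_cases i <;> simp [Ad_apply, cj_apply, ph'_apply, sgm_fin, spn_fin] <;> ring

/-- the conjugation of the second component -/
def Kc : Su Sp Sp →L[ℝ] Su Sp Sp := dg (.id ℝ Sp) cj

theorem Kc_apply (v : Su Sp Sp) : Kc v = toLp 2 (v.fst, cj v.snd) := rfl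

theorem rf_Kc : Rf Kc := ⟨fun v => by simp only [Kc_apply, toLp_fst, toLp_snd, cj_cj]; rfl,
  fun v w => by simp [Kc_apply, Hx.inner_vec, vec_eq, cj_apply, Fin.sum_univ_four]⟩

variable {X : Type} [MetricSpace X] (Q : QM X)

theorem nor2 {M : CM X} {V : Type} [NormedAddCommGroup V] [InnerProductSpace ℝ V] {E : Bun M V}
    {s : X → V} (hs : s ∈ E.Sm) (fin : {x | s x = 0}.Finite) {γ : X → ℝ → V4 →L[ℝ] V}
    (h : ∀ x, s x = 0 → ContDiff ℝ ∞ (γ x) ∧ γ x 0 = fderiv ℝ (E.lo (M.ch x) s) (M.cy x) ∧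
      ∀ t, Injective (γ x t)) : ∃ s' ∈ E.Sm, (∀ x, s' x = 0 ↔ s x = 0) ∧ ∀ x, s x = 0 →
        E.lo (M.ch x) s' =ᶠ[𝓝 (M.cy x)] fun z => γ x 1 (z - M.cy x) := by
  suffices ∀ S : Set X, S.Finite → S ⊆ {x | s x = 0} → ∃ s' ∈ E.Sm, (∀ x, s' x = 0 ↔ s x = 0) ∧
      ∀ x, s x = 0 → (x ∈ S → E.lo (M.ch x) s' =ᶠ[𝓝 (M.cy x)] fun z => γ x 1 (z - M.cy x)) ∧
        (x ∉ S → s' =ᶠ[𝓝 x] s) by
    obtain ⟨s', h1, h2, h3⟩ := this _ fin subset_rfl
    exact ⟨s', h1, h2, fun x hx => (h3 x hx).1 hx⟩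
  intro S hS
  induction S, hS using Set.Finite.induction_on with
  | empty => exact fun _ => ⟨s, hs, fun _ => .rfl, fun x hx => ⟨fun k => k.elim, fun _ => .rfl⟩⟩
  | @insert p S hp _ ih =>
    intro k
    obtain ⟨s', h1, h2, h3⟩ := ih ((subset_insert _ _).trans k)
    have h0 : s p = 0 := k (mem_insert _ _)
    obtain ⟨g1, g2, g3⟩ := h p h0
    obtain ⟨s₂, k1, k2, k3, k4⟩ := modify h1 (a := M.ch p) (y := M.cy p) (lo_eq_zero.2 (by
      rw [M.ψ_cy]; exact (h2 _).2 h0)) g1 (g2.trans (lo_congr (by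
        rw [M.ψ_cy]; exact (h3 p h0).2 hp)).fderiv_eq.symm) g3
      ((fin.subset (sdiff_subset (t := {p}))).isClosed.isOpen_compl.mem_nhds fun k =>
        k.2 (M.ψ_cy p))
    refine ⟨s₂, k1, fun x => (k2 x).trans (h2 x), fun x hx => ?_⟩
    by_cases e : x = p
    · exact ⟨fun _ => e ▸ k4, fun k => (k (.inl e)).elim⟩
    have k5 := k3 x fun k => k ⟨hx, e⟩
    exact ⟨fun k => (lo_congr (by rwa [M.ψ_cy])).trans ((h3 x hx).1 (k.resolve_left e)),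
      fun k => k5.trans ((h3 x hx).2 fun e => k (.inr e))⟩

theorem bl_sum {V : Type} [NormedAddCommGroup V] [InnerProductSpace ℝ V]
    (E₁ E₂ F₁ F₂ : Bun Q.toCM V) (B : X → Su V V →L[ℝ] Su V V) (a : Q.A) (y : V4) (v : Su V V) :
    Bl (bsum E₁ E₂) (bsum F₁ F₂) B a y v = dg (F₁.u' a y) (F₂.u' a y)
      (B (Q.ψ a y) (toLp 2 (E₁.u a y v.fst, E₂.u a y v.snd))) := rfl

theorem gauge (a : Q.A) (y : V4) (v : Sp) : Q.t1.u a y v = sgm (Q.p a y) v ∧
    Q.t1.u' a y v = sgm (cq (Q.p a y)) v ∧ Q.t0.u a y v = v ∧ Q.t0.u' a y v = v ∧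
    (tm Q).u a y v = Ad (Q.p a y) v ∧ (tm Q).u' a y v = Ad (cq (Q.p a y)) v :=
  ⟨one_smul ℂ _, (congrArg (· • _) (map_one (starRingEnd ℂ))).trans (one_smul ℂ _), one_smul ℂ _,
    (congrArg (· • _) (map_one (starRingEnd ℂ))).trans (one_smul ℂ _), rfl, rfl⟩

theorem bl3 (s : X → Sp) (a : Q.A) : Bl (bsum Q.t0 (tm Q)) (bsum Q.t1 Q.t1)
    (fun x => kk Kc (Bm (s x))) a = fun y => kk Kc (Bm (Q.t1.lo a s y)) :=
  funext fun y => ContinuousLinearMap.ext fun v => by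
    simp only [bl_sum, gauge, Q.t1_lo, kk_apply, Kc_apply, Bm_apply, dg_apply, toLp_snd, cj_Ad]
    simp [Ad_apply, ph_sgm, sgm_cq, Q.p_unit, ph_ph', sgm_cj]

theorem bl4 (s : X → Sp) (a : Q.A) : Bl (bsum Q.t1 Q.t1) (bsum Q.t0 (tm Q))
    (fun x => -kk Kc (Bm (s x))) a = fun y => -kk Kc (Bm (Q.t1.lo a s y)) :=
  funext fun y => ContinuousLinearMap.ext fun v => by
    simp [bl_sum, gauge, Q.t1_lo, kk_apply, Kc_apply, Bm_apply, dg_apply, cj_sgm, ph_ph', ← cj_Ad]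
    simp [Ad_apply, ph'_sgm, sgm_cq, Q.p_unit, ph'_spn, ← toLp_neg]

variable [MeasurableSpace X] [BorelSpace X] {Q} {H : Op Q.t1 (tm Q)}
  (hH : ∀ a i y w, H.Mi a i y w = ph' (spn fun d => Q.b a y d i) w)
include hH

theorem mi3 (a : Q.A) (j : Fin 4) (y : V4) : (osum (Q.dirac (.triv _)) H.adj).Mi a j y =
    kk Kc (Mq fun d => Q.b a y d j) := ContinuousLinearMap.ext fun v => by
  rw [kk_apply, Kc_apply, Mq_apply, Kc_apply]
  refine congrArg (toLp 2) (Prod.ext rfl (ext_inner_left ℝ fun w => ?_))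
  refine ((inner_neg_right _ _).trans (congrArg _ (inner_adjL (H.Mi a j y) w _))).trans ?_
  simp only [toLp_snd, map_neg, cj_sgm, cj_cj, ph'_cq, inner_neg_right, hH]
  rw [real_inner_comm, ← adj_ph, real_inner_comm]
  rfl

theorem mi4 (a : Q.A) (j : Fin 4) (y : V4) : (osum (Hx.Ds Q) H).Mi a j y =
    -kk Kc (Mq (cqL fun d => Q.b a y d j)) := ContinuousLinearMap.ext fun v => by
  rw [neg_apply, kk_apply, Kc_apply, Mq_apply, Kc_apply, cqL_apply, cq_cq, ← toLp_neg]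
  exact congrArg (toLp 2) (Prod.ext (Hx.Ds_Mi Q a j y _) ((hH a j y _).trans (by
    simp [cj_sgm, cj_cj])))

omit [MeasurableSpace X] [BorelSpace X] in
theorem cliff_H : H.Cliff := fun a y ξ h => by
  obtain ⟨c, c0, hc⟩ := Q.dirac_cliff (.triv _) a y ξ h
  refine ⟨c, c0, fun v => ?_⟩
  have k := hc s0
  have e : (∑ i, ξ i • H.Mi a i y) v = ph' ((∑ i, ξ i • Q.dM a i y) s0) v := by
    simp only [sum_apply, smul_apply, hH, map_sum, map_smul]
    rfl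
  rw [show ‖s0‖ = 1 by simp [s0], mul_one] at k
  rw [e, ← k]
  exact (sq_eq_sq₀ (by positivity) (by positivity)).1 ((norm_ph' _ _).trans (mul_pow _ _ _).symm)

theorem cliff_P : (osum (Q.dirac (.triv _)) H.adj).Cliff := fun a y ξ h => by
  obtain ⟨c, c0, hc⟩ := cliff_Mq Q (mi1 Q (.triv _)) a y ξ h
  refine ⟨c, c0, fun v => ?_⟩
  have k := hc (Kc v)
  simp only [mi1, mi3 hH, ← map_smul, ← map_sum, rf_Kc.norm, kk_apply] at k ⊢
  exact k

variable [CompactSpace X]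

theorem wd2 {s : X → Sp} (hs : s ∈ Q.t1.Sm) : Wd (osum (Q.dirac (.triv _)) H.adj)
    (osum (Hx.Ds Q) H) (fun x => kk Kc (Bm (s x))) fun x => -kk Kc (Bm (s x)) :=
  ⟨osum_adj (Q.dirac _).isAdj_adj H.isAdj_adj.symm,
    fun a => (congrArg _ (bl3 Q s a)).mpr (((kk Kc).comp Bm).contDiff.comp (hs a)),
    fun a => (congrArg _ (bl4 Q s a)).mpr (((kk Kc).comp Bm).contDiff.comp (hs a)).neg,
    fun x v w => by
      rw [kk_apply, rf_Kc.sy, adj_Bm, rf_Kc.sy, neg_apply, neg_apply, map_neg, kk_apply],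
    fun a j y v w => by
      simp only [mi3 hH, bl3, kk_apply, rf_Kc.inner]
      exact sy_Bm _ _ _ _,
    fun a j y v w => by
      simp only [mi4 hH, bl4, neg_apply, inner_neg_neg, kk_apply, rf_Kc.inner]
      exact sy_Bm _ _ _ _⟩

omit hH in
theorem ns_or {A : V4 →L[ℝ] V4} (hA : A = .id ℝ V4 ∨ A = cqL) (t : V4) : ns (A t) = ns t := by
  rcases hA with h | h <;> rw [h]
  exacts [rfl, ns_cq t]

omit [CompactSpace X] in
theorem zr3 {s : X → Sp} {a : Q.A} {y : V4} {x : X} (hx : Q.ψ a y = x) {A : V4 →L[ℝ] V4}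
    (hA : A = .id ℝ V4 ∨ A = cqL)
    (hl : Q.t1.lo a s =ᶠ[𝓝 y] fun z => spn (A (nE Q a y (z - y)))) :
    ∃ Z : Zr (osum (Q.dirac (.triv _)) H.adj) (fun x => kk Kc (Bm (s x))) x,
      (A = .id ℝ V4 → Ker Z.Mm Z.S) ∧ (¬ A = .id ℝ V4 → Nok Z.Mm Z.S) := by
  obtain ⟨Z, z1, z2⟩ := exists_zr Q (A := (kk Kc).comp (Mq.comp (.id ℝ V4)))
    (S := (kk Kc).comp (Bm.comp (spnL.comp A))) hx (mi3 hH _ · _) (by
      rw [bl3]; exact hl.mono fun z k => congrArg (fun ζ => kk Kc (Bm ζ)) k)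
    (rf_Kc.all (.inl rfl) (cl_Mq (fun _ => rfl) (ns_or hA))).1
  exact ⟨Z, fun h => by
    rw [z1, z2, h]; exact (rf_Kc.all (.inr (.inl rfl)) (ker_Mq (.inl rfl))).1, fun h => by
    rw [z1, z2]; exact (rf_Kc.all (.inr (.inr rfl)) (nok_Mq (.inl ⟨rfl, hA.resolve_left h⟩))).1⟩

omit [CompactSpace X] in
theorem zr4 {s : X → Sp} {a : Q.A} {y : V4} {x : X} (hx : Q.ψ a y = x) {A : V4 →L[ℝ] V4}
    (hA : A = .id ℝ V4 ∨ A = cqL)
    (hl : Q.t1.lo a s =ᶠ[𝓝 y] fun z => spn (A (nE Q a y (z - y)))) :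
    ∃ Z : Zr (osum (Hx.Ds Q) H) (fun x => -kk Kc (Bm (s x))) x,
      (¬ A = .id ℝ V4 → Ker Z.Mm Z.S) ∧ (A = .id ℝ V4 → Nok Z.Mm Z.S) := by
  obtain ⟨Z, z1, z2⟩ := exists_zr Q (A := -(kk Kc).comp (Mq.comp cqL))
    (S := -(kk Kc).comp (Bm.comp (spnL.comp A))) hx (mi4 hH _ · _) (by
      rw [bl4]; exact hl.mono fun z k => congrArg (fun ζ => -kk Kc (Bm ζ)) k)
    (rf_Kc.all (.inl rfl) (cl_Mq ns_cq (ns_or hA))).2
  exact ⟨Z, fun h => by
    rw [z1, z2, hA.resolve_left h]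
    exact (rf_Kc.all (.inr (.inl rfl)) (ker_Mq (.inr rfl))).2, fun h => by
    rw [z1, z2]; exact (rf_Kc.all (.inr (.inr rfl)) (nok_Mq (.inr ⟨rfl, h⟩))).2⟩

open Classical in
theorem ind_card2 {s : X → Sp} (hs : s ∈ Q.t1.Sm) {ι : Type} [Fintype ι] {q : ι → X}
    (hq : Injective q) (hz : ∀ x, s x = 0 → x ∈ Set.range q) {a : ι → Q.A} {y : ι → V4}
    (hy : ∀ i, Q.ψ (a i) (y i) = q i) {A : ι → V4 →L[ℝ] V4} (hA : ∀ i, A i = .id ℝ V4 ∨ A i = cqL)
    (hl : ∀ i, Q.t1.lo (a i) s =ᶠ[𝓝 (y i)] fun z => spn (A i (nE Q (a i) (y i) (z - y i)))) :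
    (osum (Q.dirac (.triv _)) H.adj).ind =
      (Fintype.card {i // A i = .id ℝ V4} : ℤ) - Fintype.card {i // ¬ A i = .id ℝ V4} := by
  have nb : ∀ ζ v, ‖kk Kc (Bm ζ) v‖ ^ 2 = ‖ζ‖ ^ 2 * ‖v‖ ^ 2 := fun ζ v => by
    rw [kk_apply, rf_Kc.norm, norm_Bm, rf_Kc.norm]
  choose Z z1 z2 using fun i => zr3 hH (hy i) (hA i) (hl i)
  choose Z' z3 z4 using fun i => zr4 hH (hy i) (hA i) (hl i)
  exact (wd2 hH hs).ind ell rfl (cliff_P hH) hq Z Z' (σ := fun x => ‖s x‖ ^ 2)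
    ((cont_charts fun a => by simpa only [Q.t1.norm_lo] using (hs a).continuous.norm).pow 2)
    (fun x => nb _) (fun x v => by rw [neg_apply, norm_neg, nb]) (fun x => by positivity)
    (fun x hx => pow_pos (norm_pos_iff.2 fun k => hx (hz x k)) 2) _ z1 z2 z3 z4

/-- **the signed number of zeros** -/
theorem phl {φ : X → Sp} (h : NDZ Q φ) : chi Q φ = (Q.dirac (.triv _)).ind - H.ind := by
  classical
  have j : ∀ x, jdet Q φ x = (vecL.comp (fderiv ℝ (Q.t1.lo (Q.ch x) φ) (Q.cy x))).det := fun x =>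
    (det_apL _).symm.trans (congrArg _ (ContinuousLinearMap.ext fun v => funext fun i => by
      rw [clm_vec (vecL.comp _), Finset.sum_apply]
      change ∑ j, vec (fderiv ℝ (Q.t1.lo (Q.ch x) φ) (Q.cy x) (e j)) i * v j = _
      exact Finset.sum_congr rfl fun j _ => mul_comm _ _))
  have i : ∀ L : V4 →L[ℝ] Sp, (vecL.comp L).det ≠ 0 ↔ Injective L := fun L =>
    LinearMap.det_eq_zero_iff_ker_ne_bot.not_left.trans (LinearMap.ker_eq_bot.trans
      ((LeftInverse.injective spn_vec).of_comp_iff L))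
  have i0 := fun x hx => (i _).1 (j x ▸ h.2 x hx)
  have fin := fin_zero h.1 fun x hx => ⟨_, _, Q.ψ_cy x, i0 x hx⟩
  choose! γ g1 g2 g3 g4 using fun x hx => path Q (Q.ch x) (Q.cy x) _ (i0 x hx)
  obtain ⟨s, hs, h1, h2⟩ := nor2 h.1 fin fun x hx => ⟨g1 x hx, g2 x hx, g4 x hx⟩
  have := fin.fintype
  choose A hA hK using fun x : {x | φ x = 0} => g3 x x.2
  have c0 := Q.dirac_cliff (.triv _)
  have k := ind_card2 hH hs (q := fun x : {x | φ x = 0} => (x : X)) Subtype.val_injective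
    (fun x k => ⟨⟨x, (h1 x).1 k⟩, rfl⟩) (fun x => Q.ψ_cy x) hA fun x =>
      (h2 x x.2).mono fun z k => k.trans (hK x _)
  rw [ell.ind_sum rfl rfl rfl (Q.dirac _).isAdj_adj H.isAdj_adj.symm c0
    (CLA _ _ _ _ _ _ rfl _ _ H.isAdj_adj (cliff_H hH)) (cliff_P hH),
    ell.ind_adj rfl H.isAdj_adj (cliff_H hH)] at k
  have d : ∀ x : {x | φ x = 0}, 0 < jdet Q φ x ↔ (A x : V4 →L[ℝ] V4) = .id ℝ V4 := fun x => by
    have c : Continuous fun t => (vecL.comp (γ x t)).det := ContinuousLinearMap.continuous_det.comp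
      (continuous_const.clm_comp (g1 x x.2).continuous)
    have n := fun t => (i _).2 (g4 x x.2 t)
    have p := det_nE Q (Q.ch x) (Q.cy x)
    have e1 : (vecL.comp (γ x 1)).det = (A x : V4 →L[ℝ] V4).det *
        (nE Q (Q.ch x) (Q.cy x) : V4 →L[ℝ] V4).det :=
      (congrArg LinearMap.det (LinearMap.ext fun t => (congrArg vec (hK x t)).trans
        (vec_spn _))).trans (LinearMap.det_comp (A x : V4 →ₗ[ℝ] V4) (nE Q (Q.ch x) (Q.cy x)))
    rw [j, ← g2 x x.2]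
    refine ⟨fun k => (hA x).resolve_right fun e => ?_, fun e => not_le.1 fun k => ?_⟩
    · rw [e, ← apL_cM, det_apL, show cM.det = -1 by simp [cM, Fin.prod_univ_four]] at e1
      obtain ⟨t, ht⟩ := intermediate_value_univ 1 0 c ⟨(by linarith : _ ≤ (0 : ℝ)), k.le⟩
      exact n t ht
    · rw [e, show (ContinuousLinearMap.id ℝ V4).det = 1 from LinearMap.det_id] at e1
      obtain ⟨t, ht⟩ := intermediate_value_univ 0 1 c ⟨k, (by linarith : (0 : ℝ) ≤ _)⟩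
      exact n t ht
  rw [sub_eq_add_neg, k, P247A.chi, ← finsum_set_coe_eq_finsum_mem, finsum_eq_sum_of_fintype]
  simp [d, Finset.sum_ite, Fintype.card_subtype, sub_eq_add_neg]

end Vale.Agent.P247I
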