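import Mathlib

/-!
# P247I: the inequality of Poincaré on balls of `ℝ⁴`
-/

open MeasureTheory Metric Set
open scoped ENNReal

noncomputable section

namespace Vale.Agent.P247I

/-- `ℝ⁴` -/
abbrev R4 := EuclideanSpace ℝ (Fin 4)

theorem sq_int_le {g : ℝ → ℝ} (hg : Continuous g) :
    (∫ τ in (1 / 2 : ℝ)..1, g τ) ^ 2 ≤ ∫ τ in (1 / 2 : ℝ)..1, g τ ^ 2 := by
  obtain ⟨m, hm⟩ : ∃ m, m = ∫ τ in (1 / 2 : ℝ)..1, g τ := ⟨_, rfl⟩
  have h : 0 ≤ ∫ τ in (1 / 2 : ℝ)..1, (g τ ^ 2 - 2 * m * g τ + m ^ 2) :=
    intervalIntegral.integral_nonneg (by norm_num) fun τ _ => by nlinarith [sq_nonneg (g τ - m)]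
  rw [intervalIntegral.integral_add (by apply Continuous.intervalIntegrable; fun_prop) (by simp),
    intervalIntegral.integral_sub (by apply Continuous.intervalIntegrable; fun_prop)
      (by apply Continuous.intervalIntegrable; fun_prop), intervalIntegral.integral_const_mul,
    intervalIntegral.integral_const, ← hm, smul_eq_mul] at h
  rw [← hm]
  nlinarith

variable {h : R4 → ℝ} {R : ℝ}

theorem seg_le (hh : ContDiff ℝ 1 h) {x y : R4} (hx : x ∈ ball (0 : R4) R)
    (hy : y ∈ ball (0 : R4) R) : ENNReal.ofReal ((h y - h (x + (1 / 2 : ℝ) • (y - x))) ^ 2) ≤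
      ENNReal.ofReal (4 * R ^ 2) * ∫⁻ τ in Ioc (1 / 2 : ℝ) 1,
        ENNReal.ofReal (‖fderiv ℝ h (x + τ • (y - x))‖ ^ 2) := by
  have c := hh.continuous_fderiv one_ne_zero
  have d : ∀ τ : ℝ, HasDerivAt (fun τ : ℝ => h (x + τ • (y - x)))
      (fderiv ℝ h (x + τ • (y - x)) (y - x)) τ := fun τ => by
    have := (hh.differentiable one_ne_zero _).hasFDerivAt.comp_hasDerivAt τ
      (((hasDerivAt_id τ).smul_const (y - x)).const_add x)
    rwa [one_smul] at this
  have e := intervalIntegral.integral_eq_sub_of_hasDerivAt (a := 1 / 2) (b := 1)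
    (fun τ _ => d τ) (by apply Continuous.intervalIntegrable; fun_prop)
  rw [one_smul, add_sub_cancel] at e
  rw [← e, ← ofReal_integral_eq_lintegral_ofReal (by
      apply Continuous.integrableOn_Ioc; fun_prop) (.of_forall fun _ => by positivity),
    ← ENNReal.ofReal_mul (by positivity), ← intervalIntegral.integral_of_le (by norm_num),
    ← intervalIntegral.integral_const_mul]
  refine ENNReal.ofReal_le_ofReal ((sq_int_le (by fun_prop)).trans
    (intervalIntegral.integral_mono_on (by norm_num) (by apply Continuous.intervalIntegrable; fun_prop)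
      (by apply Continuous.intervalIntegrable; fun_prop) fun τ _ => ?_))
  have h1 : ‖y - x‖ ≤ 2 * R := by
    linarith [norm_sub_le y x, mem_ball_zero_iff.1 hx, mem_ball_zero_iff.1 hy]
  have h2 := ((fderiv ℝ h (x + τ • (y - x))).le_opNorm (y - x)).trans
    (mul_le_mul_of_nonneg_left h1 (norm_nonneg _))
  rw [← sq_abs]
  exact (pow_le_pow_left₀ (abs_nonneg _) h2 2).trans_eq (by ring)

theorem dil_le {g : R4 → ℝ≥0∞} (hg : Measurable g) {x : R4} (hx : x ∈ ball (0 : R4) R) {τ : ℝ}
    (hτ : τ ∈ Ioc (1 / 2 : ℝ) 1) :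
    ∫⁻ y in ball (0 : R4) R, g (x + τ • (y - x)) ≤ 16 * ∫⁻ z in ball (0 : R4) R, g z := by
  have t0 : 0 < τ := by linarith [hτ.1]
  have m := hg.indicator (measurableSet_ball (x := (0 : R4)) (ε := R))
  calc _ ≤ ∫⁻ y, (ball (0 : R4) R).indicator g ((1 - τ) • x + τ • y) := by
        rw [← lintegral_indicator measurableSet_ball]
        refine lintegral_mono fun y => ?_
        by_cases hy : y ∈ ball (0 : R4) R
        · rw [indicator_of_mem hy, indicator_of_mem
            (convex_ball _ _ hx hy (by linarith [hτ.2]) t0.le (by ring))]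
          exact le_of_eq (congrArg g (by module))
        · simp [indicator_of_notMem hy]
    _ = ∫⁻ y, (ball (0 : R4) R).indicator g ((1 - τ) • x + y) ∂(Measure.map (τ • ·) volume) := by
        rw [lintegral_map (by fun_prop) (by fun_prop)]
    _ ≤ _ := by
        rw [Measure.map_addHaar_smul _ t0.ne', lintegral_smul_measure,
          lintegral_add_left_eq_self (fun y => (ball (0 : R4) R).indicator g y),
          lintegral_indicator measurableSet_ball, smul_eq_mul]
        refine mul_le_mul_left ?_ _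
        rw [finrank_euclideanSpace_fin, ← ENNReal.ofReal_ofNat]
        refine ENNReal.ofReal_le_ofReal ?_
        rw [abs_of_pos (by positivity), inv_le_comm₀ (by positivity) (by norm_num)]
        exact le_trans (by norm_num) (pow_le_pow_left₀ (by norm_num) hτ.1.le 4)

theorem half_le (hh : ContDiff ℝ 1 h) {x : R4} (hx : x ∈ ball (0 : R4) R) :
    ∫⁻ y in ball (0 : R4) R, ENNReal.ofReal ((h y - h (x + (1 / 2 : ℝ) • (y - x))) ^ 2) ≤
      ENNReal.ofReal (4 * R ^ 2) * (16 *
        ∫⁻ z in ball (0 : R4) R, ENNReal.ofReal (‖fderiv ℝ h z‖ ^ 2)) := by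
  have c := hh.continuous_fderiv one_ne_zero
  refine (setLIntegral_mono' measurableSet_ball fun y hy => seg_le hh hx hy).trans ?_
  rw [lintegral_const_mul' _ _ ENNReal.ofReal_ne_top,
    lintegral_lintegral_swap (Measurable.aemeasurable (by fun_prop))]
  refine mul_le_mul_right ((setLIntegral_mono' measurableSet_Ioc fun τ hτ =>
    dil_le (g := fun z => ENNReal.ofReal (‖fderiv ℝ h z‖ ^ 2)) (by fun_prop) hx hτ).trans ?_) _
  rw [setLIntegral_const, Real.volume_Ioc]
  exact mul_le_of_le_one_right' (ENNReal.ofReal_le_one.2 (by norm_num))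

/-- the inequality of Poincaré -/
theorem poincare (hh : ContDiff ℝ 1 h) (hR : 0 < R) (h0 : ∫ x in ball (0 : R4) R, h x = 0) :
    ∫ x in ball (0 : R4) R, h x ^ 2 ≤ 256 * R ^ 2 * ∫ x in ball (0 : R4) R, ‖fderiv ℝ h x‖ ^ 2 := by
  have c := hh.continuous_fderiv one_ne_zero
  have c0 := hh.continuous
  have io : ∀ {f : R4 → ℝ}, Continuous f → IntegrableOn f (ball (0 : R4) R) := fun hf =>
    (hf.continuousOn.integrableOn_compact (isCompact_closedBall 0 R)).mono_set ball_subset_closedBall
  set B := ball (0 : R4) R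
  set v := volume B with hv
  have v0 : v ≠ 0 := (measure_ball_pos _ _ hR).ne'
  have v1 : v ≠ ⊤ := measure_ball_lt_top.ne
  set F : R4 → R4 → ℝ≥0∞ := fun x y => ENNReal.ofReal ((h y - h (x + (1 / 2 : ℝ) • (y - x))) ^ 2)
  set I := ENNReal.ofReal (4 * R ^ 2) * (16 * ∫⁻ z in B, ENNReal.ofReal (‖fderiv ℝ h z‖ ^ 2))
    with hI
  have h1 : ∫⁻ x in B, ∫⁻ y in B, F x y ≤ I * v :=
    (setLIntegral_mono' measurableSet_ball fun x hx => half_le hh hx).trans_eq
      (setLIntegral_const _ _)
  have h2 : ∀ x, ENNReal.ofReal (h x ^ 2) * v ≤ 2 * (∫⁻ y in B, F x y) + 2 * ∫⁻ y in B, F y x :=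
    fun x => by
      have e : h x ^ 2 * v.toReal ≤ ∫ y in B, (h y ^ 2 - 2 * h x * h y + h x ^ 2) := by
        rw [integral_add (io (by fun_prop)) (io (by fun_prop)),
          integral_sub (io (by fun_prop)) (io (by fun_prop)), integral_const_mul, h0,
          setIntegral_const, smul_eq_mul, mul_comm]
        change _ ≤ _ - _ + v.toReal * _
        linarith [integral_nonneg (μ := volume.restrict B) (f := fun y => h y ^ 2)
          fun _ => by positivity]
      rw [← ENNReal.ofReal_toReal v1, ← ENNReal.ofReal_mul (by positivity),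
        ← lintegral_const_mul' _ _ (by simp), ← lintegral_const_mul' _ _ (by simp),
        ← lintegral_add_left (by fun_prop)]
      refine (ENNReal.ofReal_le_ofReal e).trans ((ofReal_integral_eq_lintegral_ofReal
        (io (by fun_prop)) (.of_forall fun y => by
          simpa using by nlinarith [sq_nonneg (h y - h x)])).trans_le (lintegral_mono fun y => ?_))
      rw [← ENNReal.ofReal_ofNat, ← ENNReal.ofReal_mul (by norm_num),
        ← ENNReal.ofReal_mul (by norm_num), ← ENNReal.ofReal_add (by positivity) (by positivity),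
        show y + (1 / 2 : ℝ) • (x - y) = x + (1 / 2 : ℝ) • (y - x) by module]
      exact ENNReal.ofReal_le_ofReal (by
        nlinarith [sq_nonneg (h y + h x - 2 * h (x + (1 / 2 : ℝ) • (y - x)))])
  have h3 : (∫⁻ x in B, ENNReal.ofReal (h x ^ 2)) * v ≤ 4 * I * v := by
    rw [← lintegral_mul_const' _ _ v1]
    refine (lintegral_mono h2).trans ?_
    rw [lintegral_add_left (by fun_prop), lintegral_const_mul' _ _ (by simp),
      lintegral_const_mul' _ _ (by simp), lintegral_lintegral_swap (f := fun x y => F y x)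
        (Measurable.aemeasurable (by fun_prop))]
    calc _ ≤ 2 * (I * v) + 2 * (I * v) := by gcongr
      _ = _ := by ring
  have h4 := (ENNReal.mul_le_mul_iff_left v0 v1).1 h3
  rw [hI, ← ofReal_integral_eq_lintegral_ofReal (io (by fun_prop)) (.of_forall fun _ => by positivity),
    ← ofReal_integral_eq_lintegral_ofReal (io (by fun_prop)) (.of_forall fun _ => by positivity),
    ← ENNReal.ofReal_ofNat 4, ← ENNReal.ofReal_ofNat 16, ← ENNReal.ofReal_mul (by norm_num),
    ← ENNReal.ofReal_mul (by positivity), ← ENNReal.ofReal_mul (by norm_num),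
    ENNReal.ofReal_le_ofReal_iff (by positivity)] at h4
  linarith

end Vale.Agent.P247I
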