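import Vale.Agent.P247I.Sum
import Vale.Agent.P247I.Cnt
import Vale.Agent.P247E.QHodx

/-!
# P247I: the algebra of the deformation of the Dirac operators
-/

open WithLp
open scoped ContDiff ComplexConjugate RealInnerProductSpace

noncomputable section

namespace Vale.Agent.P247I

open Vale.Agent.P204.GX Vale.Agent.P204.T4 Vale.Agent.P247E
open Vale.Agent.P247.H74 (e)
open Vale.Agent.P247.H647 (Sp norm_sq_sp)

/-- right multiplication -/
def ph : Sp →L[ℝ] Sp →L[ℝ] Sp := (LinearMap.mk₂ ℝ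
  (fun ζ v : Sp => (!₂[ζ 0 * v 0 - ζ 1 * conj (v 1), ζ 0 * v 1 + ζ 1 * conj (v 0)] : Sp))
  (fun _ _ _ => by ext i; fin_cases i <;> simp <;> ring)
  (fun _ _ _ => by ext i; fin_cases i <;> simp <;> ring)
  (fun _ _ _ => by ext i; fin_cases i <;> simp <;> ring)
  (fun _ _ _ => by ext i; fin_cases i <;> simp <;> ring)).toContinuousBilinearMap

/-- its transpose -/
def ph' : Sp →L[ℝ] Sp →L[ℝ] Sp := (LinearMap.mk₂ ℝ
  (fun ζ v : Sp => (!₂[conj (ζ 0) * v 0 + ζ 1 * conj (v 1),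
    conj (ζ 0) * v 1 - ζ 1 * conj (v 0)] : Sp))
  (fun _ _ _ => by ext i; fin_cases i <;> simp <;> ring)
  (fun _ _ _ => by ext i; fin_cases i <;> simp <;> ring)
  (fun _ _ _ => by ext i; fin_cases i <;> simp <;> ring)
  (fun _ _ _ => by ext i; fin_cases i <;> simp <;> ring)).toContinuousBilinearMap

theorem ph_apply (ζ v : Sp) :
    ph ζ v = !₂[ζ 0 * v 0 - ζ 1 * conj (v 1), ζ 0 * v 1 + ζ 1 * conj (v 0)] := rfl

theorem ph'_apply (ζ v : Sp) :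
    ph' ζ v = !₂[conj (ζ 0) * v 0 + ζ 1 * conj (v 1), conj (ζ 0) * v 1 - ζ 1 * conj (v 0)] := rfl

theorem ph_smul (γ : ℂ) (ζ v : Sp) : ph (γ • ζ) v = γ • ph ζ v := by
  ext i; fin_cases i <;> simp [ph_apply] <;> ring

theorem ph'_smul (γ : ℂ) (ζ v : Sp) : ph' ζ (γ • v) = ph' (conj γ • ζ) v := by
  ext i; fin_cases i <;> simp [ph'_apply] <;> ring

theorem ph_sgm (p : V4) (ζ v : Sp) : ph ζ (sgm p v) = sgm p (ph ζ v) := by
  ext i; fin_cases i <;> simp [ph_apply, sgm_fin] <;> ring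

theorem ph'_sgm (p : V4) (ζ v : Sp) : ph' ζ (sgm p v) = sgm p (ph' ζ v) := by
  ext i; fin_cases i <;> simp [ph'_apply, sgm_fin] <;> ring

theorem norm_ph (ζ v : Sp) : ‖ph ζ v‖ ^ 2 = ‖ζ‖ ^ 2 * ‖v‖ ^ 2 := by
  simp [norm_sq_sp, ph_apply, Complex.sq_norm, Complex.normSq_apply]
  ring

theorem norm_ph' (ζ v : Sp) : ‖ph' ζ v‖ ^ 2 = ‖ζ‖ ^ 2 * ‖v‖ ^ 2 := by
  simp [norm_sq_sp, ph'_apply, Complex.sq_norm, Complex.normSq_apply]
  ring

theorem adj_ph (ζ v w : Sp) : ⟪ph ζ v, w⟫ = ⟪v, ph' ζ w⟫ := by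
  simp [Hx.inner_vec, vec_eq, ph_apply, ph'_apply, Fin.sum_univ_four]
  ring

/-- the conjugation -/
def cqL : V4 →L[ℝ] V4 := LinearMap.toContinuousLinearMap
  { toFun := cq
    map_add' := fun _ _ => by funext i; fin_cases i <;> simp [cq] <;> ring
    map_smul' := fun _ _ => by funext i; fin_cases i <;> simp [cq] }

theorem cqL_apply (t : V4) : cqL t = cq t := rfl

theorem cq_cq (t : V4) : cq (cq t) = t := by funext i; fin_cases i <;> simp [cq]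

theorem ns_cq (t : V4) : ns (cq t) = ns t := by simp [ns, cq, Fin.sum_univ_four]

section
variable {U V : Type} [NormedAddCommGroup U] [NormedSpace ℝ U] [FiniteDimensional ℝ U]
  [NormedAddCommGroup V] [InnerProductSpace ℝ V]

/-- diagonal families -/
def dgL (A D : U →L[ℝ] V →L[ℝ] V) : U →L[ℝ] Su V V →L[ℝ] Su V V := LinearMap.toContinuousLinearMap
  { toFun := fun ζ => dg (A ζ) (D ζ)
    map_add' := fun _ _ => by rw [map_add, map_add]; rfl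
    map_smul' := fun _ _ => by rw [map_smul, map_smul]; rfl }

/-- antidiagonal families -/
def adL (A D : U →L[ℝ] V →L[ℝ] V) : U →L[ℝ] Su V V →L[ℝ] Su V V := LinearMap.toContinuousLinearMap
  { toFun := fun ζ => ad (A ζ) (D ζ)
    map_add' := fun _ _ => by rw [map_add, map_add]; rfl
    map_smul' := fun _ _ => by rw [map_smul, map_smul]; rfl }

end

/-- the deformation -/
def Bm : Sp →L[ℝ] Su Sp Sp →L[ℝ] Su Sp Sp := adL ph (-ph')

/-- the symbol -/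
def Mq : V4 →L[ℝ] Su Sp Sp →L[ℝ] Su Sp Sp := dgL (reL.comp sgmL) (-(reL.comp sgmL).comp cqL)

theorem Bm_apply (ζ : Sp) (v : Su Sp Sp) : Bm ζ v = toLp 2 (ph ζ v.snd, -ph' ζ v.fst) := rfl

theorem Mq_apply (β : V4) (v : Su Sp Sp) :
    Mq β v = toLp 2 (sgm β v.fst, -sgm (cq β) v.snd) := rfl

theorem norm_Bm (ζ : Sp) (v : Su Sp Sp) : ‖Bm ζ v‖ ^ 2 = ‖ζ‖ ^ 2 * ‖v‖ ^ 2 := by
  simp only [norm_su, Bm_apply, toLp_fst, toLp_snd, norm_neg, norm_ph, norm_ph']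
  ring

theorem norm_Mq (β : V4) (v : Su Sp Sp) : ‖Mq β v‖ ^ 2 = ns β * ‖v‖ ^ 2 := by
  have := ns_cq β
  simp only [norm_su, Mq_apply, toLp_fst, toLp_snd, norm_neg, norm_sgm_sq, ns] at this ⊢
  rw [this]
  ring

theorem adj_Bm (ζ : Sp) (v w : Su Sp Sp) : ⟪Bm ζ v, w⟫ = ⟪v, (-Bm ζ) w⟫ := by
  rw [neg_apply, inner_neg_right]
  simp only [inner_su, Bm_apply, toLp_fst, toLp_snd, inner_neg_left, inner_neg_right, adj_ph,
    real_inner_comm (ph ζ _), real_inner_comm (ph' ζ v.fst)]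
  ring

theorem Mq_Bm (β : V4) (ζ : Sp) (v w : Su Sp Sp) :
    ⟪Mq β v, Bm ζ w⟫ = ⟪sgm β v.fst, ph ζ w.snd⟫ + ⟪sgm β w.fst, ph ζ v.snd⟫ := by
  simp only [inner_su, Bm_apply, Mq_apply, toLp_fst, toLp_snd, inner_neg_neg]
  rw [Hx.adj_sgm (cq β), cq_cq, ← ph'_sgm, ← adj_ph, real_inner_comm (sgm β w.fst)]

theorem sy_Bm (β : V4) (ζ : Sp) (v w : Su Sp Sp) : ⟪Mq β v, Bm ζ w⟫ = ⟪Mq β w, Bm ζ v⟫ := by
  rw [Mq_Bm, Mq_Bm, add_comm]

/-- the coordinates -/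
def i1 : R4 ≃L[ℝ] V4 := EuclideanSpace.equiv (Fin 4) ℝ

theorem i1_ee (k : Fin 4) : i1 (ee k) = e k := rfl

theorem ns_i1 (ξ : R4) : ns (i1 ξ) = ‖ξ‖ ^ 2 := (nsq ξ).symm

theorem cl_Mq {A C : V4 →L[ℝ] V4} (hA : ∀ t, ns (A t) = ns t) (hC : ∀ t, ns (C t) = ns t) :
    Cl ((Mq.comp A).comp (i1 : R4 →L[ℝ] V4)) ((Bm.comp (spnL.comp C)).comp (i1 : R4 →L[ℝ] V4)) :=
  ⟨fun ξ v => (sq_eq_sq₀ (by positivity) (by positivity)).1 ((norm_Mq _ v).trans (by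
      rw [mul_pow, ← ns_i1]; exact congrArg (· * _) (hA _))),
    fun ξ v => (sq_eq_sq₀ (by positivity) (by positivity)).1 ((norm_Bm _ v).trans (by
      rw [mul_pow, ← ns_i1, ← ns_vec]
      exact congrArg (· * _) ((congrArg ns (vec_spn _)).trans (hC _)))),
    fun _ _ _ _ => sy_Bm _ _ _ _⟩

theorem ker_Mq {A : V4 →L[ℝ] V4} (hA : A = .id ℝ V4 ∨ A = cqL) :
    Ker ((Mq.comp A).comp (i1 : R4 →L[ℝ] V4)) ((Bm.comp (spnL.comp A)).comp (i1 : R4 →L[ℝ] V4)) := by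
  have h2 : (√2)⁻¹ ^ 2 = (1 / 2 : ℝ) := by rw [inv_pow, Real.sq_sqrt zero_le_two, one_div]
  refine ⟨(√2)⁻¹ • toLp 2 (s0, s0), (sq_eq_sq₀ (by positivity) zero_le_one).1 ?_, fun ξ => ?_,
    fun w => ?_⟩
  · rw [norm_smul, mul_pow, Real.norm_eq_abs, sq_abs, h2, norm_su]
    simp [s0]
    norm_num
  · rw [map_smul, map_smul]
    refine congrArg (fun v => _ • toLp 2 v) (Prod.ext ?_ ?_) <;> ext i <;> fin_cases i <;>
      simp [ph_apply, ph'_apply, sgm_fin, spn_fin, s0, cq, cqL_apply, sub_eq_neg_add, add_comm]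
  · have : be ((Mq.comp A).comp (i1 : R4 →L[ℝ] V4)) ((Bm.comp (spnL.comp A)).comp
        (i1 : R4 →L[ℝ] V4)) w = 8 * (w.fst 0).re * (w.snd 0).re := by
      rcases hA with rfl | rfl <;>
      · simp only [be, ContinuousLinearMap.comp_apply, Mq_Bm]
        simp [i1_ee, cqL_apply, Hx.inner_vec, vec_eq, ph_apply, sgm_fin, spn_fin, cq, e,
          Fin.sum_univ_four]
        ring
    rw [this, inner_smul_right, mul_pow, h2]
    simp [norm_su, norm_sq_sp, Complex.sq_norm, Complex.normSq_apply, Hx.inner_vec,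
      vec_eq, s0, Fin.sum_univ_four]
    nlinarith [sq_nonneg ((w.fst 0).re - (w.snd 0).re), mul_self_nonneg (w.fst 0).im,
      mul_self_nonneg (w.snd 0).im, mul_self_nonneg (w.fst 1).im, mul_self_nonneg (w.snd 1).im,
      mul_self_nonneg (w.fst 1).re, mul_self_nonneg (w.snd 1).re]

theorem nok_Mq {A C : V4 →L[ℝ] V4} (h : A = .id ℝ V4 ∧ C = cqL ∨ A = cqL ∧ C = .id ℝ V4) :
    Nok ((Mq.comp A).comp (i1 : R4 →L[ℝ] V4)) ((Bm.comp (spnL.comp C)).comp (i1 : R4 →L[ℝ] V4)) := by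
  intro w
  rcases h with ⟨rfl, rfl⟩ | ⟨rfl, rfl⟩ <;>
  · simp only [be, ContinuousLinearMap.comp_apply, Mq_Bm]
    simp [i1_ee, cqL_apply, Hx.inner_vec, vec_eq, ph_apply, sgm_fin, spn_fin, cq, e,
      Fin.sum_univ_four, norm_su, norm_sq_sp, Complex.sq_norm, Complex.normSq_apply]
    nlinarith [sq_nonneg ((w.fst 0).re + (w.snd 0).re), sq_nonneg ((w.fst 0).im - (w.snd 0).im),
      sq_nonneg ((w.fst 1).re - (w.snd 1).re), sq_nonneg ((w.fst 1).im - (w.snd 1).im)]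

variable {V W : Type} [NormedAddCommGroup V] [InnerProductSpace ℝ V] [NormedAddCommGroup W]
  [InnerProductSpace ℝ W] {M S : R4 →L[ℝ] V →L[ℝ] W}

theorem Cl.neg (h : Cl M S) : Cl (-M) (-S) :=
  ⟨by simpa using h.mm, by simpa using h.ss, by simpa using h.ms⟩

theorem Ker.neg (h : Ker M S) : Ker (-M) (-S) := by simpa [Ker, be] using h

theorem Nok.neg (h : Nok M S) : Nok (-M) (-S) := by simpa [Nok, be] using h

end Vale.Agent.P247I
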