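import Vale.Agent.P247I.Pert
import Vale.Agent.P247E.Adj
import Vale.Agent.P247E.Bas

/-!
# P247I: deformed operators on smooth sections
-/

open MeasureTheory Metric Set Filter Topology
open scoped ContDiff RealInnerProductSpace

noncomputable section

namespace Vale.Agent.P247I

open Vale.Agent.P204.GX Vale.Agent.P204.T4 Vale.Agent.P247E
open Vale.Agent.P247.H74 (e)

variable {X : Type} [MetricSpace X] {M : CM X}
variable {V W : Type} [NormedAddCommGroup V] [InnerProductSpace ℝ V]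
  [NormedAddCommGroup W] [InnerProductSpace ℝ W] {E : Bun M V} {F : Bun M W}

/-- the operator on smooth sections -/
def appL (P : Op E F) : E.Sm →ₗ[ℝ] F.Sm where
  toFun s := ⟨P.app s, P.app_mem s.2⟩
  map_add' s t := Subtype.ext (funext fun x => by
    have h := fun a y => fderiv_add ((s.2 a).differentiable (by simp) y)
      ((t.2 a).differentiable (by simp) y)
    simp only [Op.app, locOp, Submodule.coe_add, E.lo_add, h, add_apply, map_add, Pi.add_apply,
      Finset.sum_add_distrib]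
    abel)
  map_smul' c s := Subtype.ext (funext fun x => by
    have h := fun a y => fderiv_const_smul ((s.2 a).differentiable (by simp) y) c
    simp only [Op.app, locOp, Submodule.coe_smul, E.lo_smul, h, smul_apply, map_smul, map_add,
      Pi.smul_apply, RingHom.id_apply, smul_add, map_sum, Finset.smul_sum])

/-- a homomorphism in a chart -/
def Bl (E : Bun M V) (F : Bun M W) (B : X → V →L[ℝ] W) (a : M.A) (y : V4) : V →L[ℝ] W :=
  (F.u' a y).comp ((B (M.ψ a y)).comp (E.u a y))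

theorem lo_B (B : X → V →L[ℝ] W) (a : M.A) (s : X → V) :
    F.lo a (fun x => B x (s x)) = fun y => Bl E F B a y (E.lo a s y) := funext fun y => by
  simp only [Bl, ContinuousLinearMap.comp_apply, E.u_lo]; rfl

theorem hom_mem {B : X → V →L[ℝ] W} (h : E.Hom F B) {s : X → V} (hs : s ∈ E.Sm) :
    (fun x => B x (s x)) ∈ F.Sm := fun a => by rw [lo_B (E := E)]; exact (h a).clm_apply (hs a)

/-- the deformed operator -/
def At (P : Op E F) (B : X → V →L[ℝ] W) (t : ℝ) (s : X → V) (x : X) : W :=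
  P.app s x + t • B x (s x)

theorem At_mem (P : Op E F) {B : X → V →L[ℝ] W} (h : E.Hom F B) (t : ℝ) {s : X → V}
    (hs : s ∈ E.Sm) : At P B t s ∈ F.Sm :=
  F.Sm.add_mem (P.app_mem hs) (F.Sm.smul_mem t (hom_mem h hs))

theorem bound_charts {A : Type} [NormedAddCommGroup A] {K : M.A → V4 → A}
    (h : ∀ a, Continuous (K a)) : ∃ C, 0 ≤ C ∧ ∀ x, ‖K (M.ch x) (M.cy x)‖ ≤ C := by
  choose C hC using fun a => (isCompact_closedBall (0 : V4) 1).exists_bound_of_continuousOn
    (h a).continuousOn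
  exact ⟨∑ a, |C a|, Finset.sum_nonneg fun _ _ => abs_nonneg _, fun x =>
    (hC _ _ (mem_closedBall_zero_iff.2 (M.norm_cy x).le)).trans ((le_abs_self _).trans
      (Finset.single_le_sum (f := fun a => |C a|) (fun _ _ => abs_nonneg _) (Finset.mem_univ _)))⟩

theorem bound_lo {K : M.A → V4 → V →L[ℝ] W} (h : ∀ a, Continuous (K a)) : ∃ C, 0 ≤ C ∧
    ∀ (s : X → V) (g : X → W), (∀ a y, F.lo a g y = K a y (E.lo a s y)) →
      ∀ x, ‖g x‖ ≤ C * ‖s x‖ := by
  obtain ⟨C, h0, hC⟩ := bound_charts h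
  refine ⟨C, h0, fun s g k x => ?_⟩
  rw [← M.ψ_cy x, ← F.norm_lo, ← E.norm_lo, k]
  exact (K _ _).le_of_opNorm_le (hC x) _

/-- the commutator with a function -/
theorem comm_le (P : Op E F) {χ : X → ℝ} (hχ : M.Sm0 χ) : ∃ C, 0 ≤ C ∧ ∀ s ∈ E.Sm, ∀ x,
    ‖P.app (fun x => χ x • s x) x - χ x • P.app s x‖ ≤ C * ‖s x‖ := by
  obtain ⟨C, h0, hC⟩ := bound_lo (E := E) (F := F) (K := fun a y =>
    ∑ i, fderiv ℝ (fun y => χ (M.ψ a y)) y (e i) • P.Mi a i y) fun a => continuous_finsetSum _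
      fun i _ => (((hχ a).continuous_fderiv (by simp)).clm_apply continuous_const).smul
        (P.Mi_smooth a i).continuous
  refine ⟨C, h0, fun s hs => hC s (P.app (fun x => χ x • s x) - fun x => χ x • P.app s x)
    fun a y => ?_⟩
  have d := fderiv_fun_smul ((hχ a).differentiable (by simp) y) ((hs a).differentiable (by simp) y)
  simp only [F.lo_sub, P.lo_app (E.fsmul_mem hχ hs), F.lo_fsmul, P.lo_app hs, E.lo_fsmul,
    Pi.sub_apply, locOp, d, add_apply, smul_apply, map_add, map_smul, sum_apply,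
    ContinuousLinearMap.smulRight_apply, Finset.sum_add_distrib, smul_add, Finset.smul_sum]
  abel

variable [MeasurableSpace X] [BorelSpace X] [CompactSpace X] [FiniteDimensional ℝ V]
  [FiniteDimensional ℝ W]

/-- the data of a deformation -/
structure Wd (P : Op E F) (P' : Op F E) (B : X → V →L[ℝ] W) (B' : X → W →L[ℝ] V) : Prop where
  adj : P.IsAdj P'
  hom : E.Hom F B
  hom' : F.Hom E B'
  tr : ∀ x v w, ⟪B x v, w⟫ = ⟪v, B' x w⟫
  sy : ∀ a i y v w, ⟪P.Mi a i y v, Bl E F B a y w⟫ = ⟪P.Mi a i y w, Bl E F B a y v⟫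
  sy' : ∀ a i y v w, ⟪P'.Mi a i y v, Bl F E B' a y w⟫ = ⟪P'.Mi a i y w, Bl F E B' a y v⟫

theorem isq (E : Bun M V) {s : X → V} (hs : s ∈ E.Sm) : Integrable (fun x => ‖s x‖ ^ 2) M.mu := by
  simpa only [real_inner_self_eq_norm_sq] using E.integrable_inner hs hs

variable {P : Op E F} {P' : Op F E} {B : X → V →L[ℝ] W} {B' : X → W →L[ℝ] V}

omit [BorelSpace X] [CompactSpace X] [FiniteDimensional ℝ V] [FiniteDimensional ℝ W] in
theorem Wd.symm (h : Wd P P' B B') : Wd P' P B' B :=
  ⟨fun s hs t ht => by simpa only [real_inner_comm] using (h.adj t ht s hs).symm, h.hom', h.hom,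
    fun x v w => by rw [real_inner_comm, ← h.tr, real_inner_comm], h.sy', h.sy⟩

theorem Wd.cross (h : Wd P P' B B') : ∃ C, 0 ≤ C ∧ ∀ s ∈ E.Sm,
    -(C * ∫ x, ‖s x‖ ^ 2 ∂M.mu) ≤ 2 * ∫ x, ⟪P.app s x, B x (s x)⟫ ∂M.mu := by
  have hM := ((ADJ BAS X M V W E F P).2 P' h.adj).1
  obtain ⟨C, h0, hC⟩ := bound_lo (E := E) (F := E) (K := fun a y =>
    ∑ i, (P'.Mi a i y).comp (fderiv ℝ (Bl E F B a) y (e i)) + (P'.N a y).comp (Bl E F B a y) +
      (Bl F E B' a y).comp (P.N a y)) fun a => ((continuous_finsetSum _ fun i _ =>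
        (P'.Mi_smooth a i).continuous.clm_comp (((h.hom a).continuous_fderiv
          (by simp)).clm_apply continuous_const)).add ((P'.N_smooth a).continuous.clm_comp
            (h.hom a).continuous)).add ((h.hom' a).continuous.clm_comp (P.N_smooth a).continuous)
  refine ⟨C, h0, fun s hs => ?_⟩
  have m1 := hom_mem h.hom hs
  have m2 := hom_mem h.hom' (P.app_mem hs)
  have k := hC s (P'.app (fun x => B x (s x)) + fun x => B' x (P.app s x)) fun a y => by
    have d := fderiv_clm_apply (c := Bl E F B a) ((h.hom a).differentiable (by simp) y)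
      ((hs a).differentiable (by simp) y)
    have z : ∀ i w, Bl F E B' a y (P.Mi a i y w) = -P'.Mi a i y (Bl E F B a y w) := fun i w =>
      ext_inner_left ℝ fun v => by
        rw [inner_neg_right, ← hM, h.sy, real_inner_comm (Bl E F B a y v)]
        simp only [Bl, ContinuousLinearMap.comp_apply]
        rw [← E.inner_u a y, E.u_u', ← h.tr, ← F.inner_u a y (F.u' a y _), F.u_u']
    simp only [E.lo_add, P'.lo_app m1, lo_B (E := E), lo_B (E := F), P.lo_app hs, Pi.add_apply,
      locOp, d, add_apply, map_add, map_sum, z, sum_apply, ContinuousLinearMap.comp_apply,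
      ContinuousLinearMap.flip_apply, Finset.sum_add_distrib, Finset.sum_neg_distrib]
    abel
  have e1 : 2 * ∫ x, ⟪P.app s x, B x (s x)⟫ ∂M.mu =
      ∫ x, ⟪s x, P'.app (fun x => B x (s x)) x + B' x (P.app s x)⟫ ∂M.mu := by
    simp only [inner_add_right]
    rw [integral_add (E.integrable_inner hs (P'.app_mem m1)) (E.integrable_inner hs m2),
      ← h.adj s hs _ m1, two_mul]
    simp only [← h.tr, real_inner_comm (P.app s _)]
  rw [e1, ← integral_const_mul, ← integral_neg]
  refine integral_mono ((isq E hs).const_mul _).neg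
    (E.integrable_inner hs (E.Sm.add_mem (P'.app_mem m1) m2)) fun x => ?_
  have := (abs_real_inner_le_norm (s x) _).trans (mul_le_mul_of_nonneg_left (k x) (norm_nonneg _))
  simp only [Pi.add_apply] at this ⊢
  linarith [neg_abs_le ⟪s x, P'.app (fun x => B x (s x)) x + B' x (P.app s x)⟫]

/-- the estimate away from the zeros -/
theorem Wd.away (h : Wd P P' B B') : ∃ C, 0 ≤ C ∧ ∀ t, 0 ≤ t → ∀ s ∈ E.Sm,
    t ^ 2 * ∫ x, ‖B x (s x)‖ ^ 2 ∂M.mu ≤
      ∫ x, ‖At P B t s x‖ ^ 2 ∂M.mu + C * t * ∫ x, ‖s x‖ ^ 2 ∂M.mu := by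
  obtain ⟨C, h0, hC⟩ := h.cross
  refine ⟨C, h0, fun t ht s hs => ?_⟩
  have i1 := isq F (P.app_mem hs)
  have i2 := (F.integrable_inner (P.app_mem hs) (hom_mem h.hom hs)).const_mul (2 * t)
  have i3 := (isq F (hom_mem h.hom hs)).const_mul (t ^ 2)
  have e1 : ∀ x, ‖At P B t s x‖ ^ 2 = ‖P.app s x‖ ^ 2 + 2 * t * ⟪P.app s x, B x (s x)⟫ +
      t ^ 2 * ‖B x (s x)‖ ^ 2 := fun x => by
    rw [At, norm_add_sq_real, inner_smul_right, norm_smul, mul_pow, Real.norm_eq_abs, sq_abs]
    ring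
  simp only [e1]
  rw [integral_add (by exact i1.add i2) i3, integral_add i1 i2, integral_const_mul,
    integral_const_mul]
  have p : 0 ≤ ∫ x, ‖P.app s x‖ ^ 2 ∂M.mu := integral_nonneg fun x => by positivity
  nlinarith [mul_le_mul_of_nonneg_left (hC s hs) ht]

end Vale.Agent.P247I
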