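import Vale.Agent.P247I.Loc

/-!
# P247I: direct sums of bundles and operators
-/

open MeasureTheory Set Filter Topology Module WithLp
open scoped ContDiff RealInnerProductSpace

noncomputable section

namespace Vale.Agent.P247I

open Vale.Agent.P204.GX Vale.Agent.P204.T4 Vale.Agent.P247E

/-- the orthogonal sum -/
abbrev Su (A B : Type) : Type := WithLp 2 (A × B)

variable {U V₁ V₂ W₁ W₂ : Type} [NormedAddCommGroup U] [NormedSpace ℝ U]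
  [NormedAddCommGroup V₁] [InnerProductSpace ℝ V₁] [NormedAddCommGroup V₂]
  [InnerProductSpace ℝ V₂] [NormedAddCommGroup W₁] [InnerProductSpace ℝ W₁]
  [NormedAddCommGroup W₂] [InnerProductSpace ℝ W₂]

/-- pairs -/
def pr2 (A B : Type) [NormedAddCommGroup A] [InnerProductSpace ℝ A] [NormedAddCommGroup B]
    [InnerProductSpace ℝ B] : A × B →L[ℝ] Su A B := (prodContinuousLinearEquiv 2 ℝ A B).symm

/-- a map with given components -/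
def mx (A : U →L[ℝ] W₁) (B : U →L[ℝ] W₂) : U →L[ℝ] Su W₁ W₂ := (pr2 W₁ W₂).comp (A.prod B)

theorem sm_mx : ContDiff ℝ ∞ fun p : (U →L[ℝ] W₁) × (U →L[ℝ] W₂) => mx p.1 p.2 := by
  have : (fun p : (U →L[ℝ] W₁) × (U →L[ℝ] W₂) => mx p.1 p.2) = fun p =>
      ((pr2 W₁ W₂).comp (.inl ℝ _ _)).comp p.1 + ((pr2 W₁ W₂).comp (.inr ℝ _ _)).comp p.2 :=
    funext fun p => ContinuousLinearMap.ext fun v => by simp [mx, ← map_add]
  rw [this]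
  exact (contDiff_const.clm_comp contDiff_fst).add (contDiff_const.clm_comp contDiff_snd)

/-- diagonal maps -/
def dg (A : V₁ →L[ℝ] W₁) (D : V₂ →L[ℝ] W₂) : Su V₁ V₂ →L[ℝ] Su W₁ W₂ :=
  mx (A.comp (fstL 2 ℝ V₁ V₂)) (D.comp (sndL 2 ℝ V₁ V₂))

/-- antidiagonal maps -/
def ad (B : V₂ →L[ℝ] W₁) (C : V₁ →L[ℝ] W₂) : Su V₁ V₂ →L[ℝ] Su W₁ W₂ :=
  mx (B.comp (sndL 2 ℝ V₁ V₂)) (C.comp (fstL 2 ℝ V₁ V₂))

theorem sm_dg : ContDiff ℝ ∞ fun p : (V₁ →L[ℝ] W₁) × (V₂ →L[ℝ] W₂) => dg p.1 p.2 :=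
  sm_mx.comp ((contDiff_fst.clm_comp contDiff_const).prodMk (contDiff_snd.clm_comp contDiff_const))

theorem sm_ad : ContDiff ℝ ∞ fun p : (V₂ →L[ℝ] W₁) × (V₁ →L[ℝ] W₂) => ad p.1 p.2 :=
  sm_mx.comp ((contDiff_fst.clm_comp contDiff_const).prodMk (contDiff_snd.clm_comp contDiff_const))

theorem meas_dg {f : V4 → V₁ →L[ℝ] W₁} {g : V4 → V₂ →L[ℝ] W₂} (hf : StronglyMeasurable f)
    (hg : StronglyMeasurable g) : StronglyMeasurable fun y => dg (f y) (g y) := by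
  have := (sm_dg (V₁ := V₁) (V₂ := V₂) (W₁ := W₁) (W₂ := W₂)).continuous
  exact this.comp_stronglyMeasurable (hf.prodMk hg)

theorem dg_apply (A : V₁ →L[ℝ] W₁) (D : V₂ →L[ℝ] W₂) (v : Su V₁ V₂) :
    dg A D v = toLp 2 (A v.fst, D v.snd) := rfl

theorem ad_apply (B : V₂ →L[ℝ] W₁) (C : V₁ →L[ℝ] W₂) (v : Su V₁ V₂) :
    ad B C v = toLp 2 (B v.snd, C v.fst) := rfl

omit [InnerProductSpace ℝ V₁] [InnerProductSpace ℝ V₂] in
theorem norm_su (v : Su V₁ V₂) : ‖v‖ ^ 2 = ‖v.fst‖ ^ 2 + ‖v.snd‖ ^ 2 := prod_norm_sq_eq_of_L2 v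

theorem inner_su (v w : Su V₁ V₂) : ⟪v, w⟫ = ⟪v.fst, w.fst⟫ + ⟪v.snd, w.snd⟫ := rfl

variable {X : Type} [MetricSpace X] {M : CM X}

/-- the sum of two bundles -/
def bsum (E₁ : Bun M V₁) (E₂ : Bun M V₂) : Bun M (Su V₁ V₂) where
  u a y := dg (E₁.u a y) (E₂.u a y)
  u' a y := dg (E₁.u' a y) (E₂.u' a y)
  u_meas a := meas_dg (E₁.u_meas a) (E₂.u_meas a)
  u'_meas a := meas_dg (E₁.u'_meas a) (E₂.u'_meas a)
  u_u' a y v := by simp [dg_apply, E₁.u_u', E₂.u_u']; rfl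
  u'_u a y v := by simp [dg_apply, E₁.u'_u, E₂.u'_u]; rfl
  u_norm a y v := (sq_eq_sq₀ (norm_nonneg _) (norm_nonneg _)).1 (by
    simp [norm_su, dg_apply, E₁.u_norm, E₂.u_norm])
  trans a b := sm_dg.comp_contDiffOn ((E₁.trans a b).prodMk (E₂.trans a b))

variable {E₁ : Bun M V₁} {E₂ : Bun M V₂} {F₁ : Bun M W₁} {F₂ : Bun M W₂}

theorem fst_mem {s : X → Su V₁ V₂} (h : s ∈ (bsum E₁ E₂).Sm) : (fun x => (s x).fst) ∈ E₁.Sm :=
  fun a => (fstL 2 ℝ V₁ V₂).contDiff.comp (h a)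

theorem snd_mem {s : X → Su V₁ V₂} (h : s ∈ (bsum E₁ E₂).Sm) : (fun x => (s x).snd) ∈ E₂.Sm :=
  fun a => (sndL 2 ℝ V₁ V₂).contDiff.comp (h a)

theorem locOp_dg (M₁ : Fin 4 → V4 → V₁ →L[ℝ] W₁) (M₂ : Fin 4 → V4 → V₂ →L[ℝ] W₂)
    (N₁ : V4 → V₁ →L[ℝ] W₁) (N₂ : V4 → V₂ →L[ℝ] W₂) {f : V4 → Su V₁ V₂} (hf : ContDiff ℝ ∞ f)
    (y : V4) : locOp (fun i y => dg (M₁ i y) (M₂ i y)) (fun y => dg (N₁ y) (N₂ y)) f y =
      toLp 2 (locOp M₁ N₁ (fun y => (f y).fst) y, locOp M₂ N₂ (fun y => (f y).snd) y) := by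
  have d := (hf.differentiable (by simp) y).hasFDerivAt
  have d1 : fderiv ℝ (fun y => (f y).fst) y = _ := ((fstL 2 ℝ V₁ V₂).hasFDerivAt.comp y d).fderiv
  have d2 : fderiv ℝ (fun y => (f y).snd) y = _ := ((sndL 2 ℝ V₁ V₂).hasFDerivAt.comp y d).fderiv
  simp only [locOp, d1, d2, Fin.sum_univ_four]
  rfl

/-- the sum of two operators -/
def osum (P₁ : Op E₁ F₁) (P₂ : Op E₂ F₂) : Op (bsum E₁ E₂) (bsum F₁ F₂) where
  Mi a i y := dg (P₁.Mi a i y) (P₂.Mi a i y)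
  N a y := dg (P₁.N a y) (P₂.N a y)
  Mi_smooth a i := sm_dg.comp ((P₁.Mi_smooth a i).prodMk (P₂.Mi_smooth a i))
  N_smooth a := sm_dg.comp ((P₁.N_smooth a).prodMk (P₂.N_smooth a))
  compat s hs a b y hy := by
    rw [locOp_dg _ _ _ _ (hs a), locOp_dg _ _ _ _ (hs b)]
    exact congrArg (toLp 2) (Prod.ext (P₁.compat _ (fst_mem hs) a b y hy)
      (P₂.compat _ (snd_mem hs) a b y hy))

theorem osum_app (P₁ : Op E₁ F₁) (P₂ : Op E₂ F₂) {s : X → Su V₁ V₂} (hs : s ∈ (bsum E₁ E₂).Sm)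
    (x : X) : (osum P₁ P₂).app s x =
      toLp 2 (P₁.app (fun x => (s x).fst) x, P₂.app (fun x => (s x).snd) x) :=
  congrArg ((bsum F₁ F₂).u _ _) (locOp_dg _ _ _ _ (hs _) _)

theorem ker_osum (P₁ : Op E₁ F₁) (P₂ : Op E₂ F₂) : Nonempty (LinearMap.ker (appL (osum P₁ P₂))
    ≃ₗ[ℝ] LinearMap.ker (appL P₁) × LinearMap.ker (appL P₂)) := by
  have k : ∀ s : LinearMap.ker (appL (osum P₁ P₂)), ∀ x, toLp 2 (P₁.app (fun x => (s.1.1 x).fst) x,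
      P₂.app (fun x => (s.1.1 x).snd) x) = 0 := fun s x =>
    (osum_app P₁ P₂ s.1.2 x).symm.trans (congrFun (congrArg Subtype.val s.2) x)
  have m : ∀ (s : E₁.Sm) (t : E₂.Sm), (fun x => toLp 2 (s.1 x, t.1 x)) ∈ (bsum E₁ E₂).Sm :=
    fun s t a => (pr2 V₁ V₂).contDiff.comp ((s.2 a).prodMk (t.2 a))
  exact ⟨{
    toFun := fun s => (⟨⟨_, fst_mem s.1.2⟩, Subtype.ext (funext fun x =>
      congrArg WithLp.fst (k s x))⟩, ⟨⟨_, snd_mem s.1.2⟩, Subtype.ext (funext fun x =>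
        congrArg WithLp.snd (k s x))⟩)
    map_add' := fun _ _ => rfl
    map_smul' := fun _ _ => rfl
    invFun := fun p => ⟨⟨_, m p.1 p.2⟩, Subtype.ext (funext fun x =>
      (osum_app P₁ P₂ (m p.1 p.2) x).trans (congrArg (toLp 2) (Prod.ext
        (congrFun (congrArg Subtype.val p.1.2) x) (congrFun (congrArg Subtype.val p.2.2) x))))⟩
    left_inv := fun _ => rfl
    right_inv := fun _ => rfl }⟩

variable [MeasurableSpace X] [BorelSpace X] [CompactSpace X] [FiniteDimensional ℝ V₁]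
  [FiniteDimensional ℝ V₂] [FiniteDimensional ℝ W₁] [FiniteDimensional ℝ W₂]
  {P₁ : Op E₁ F₁} {P₂ : Op E₂ F₂} {P₁' : Op F₁ E₁} {P₂' : Op F₂ E₂}

theorem osum_adj (h₁ : P₁.IsAdj P₁') (h₂ : P₂.IsAdj P₂') : (osum P₁ P₂).IsAdj (osum P₁' P₂') := by
  intro s hs t ht
  simp only [osum_app _ _ hs, osum_app _ _ ht, inner_su, toLp_fst, toLp_snd]
  rw [integral_add (F₁.integrable_inner (P₁.app_mem (fst_mem hs)) (fst_mem ht))
    (F₂.integrable_inner (P₂.app_mem (snd_mem hs)) (snd_mem ht)),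
    integral_add (E₁.integrable_inner (fst_mem hs) (P₁'.app_mem (fst_mem ht)))
    (E₂.integrable_inner (snd_mem hs) (P₂'.app_mem (snd_mem ht))),
    h₁ _ (fst_mem hs) _ (fst_mem ht), h₂ _ (snd_mem hs) _ (snd_mem ht)]

theorem Ell.ind_sum (H : Ell) (d₁ : finrank ℝ V₁ = finrank ℝ W₁) (d₂ : finrank ℝ V₂ = finrank ℝ W₂)
    (d : finrank ℝ (Su V₁ V₂) = finrank ℝ (Su W₁ W₂)) (h₁ : P₁.IsAdj P₁') (h₂ : P₂.IsAdj P₂')
    (c₁ : P₁.Cliff) (c₂ : P₂.Cliff) (c : (osum P₁ P₂).Cliff) :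
    (osum P₁ P₂).ind = P₁.ind + P₂.ind := by
  obtain ⟨a1, a2, a3, -⟩ := H.smi d₁ h₁ c₁
  obtain ⟨b1, b2, b3, -⟩ := H.smi d₂ h₂ c₂
  obtain ⟨e1⟩ := ker_osum P₁ P₂
  obtain ⟨e2⟩ := ker_osum P₁' P₂'
  have := Free.of_divisionRing ℝ (LinearMap.ker (appL P₁))
  have := Free.of_divisionRing ℝ (LinearMap.ker (appL P₂))
  have := Free.of_divisionRing ℝ (LinearMap.ker (appL P₁'))
  have := Free.of_divisionRing ℝ (LinearMap.ker (appL P₂'))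
  rw [(H.smi d (osum_adj h₁ h₂) c).2.2.1, e1.finrank_eq, e2.finrank_eq, finrank_prod, finrank_prod,
    a3, b3]
  push_cast
  ring

end Vale.Agent.P247I
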