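import Vale.Agent.P247I.Zer
import Vale.Agent.P247I.Abs

/-!
# P247I: localisation of the index at the zeros of a deformation
-/

open MeasureTheory Metric Set Filter Topology Module
open scoped ContDiff RealInnerProductSpace

noncomputable section

namespace Vale.Agent.P247I

open Vale.Agent.P204.GX Vale.Agent.P204.T4 Vale.Agent.P247E

variable {X : Type} [MetricSpace X] {M : CM X}
variable {V W : Type} [NormedAddCommGroup V] [InnerProductSpace ℝ V]
  [NormedAddCommGroup W] [InnerProductSpace ℝ W] {E : Bun M V} {F : Bun M W}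
variable {P : Op E F} {P' : Op F E} {B : X → V →L[ℝ] W} {B' : X → W →L[ℝ] V}

/-- the deformed operator on smooth sections -/
def AtL (P : Op E F) (h : E.Hom F B) (t : ℝ) : E.Sm →ₗ[ℝ] F.Sm :=
  appL P + t • (⟨⟨fun s => ⟨_, hom_mem h s.2⟩, fun _ _ => Subtype.ext (funext fun _ =>
    map_add _ _ _)⟩, fun _ _ => Subtype.ext (funext fun _ => map_smul _ _ _)⟩ : E.Sm →ₗ[ℝ] F.Sm)

theorem AtL_coe (h : E.Hom F B) (t : ℝ) (s : E.Sm) : (AtL P h t s : X → W) = At P B t s := rfl

theorem Zr.cut {x : X} (Z : Zr P B x) {r : ℝ} (hr : 0 < r) : ∃ χ : X → ℝ, M.Sm0 χ ∧ χ x = 1 ∧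
    (∀ x, |χ x| ≤ 1) ∧ ∀ x ∉ Z.th '' closedBall 0 r, χ x = 0 := by
  have z0 : ∀ y ∉ Z.af '' closedBall 0 r, bu r hr (Z.T.symm (y - Z.y)) = 0 := fun y hy =>
    (bu r hr).zero_of_le_dist (not_lt.1 fun k => hy ⟨_, ball_subset_closedBall k, by simp [Zr.af]⟩)
  refine ⟨M.ext0 Z.a fun y => bu r hr (Z.T.symm (y - Z.y)), M.sm0_ext0 _ ((bu r hr).contDiff.comp
    (Z.T.symm.contDiff.comp (contDiff_id.sub contDiff_const))) (.intro
      ((isCompact_closedBall _ _).image Z.sm_af.continuous) z0), ?_, fun x => ?_,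
    fun x hx => M.ext0_eq_zero _ z0 (by rwa [image_image])⟩
  · refine (congrArg _ Z.hx.symm).trans ?_
    rw [M.ext0_ψ_self, sub_self, map_zero]
    exact (bu r hr).one_of_mem_closedBall (mem_closedBall_self (bu r hr).rIn_pos.le)
  · unfold CM.ext0
    split_ifs
    · exact (abs_of_nonneg (bu r hr).nonneg).trans_le (bu r hr).le_one
    · simp

/-- the functional which kills the ground state -/
def Zr.elL {x : X} (Z : Zr P B x) {χ : X → ℝ} (hχ : M.Sm0 χ) (t : ℝ) (v : V) : E.Sm →ₗ[ℝ] ℝ where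
  toFun s := el t v (Z.lc E fun x => χ x • s.1 x)
  map_add' s s' := by
    have io : ∀ s : E.Sm, IntegrableOn (fun z => ⟪Z.lc E (fun x => χ x • s.1 x) z, v⟫ *
        Real.exp (t / 2 * ‖z‖ ^ 2)) (ball (0 : R4) (3 / √t)) := fun s => by
      have := (Z.sm_lc E (E.fsmul_mem hχ s.2)).continuous
      exact (ContinuousOn.integrableOn_compact (isCompact_closedBall 0 _)
        (by fun_prop)).mono_set ball_subset_closedBall
    simp only [el, ← integral_add (io s) (io s')]
    simp only [Zr.lc, Bun.lo, Submodule.coe_add, Pi.add_apply, smul_add, map_add, inner_add_left,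
      add_mul]
  map_smul' c s := by
    simp only [el, Zr.lc, Bun.lo, Submodule.coe_smul, Pi.smul_apply, map_smul, inner_smul_left,
      RingHom.id_apply, smul_eq_mul, ← integral_const_mul, conj_trivial]
    exact integral_congr_ae (.of_forall fun z => by ring)

theorem sq_sum {ι : Type} [Fintype ι] {f : ι → V} (h : Pairwise fun i j => f i = 0 ∨ f j = 0)
    (c : ι → ℝ) : ‖∑ i, c i • f i‖ ^ 2 = ∑ i, c i ^ 2 * ‖f i‖ ^ 2 := by
  simp only [← real_inner_self_eq_norm_sq, sum_inner, inner_sum, inner_smul_left, inner_smul_right,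
    conj_trivial]
  refine Finset.sum_congr rfl fun i _ => ?_
  rw [Finset.sum_eq_single i (fun j _ hj => by rcases h hj with k | k <;> simp [k]) (by simp)]
  ring

variable [MeasurableSpace X] [BorelSpace X] [CompactSpace X] [FiniteDimensional ℝ V]
  [FiniteDimensional ℝ W]

/-- the scalar product of smooth sections -/
def ip (E : Bun M V) : E.Sm →ₗ[ℝ] E.Sm →ₗ[ℝ] ℝ :=
  LinearMap.mk₂ ℝ (fun s t => ∫ x, ⟪s.1 x, t.1 x⟫ ∂M.mu)
    (fun s s' t => by
      simp only [Submodule.coe_add, Pi.add_apply, inner_add_left]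
      exact integral_add (E.integrable_inner s.2 t.2) (E.integrable_inner s'.2 t.2))
    (fun c s t => by simp [inner_smul_left, integral_const_mul])
    (fun s t t' => by
      simp only [Submodule.coe_add, Pi.add_apply, inner_add_right]
      exact integral_add (E.integrable_inner s.2 t.2) (E.integrable_inner s.2 t'.2))
    fun c s t => by simp [inner_smul_right, integral_const_mul]

theorem ip_self (s : E.Sm) : ip E s s = ∫ x, ‖s.1 x‖ ^ 2 ∂M.mu := by simp [ip]

/-- the gap -/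
theorem Wd.gap (h : Wd P P' B B') {ι : Type} [Fintype ι] {q : ι → X} (Z : ∀ i, Zr P B (q i))
    {σ : X → ℝ} (hσ : Continuous σ) (hB : ∀ x v, ‖B x v‖ ^ 2 = σ x * ‖v‖ ^ 2)
    (h0 : ∀ x, 0 ≤ σ x) (h1 : ∀ x ∉ range q, 0 < σ x) {p : ι → Prop} {v : ι → V}
    (hv : ∀ i, ‖v i‖ ≤ 1)
    (hb : ∀ i w, be (Z i).Mm (Z i).S w ≤ 2 * ‖w‖ ^ 2 + 2 * ⟪w, v i⟫ ^ 2)
    (v0 : ∀ i, ¬ p i → v i = 0) : ∃ κ : ℝ, 0 < κ ∧ ∀ᶠ t in atTop,
      ∃ l : E.Sm →ₗ[ℝ] ({i // p i} → ℝ), ∀ s, l s = 0 →
        κ * t * ip E s s ≤ ip F (AtL P h.hom t s) (AtL P h.hom t s) := by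
  choose r κ r0 κ0 hg using fun i => (Z i).gap h.hom (hv i) (hb i)
  choose χ c1 c2 c3 c4 using fun i => (Z i).cut (r0 i)
  choose C C0 hC using fun i => comm_le P (c1 i)
  obtain ⟨D, D0, hD⟩ := h.away
  have cχ := fun i => cont_charts fun a => (c1 i a).continuous
  obtain ⟨δ, δ0, hδ⟩ := isCompact_univ.exists_forall_le' (f := fun x => ∑ i, χ i x ^ 2 + σ x)
    (a := 0) (by fun_prop) fun x _ => by
      by_cases hx : x ∈ range q
      · obtain ⟨i, rfl⟩ := hx
        exact add_pos_of_pos_of_nonneg (Finset.sum_pos' (fun _ _ => sq_nonneg _)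
          ⟨i, Finset.mem_univ _, by simp [c2]⟩) (h0 _)
      · exact add_pos_of_nonneg_of_pos (Finset.sum_nonneg fun _ _ => sq_nonneg _) (h1 x hx)
  have s0 : 0 ≤ ∑ i, 2 * κ i := Finset.sum_nonneg fun i _ => by have := κ0 i; positivity
  refine ⟨δ / 2 / (∑ i, 2 * κ i + 1), by positivity, ?_⟩
  filter_upwards [eventually_all.2 hg, eventually_ge_atTop 1,
    eventually_ge_atTop (2 * (∑ i, 2 * κ i * C i ^ 2 + D) / δ)] with t ht t1 t2
  refine ⟨LinearMap.pi fun i => (Z i).elL (c1 i) t (v i), fun s hl => ?_⟩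
  rw [ip_self, ip_self, AtL_coe]
  have m := fun i => E.fsmul_mem (c1 i) s.2
  have i1 := isq E s.2
  have i2 := isq F (At_mem P h.hom t s.2)
  have k1 : ∀ i, t * ∫ x, ‖χ i x • s.1 x‖ ^ 2 ∂M.mu ≤ 2 * κ i * ∫ x, ‖At P B t s x‖ ^ 2 ∂M.mu +
      2 * κ i * C i ^ 2 * ∫ x, ‖s.1 x‖ ^ 2 ∂M.mu := fun i => by
    refine (ht i _ (m i) (fun x hx => by rw [c4 i x hx, zero_smul]) ?_).trans ?_
    · by_cases hi : p i
      · exact congrFun hl ⟨i, hi⟩
      · simp [el, v0 i hi]
    have : ∫ x, ‖At P B t (fun x => χ i x • s.1 x) x‖ ^ 2 ∂M.mu ≤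
        ∫ x, (2 * ‖At P B t s x‖ ^ 2 + 2 * C i ^ 2 * ‖s.1 x‖ ^ 2) ∂M.mu :=
      integral_mono (isq F (At_mem P h.hom t (m i))) ((i2.const_mul _).add (i1.const_mul _))
        fun x => by
          have e : At P B t (fun x => χ i x • s.1 x) x = χ i x • At P B t s x +
              (P.app (fun x => χ i x • s.1 x) x - χ i x • P.app s x) := by
            simp only [At, map_smul, smul_add, smul_comm t]
            abel
          have a1 := pow_le_pow_left₀ (norm_nonneg _) (hC i s s.2 x) 2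
          have a2 : ‖χ i x • At P B t s x‖ ≤ ‖At P B t s x‖ := by
            rw [norm_smul]; exact mul_le_of_le_one_left (norm_nonneg _) (c3 i x)
          simp only [e]
          refine (sq_add_le _ _).trans ?_
          linarith [pow_le_pow_left₀ (norm_nonneg _) a2 2]
    rw [integral_add (i2.const_mul _) (i1.const_mul _), integral_const_mul,
      integral_const_mul] at this
    linarith [mul_le_mul_of_nonneg_left this (κ0 i).le]
  have k2 : δ * ∫ x, ‖s.1 x‖ ^ 2 ∂M.mu ≤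
      ∑ i, ∫ x, ‖χ i x • s.1 x‖ ^ 2 ∂M.mu + ∫ x, ‖B x (s.1 x)‖ ^ 2 ∂M.mu := by
    have i3 := integrable_finsetSum Finset.univ fun i _ => isq E (m i)
    have i4 := isq F (hom_mem h.hom s.2)
    rw [← integral_finsetSum _ fun i _ => isq E (m i), ← integral_add i3 i4, ← integral_const_mul]
    refine integral_mono (i1.const_mul _) (i3.add i4) fun x => ?_
    simp only [hB, norm_smul, mul_pow, Real.norm_eq_abs, sq_abs, ← Finset.sum_mul, ← add_mul]
    exact mul_le_mul_of_nonneg_right (hδ x trivial) (sq_nonneg _)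
  have k3 := Finset.sum_le_sum fun i (_ : i ∈ Finset.univ) => k1 i
  rw [Finset.sum_add_distrib, ← Finset.sum_mul, ← Finset.sum_mul, ← Finset.mul_sum] at k3
  have k4 := hD t (by linarith) s s.2
  have p1 : 0 ≤ ∫ x, ‖s.1 x‖ ^ 2 ∂M.mu := integral_nonneg fun x => by positivity
  have p2 : 0 ≤ ∫ x, ‖At P B t s x‖ ^ 2 ∂M.mu := integral_nonneg fun x => by positivity
  have k5 : t * ∫ x, ‖B x (s.1 x)‖ ^ 2 ∂M.mu ≤
      ∫ x, ‖At P B t s x‖ ^ 2 ∂M.mu + D * ∫ x, ‖s.1 x‖ ^ 2 ∂M.mu :=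
    le_of_mul_le_mul_left (by nlinarith) (show 0 < t by linarith)
  rw [div_le_iff₀ δ0] at t2
  rw [div_mul_eq_mul_div, div_mul_eq_mul_div, div_le_iff₀ (by positivity)]
  nlinarith [mul_le_mul_of_nonneg_left k2 (show 0 ≤ t by linarith),
    mul_le_mul_of_nonneg_right t2 p1]

/-- the approximate kernel -/
theorem apx (h : E.Hom F B) {ι : Type} [Fintype ι] {q : ι → X} (hq : Function.Injective q)
    (Z : ∀ i, Zr P B (q i)) {v : ι → V} (hv : ∀ i, ‖v i‖ = 1)
    (hk : ∀ i ξ, (Z i).Mm ξ (v i) = (Z i).S ξ (v i)) {ε : ℝ} (hε : 0 < ε) : ∀ᶠ t in atTop,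
      ∃ G : Submodule ℝ E.Sm, FiniteDimensional ℝ G ∧ finrank ℝ G = Fintype.card ι ∧
        ∀ s ∈ G, ip F (AtL P h t s) (AtL P h t s) ≤ ε * t * ip E s s := by
  obtain ⟨O, hO, hd⟩ := (finite_range q).t2_separation
  filter_upwards [eventually_all.2 fun i => (Z i).apx h (hv i) (hk i)
    ((hO (q i)).2.mem_nhds (hO _).1) hε] with t ht
  choose s hs s1 s2 s3 s4 using ht
  have dj : ∀ x, Pairwise fun i j => x ∉ O (q i) ∨ x ∉ O (q j) := fun x i j hij => by
    by_contra k
    push Not at k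
    exact disjoint_left.1 (hd (mem_range_self i) (mem_range_self j) (hq.ne hij)) k.1 k.2
  let φ : (ι → ℝ) →ₗ[ℝ] E.Sm := Fintype.linearCombination ℝ fun i => (⟨s i, hs i⟩ : E.Sm)
  have e1 : ∀ c, ip E (φ c) (φ c) = ∑ i, c i ^ 2 * ∫ x, ‖s i x‖ ^ 2 ∂M.mu := fun c => by
    simp only [ip_self, φ, Fintype.linearCombination_apply, Submodule.coe_sum, Submodule.coe_smul,
      Finset.sum_apply, Pi.smul_apply, ← integral_const_mul]
    rw [← integral_finsetSum _ fun i _ => (isq E (hs i)).const_mul _]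
    exact integral_congr_ae (.of_forall fun x =>
      sq_sum (fun i j k => (dj x k).imp (s1 i x) (s1 j x)) c)
  have e2 : ∀ c, ip F (AtL P h t (φ c)) (AtL P h t (φ c)) =
      ∑ i, c i ^ 2 * ∫ x, ‖At P B t (s i) x‖ ^ 2 ∂M.mu := fun c => by
    rw [ip_self]
    simp only [φ, Fintype.linearCombination_apply, map_sum, map_smul, Submodule.coe_sum,
      Submodule.coe_smul, Finset.sum_apply, Pi.smul_apply, ← integral_const_mul, AtL_coe]
    rw [← integral_finsetSum _ fun i _ => (isq F (At_mem P h t (hs i))).const_mul _]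
    exact integral_congr_ae (.of_forall fun x =>
      sq_sum (fun i j k => (dj x k).imp (s2 i x) (s2 j x)) c)
  have inj : Function.Injective φ := (injective_iff_map_eq_zero φ).2 fun c hc => funext fun i => by
    have := e1 c
    rw [hc, map_zero, eq_comm, Finset.sum_eq_zero_iff_of_nonneg fun i _ =>
      mul_nonneg (sq_nonneg _) (s3 i).le] at this
    simpa [(s3 i).ne'] using this i (Finset.mem_univ i)
  refine ⟨LinearMap.range φ, inferInstance, by
    rw [LinearMap.finrank_range_of_inj inj, finrank_fintype_fun_eq_card], ?_⟩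
  rintro _ ⟨c, rfl⟩
  rw [e1, e2, Finset.mul_sum]
  exact Finset.sum_le_sum fun i _ => (mul_le_mul_of_nonneg_left (s4 i) (sq_nonneg _)).trans_eq
    (by ring)

end Vale.Agent.P247I
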