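import Vale.Agent.P247I.Sec

/-!
# P247I: the analysis near a zero of the deformation
-/

open MeasureTheory Metric Set Filter Topology
open scoped ContDiff RealInnerProductSpace

noncomputable section

namespace Vale.Agent.P247I

open Vale.Agent.P204.GX Vale.Agent.P204.T4 Vale.Agent.P247E
open Vale.Agent.P247.H74 (e)

variable {X : Type} [MetricSpace X] {M : CM X}
variable {V W U : Type} [NormedAddCommGroup V] [InnerProductSpace ℝ V]
  [NormedAddCommGroup W] [InnerProductSpace ℝ W] [NormedAddCommGroup U] [InnerProductSpace ℝ U]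
  {E : Bun M V} {F : Bun M W}

/-- a zero of the deformation, with its model operator -/
structure Zr (P : Op E F) (B : X → V →L[ℝ] W) (x : X) where
  a : M.A
  y : V4
  hx : M.ψ a y = x
  T : R4 ≃L[ℝ] V4
  Mm : R4 →L[ℝ] V →L[ℝ] W
  S : R4 →L[ℝ] V →L[ℝ] W
  cl : Cl Mm S
  hM : ∀ k, Mm (ee k) = ∑ j, T.symm (e j) k • P.Mi a j y
  h0 : Bl E F B a y = 0
  hS : HasFDerivAt (fun z => Bl E F B a (y + T z)) S 0

theorem int_aff (y : V4) (T : R4 ≃L[ℝ] V4) :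
    ∃ c : ℝ, 0 < c ∧ ∀ g : V4 → ℝ, ∫ y, g y = c * ∫ z, g (y + T z) := by
  have := T.isAddHaarMeasure_map (volume : Measure R4)
  refine ⟨_, NNReal.coe_pos.2 (Measure.addHaarScalarFactor_pos_of_isAddHaarMeasure
    (volume : Measure V4) (Measure.map T volume)), fun g => ?_⟩
  rw [← integral_add_left_eq_self g y]
  conv_lhs => rw [Measure.isAddLeftInvariant_eq_smul (volume : Measure V4) (Measure.map T volume)]
  rw [integral_smul_nnreal_measure]
  exact congrArg _ (integral_map_equiv T.toHomeomorph.toMeasurableEquiv _)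

namespace Zr

variable {P : Op E F} {B : X → V →L[ℝ] W} {x : X} (Z : Zr P B x)

/-- the affine coordinates -/
def af (z : R4) : V4 := Z.y + Z.T z

/-- the parametrisation -/
def th (z : R4) : X := M.ψ Z.a (Z.af z)

/-- the local components -/
def lc (G : Bun M U) (s : X → U) (z : R4) : U := G.lo Z.a s (Z.af z)

theorem sm_af : ContDiff ℝ ∞ Z.af := contDiff_const.add Z.T.contDiff

theorem cont_th : Continuous Z.th := (M.continuous_ψ _).comp Z.sm_af.continuous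

theorem th_zero : Z.th 0 = x := by simp [th, af, Z.hx]

theorem th_inj : Function.Injective Z.th := fun _ _ h =>
  Z.T.injective (add_left_cancel (M.ψ_inj _ h))

theorem cl_th (r : ℝ) : IsClosed (Z.th '' closedBall 0 r) :=
  ((isCompact_closedBall _ _).image Z.cont_th).isClosed

theorem norm_lc (G : Bun M U) (s : X → U) (z : R4) : ‖Z.lc G s z‖ = ‖s (Z.th z)‖ := G.norm_lo _ _ _

theorem sm_lc (G : Bun M U) {s : X → U} (hs : s ∈ G.Sm) : ContDiff ℝ ∞ (Z.lc G s) :=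
  (hs _).comp Z.sm_af

theorem supp_lc (G : Bun M U) {s : X → U} {r : ℝ} (h : ∀ x ∉ Z.th '' closedBall 0 r, s x = 0) :
    tsupport (Z.lc G s) ⊆ closedBall 0 r :=
  closure_minimal (fun z hz => by_contra fun k => hz (by
    rw [← norm_eq_zero, norm_lc, h _ fun ⟨w, hw, e⟩ => k (Z.th_inj e ▸ hw), norm_zero]))
    isClosed_closedBall

theorem ts_lc (G : Bun M U) {s : X → U} (hs : s ∈ G.Sm) {r : ℝ}
    (h : ∀ x ∉ Z.th '' closedBall 0 r, s x = 0) : Ts (Z.lc G s) :=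
  ⟨Z.sm_lc G hs, (isCompact_closedBall 0 r).of_isClosed_subset (isClosed_tsupport _)
    (Z.supp_lc G h)⟩

theorem At_zero (t : ℝ) {s : X → V} {r : ℝ} (h : ∀ x ∉ Z.th '' closedBall 0 r, s x = 0) :
    ∀ x ∉ Z.th '' closedBall 0 r, At P B t s x = 0 := fun x hx => by
  simp [At, P.app_zero (Z.cl_th r) h hx, h x hx]

/-- the symbol in the affine coordinates -/
def Mt (k : Fin 4) (z : R4) : V →L[ℝ] W := ∑ j, Z.T.symm (e j) k • P.Mi Z.a j (Z.af z)

theorem lc_At (t : ℝ) {s : X → V} (hs : s ∈ E.Sm) (z : R4) : Z.lc F (At P B t s) z =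
    ∑ k, Z.Mt k z (dd k (Z.lc E s) z) + P.N Z.a (Z.af z) (Z.lc E s z) +
      t • Bl E F B Z.a (Z.af z) (Z.lc E s z) := by
  have d : ∀ k, dd k (Z.lc E s) z = fderiv ℝ (E.lo Z.a s) (Z.af z) (Z.T (ee k)) := fun k => by
    have := (((hs Z.a).differentiable (by simp) (Z.af z)).hasFDerivAt.comp z
      (Z.T.hasFDerivAt.const_add Z.y)).fderiv
    exact congrArg (fun L : R4 →L[ℝ] V => L (ee k)) this
  have d2 : ∀ j, fderiv ℝ (E.lo Z.a s) (Z.af z) (e j) =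
      ∑ k, Z.T.symm (e j) k • dd k (Z.lc E s) z := fun j => by
    simp only [d, ← map_smul, ← map_sum, sum_ee, ContinuousLinearEquiv.apply_symm_apply]
  have e1 : Z.lc F (At P B t s) z = F.lo Z.a (P.app s) (Z.af z) +
      t • F.lo Z.a (fun x => B x (s x)) (Z.af z) := by
    simp only [lc, Bun.lo, At, map_add, map_smul]
  rw [e1, P.lo_app hs, lo_B (E := E), locOp]
  simp only [d2, map_sum, map_smul, Mt, sum_apply, smul_apply]
  rw [Finset.sum_comm]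
  rfl

theorem clo {η : ℝ} (hη : 0 < η) : ∃ r C : ℝ, 0 < r ∧ r ≤ 1 ∧ ∀ t, ∀ s ∈ E.Sm,
    (∀ x ∉ Z.th '' closedBall 0 r, s x = 0) →
    Clo Z.Mm Z.S t η C (Z.lc E s) (Z.lc F (At P B t s)) := by
  obtain ⟨δ, δ0, hδ⟩ : ∃ δ : ℝ, 0 < δ ∧ 12 * δ ^ 2 ≤ η := ⟨√(η / 12), by positivity, by
    rw [Real.sq_sqrt (by positivity)]; linarith⟩
  have a0 : Z.af 0 = Z.y := by simp [af]
  have c1 : ∀ k, Continuous (Z.Mt k) := fun k => continuous_finsetSum _ fun j _ =>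
    ((P.Mi_smooth _ j).continuous.comp Z.sm_af.continuous).fun_const_smul _
  have e1 : ∀ᶠ z in 𝓝 (0 : R4), ∀ k, ‖Z.Mt k z - Z.Mm (ee k)‖ ≤ δ := eventually_all.2 fun k =>
    (((c1 k).sub continuous_const).norm.tendsto' 0 0 (by simp [Mt, a0, Z.hM])).eventually_le_const δ0
  have e2 : ∀ᶠ z in 𝓝 (0 : R4), ‖P.N Z.a (Z.af z)‖ ≤ ‖P.N Z.a (Z.af 0)‖ + 1 :=
    (((P.N_smooth _).continuous.comp Z.sm_af.continuous).norm.tendsto 0).eventually_le_const
      (lt_add_one _)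
  have e3 := Z.hS.isLittleO.def δ0
  obtain ⟨r, r0, hr⟩ := nhds_basis_closedBall.eventually_iff.1 (e1.and (e2.and e3))
  refine ⟨min r 1, 3 * (‖P.N Z.a (Z.af 0)‖ + 1) ^ 2, by positivity, min_le_right _ _,
    fun t s hs h z => ?_⟩
  rw [Z.lc_At t hs]
  by_cases hz : z ∈ closedBall (0 : R4) (min r 1)
  · obtain ⟨h1, h2, h3⟩ := hr (closedBall_subset_closedBall (min_le_left _ _) hz)
    simp only [map_zero, add_zero, Z.h0, sub_zero] at h3
    have e : ∑ k, Z.Mt k z (dd k (Z.lc E s) z) + P.N Z.a (Z.af z) (Z.lc E s z) +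
        t • Bl E F B Z.a (Z.af z) (Z.lc E s z) - mo Z.Mm Z.S t (Z.lc E s) z =
        ∑ k, (Z.Mt k z - Z.Mm (ee k)) (dd k (Z.lc E s) z) + P.N Z.a (Z.af z) (Z.lc E s z) +
        t • (Bl E F B Z.a (Z.af z) - Z.S z) (Z.lc E s z) := by
      simp only [mo, dM, sub_apply, Finset.sum_sub_distrib, smul_sub]
      abel
    have k1 : ‖∑ k, (Z.Mt k z - Z.Mm (ee k)) (dd k (Z.lc E s) z)‖ ≤
        δ * ∑ k, ‖dd k (Z.lc E s) z‖ := by
      rw [Finset.mul_sum]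
      exact norm_sum_le_of_le _ fun k _ => ContinuousLinearMap.le_of_opNorm_le _ (h1 k) _
    have k2 := ContinuousLinearMap.le_of_opNorm_le _ h2 (Z.lc E s z)
    have k3 : ‖t • (Bl E F B Z.a (Z.af z) - Z.S z) (Z.lc E s z)‖ ≤
        δ * (|t| * (‖z‖ * ‖Z.lc E s z‖)) := by
      rw [norm_smul, Real.norm_eq_abs]
      refine (mul_le_mul_of_nonneg_left (ContinuousLinearMap.le_of_opNorm_le _ h3 _)
        (abs_nonneg t)).trans_eq (by ring)
    have k4 : (∑ k, ‖dd k (Z.lc E s) z‖) ^ 2 ≤ 4 * gg (Z.lc E s) z := by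
      simpa [gg] using sq_sum_le_card_mul_sum_sq (s := Finset.univ)
        (f := fun k => ‖dd k (Z.lc E s) z‖)
    have k5 := pow_le_pow_left₀ (norm_nonneg _) ((norm_add₃_le).trans
      (add_le_add (add_le_add k1 k2) k3)) 2
    have k6 : ∀ a b c : ℝ, (a + b + c) ^ 2 ≤ 3 * a ^ 2 + 3 * b ^ 2 + 3 * c ^ 2 := fun a b c => by
      nlinarith [sq_nonneg (a - b), sq_nonneg (a - c), sq_nonneg (b - c)]
    rw [e]
    refine k5.trans ((k6 _ _ _).trans ?_)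
    simp only [mul_pow, sq_abs]
    have p1 := gg_nonneg (Z.lc E s) z
    have p2 : 0 ≤ t ^ 2 * (‖z‖ ^ 2 * ‖Z.lc E s z‖ ^ 2) := by positivity
    nlinarith [mul_le_mul_of_nonneg_left k4 (sq_nonneg δ), mul_le_mul_of_nonneg_right hδ p1,
      mul_le_mul_of_nonneg_right hδ p2, mul_nonneg (sq_nonneg δ) p2]
  · have h1 := mt (Z.supp_lc E h (a := z)) hz
    simp [mo, dM, dd, gg, image_eq_zero_of_notMem_tsupport h1, fderiv_of_notMem_tsupport ℝ h1]

variable [MeasurableSpace X] [BorelSpace X]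

theorem int_th : ∃ c₁ c₂ : ℝ, 0 < c₁ ∧ 0 < c₂ ∧ ∀ (U : Type) [NormedAddCommGroup U]
    [InnerProductSpace ℝ U] (G : Bun M U), ∀ s ∈ G.Sm, (∀ x ∉ Z.th '' closedBall 0 1, s x = 0) →
    c₁ * ∫ z, ‖Z.lc G s z‖ ^ 2 ≤ ∫ x, ‖s x‖ ^ 2 ∂M.mu ∧
      ∫ x, ‖s x‖ ^ 2 ∂M.mu ≤ c₂ * ∫ z, ‖Z.lc G s z‖ ^ 2 := by
  obtain ⟨c, c0, hc⟩ := int_aff Z.y Z.T
  have ct : Continuous fun z => rho M Z.a (Z.af z) :=
    (contDiff_rho _).continuous.comp Z.sm_af.continuous
  have ne : (closedBall (0 : R4) 1).Nonempty := nonempty_closedBall.2 zero_le_one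
  obtain ⟨z₁, -, h1⟩ := (isCompact_closedBall (0 : R4) 1).exists_isMinOn ne ct.continuousOn
  obtain ⟨z₂, -, h2⟩ := (isCompact_closedBall (0 : R4) 1).exists_isMaxOn ne ct.continuousOn
  refine ⟨c * rho M Z.a (Z.af z₁), c * rho M Z.a (Z.af z₂), mul_pos c0 (rho_pos _ _),
    mul_pos c0 (rho_pos _ _), fun U _ _ G s hs h => ?_⟩
  have ts := Z.ts_lc G hs h
  have c1 := ts.cont
  have e1 : ∫ x, ‖s x‖ ^ 2 ∂M.mu = c * ∫ z, ‖Z.lc G s z‖ ^ 2 * rho M Z.a (Z.af z) := by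
    rw [M.integral_chart Z.a fun x hx => by
      rw [h x fun ⟨z, _, k⟩ => hx ⟨_, k⟩, norm_zero, zero_pow two_ne_zero], hc]
    simp only [norm_lc]
    rfl
  have i1 : Integrable fun z => ‖Z.lc G s z‖ ^ 2 * rho M Z.a (Z.af z) :=
    ts.int (by fun_prop) fun z h1 _ => by simp [h1]
  have z0 : ∀ z ∉ closedBall (0 : R4) 1, Z.lc G s z = 0 := fun z hz =>
    image_eq_zero_of_notMem_tsupport (mt (Z.supp_lc G h (a := z)) hz)
  rw [e1, mul_assoc, mul_assoc, ← integral_const_mul, ← integral_const_mul (rho M Z.a (Z.af z₂))]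
  refine ⟨mul_le_mul_of_nonneg_left (integral_mono (ts.isq.const_mul _) i1 fun z => ?_) c0.le,
    mul_le_mul_of_nonneg_left (integral_mono i1 (ts.isq.const_mul _) fun z => ?_) c0.le⟩
  · by_cases hz : z ∈ closedBall (0 : R4) 1
    · exact (mul_comm _ _).trans_le (mul_le_mul_of_nonneg_left (h1 hz) (sq_nonneg _))
    · simp [z0 z hz]
  · by_cases hz : z ∈ closedBall (0 : R4) 1
    · exact (mul_le_mul_of_nonneg_left (h2 hz) (sq_nonneg _)).trans_eq (mul_comm _ _)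
    · simp [z0 z hz]

omit [InnerProductSpace ℝ U] [MeasurableSpace X] [BorelSpace X] in
theorem mono {s : X → U} {r : ℝ} (hr : r ≤ 1) (h : ∀ x ∉ Z.th '' closedBall 0 r, s x = 0) :
    ∀ x ∉ Z.th '' closedBall 0 1, s x = 0 := fun x hx =>
  h x fun k => hx (image_mono (closedBall_subset_closedBall hr) k)

/-- the gap near a zero -/
theorem gap (hB : E.Hom F B) {v : V} (hv : ‖v‖ ≤ 1)
    (hb : ∀ w, be Z.Mm Z.S w ≤ 2 * ‖w‖ ^ 2 + 2 * ⟪w, v⟫ ^ 2) : ∃ r κ : ℝ, 0 < r ∧ 0 < κ ∧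
    ∀ᶠ t in atTop, ∀ s ∈ E.Sm, (∀ x ∉ Z.th '' closedBall 0 r, s x = 0) → el t v (Z.lc E s) = 0 →
      t * ∫ x, ‖s x‖ ^ 2 ∂M.mu ≤ κ * ∫ x, ‖At P B t s x‖ ^ 2 ∂M.mu := by
  have g0 := cg_pos
  obtain ⟨r, C, r0, r1, h⟩ := Z.clo (η := 1 / (8 * cg)) (by positivity)
  obtain ⟨c₁, c₂, p1, p2, hc⟩ := Z.int_th
  refine ⟨r, c₂ * (4 * cg) / c₁, r0, by positivity, ?_⟩
  filter_upwards [eventually_gt_atTop 0, eventually_ge_atTop (8 * cg * C)] with t t0 t1 s hs h0 hl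
  have m := At_mem P hB t hs
  have k1 := (h t s hs h0).gap (Z.ts_lc E hs h0) (Z.sm_lc F m).continuous Z.cl t0 hv hb hl
    (le_of_eq (by field_simp)) t1
  have k2 := mul_le_mul_of_nonneg_left (hc V E s hs (Z.mono r1 h0)).2 t0.le
  have k3 := (hc W F _ m (Z.mono r1 (Z.At_zero t h0))).1
  rw [div_mul_eq_mul_div, le_div_iff₀ p1]
  nlinarith [mul_le_mul_of_nonneg_left k1 (mul_pos p1 p2).le, mul_le_mul_of_nonneg_left k2 p1.le,
    mul_le_mul_of_nonneg_left k3 (show 0 ≤ c₂ * (4 * cg) by positivity)]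

/-- the approximate kernel near a zero -/
theorem apx (hB : E.Hom F B) {v : V} (hv : ‖v‖ = 1) (hk : ∀ ξ, Z.Mm ξ v = Z.S ξ v) {O : Set X}
    (hO : O ∈ 𝓝 x) {ε : ℝ} (hε : 0 < ε) : ∀ᶠ t in atTop, ∃ s ∈ E.Sm, (∀ x ∉ O, s x = 0) ∧
      (∀ x ∉ O, At P B t s x = 0) ∧ 0 < ∫ x, ‖s x‖ ^ 2 ∂M.mu ∧
      ∫ x, ‖At P B t s x‖ ^ 2 ∂M.mu ≤ ε * t * ∫ x, ‖s x‖ ^ 2 ∂M.mu := by
  obtain ⟨c₁, c₂, p1, p2, hc⟩ := Z.int_th
  obtain ⟨r, C, r0, r1, h⟩ := Z.clo (η := ε * c₁ / (16 * c₂)) (by positivity)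
  obtain ⟨r', r0', hr⟩ := nhds_basis_closedBall.mem_iff.1
    (Z.cont_th.continuousAt.preimage_mem_nhds (Z.th_zero.symm ▸ hO))
  have q0 : 0 < min r r' := lt_min r0 r0'
  obtain ⟨K, hK⟩ := gs_apx q0 Z.cl hv hk (η := ε * c₁ / (16 * c₂)) (by positivity) C
  filter_upwards [eventually_gt_atTop 0, eventually_ge_atTop (2 * c₂ * K / (ε * c₁))] with t t0 t1
  have ts := ts_gs q0 (t := t) (v := v)
  have z0 : ∀ y ∉ Z.af '' closedBall 0 (min r r'), gs _ q0 t v (Z.T.symm (y - Z.y)) = 0 :=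
    fun y hy => image_eq_zero_of_notMem_tsupport fun k => hy ⟨_, gs_supp q0 k, by simp [af]⟩
  have hs := E.ext_mem Z.a (f := fun y => gs _ q0 t v (Z.T.symm (y - Z.y)))
    (ts.sm.comp (Z.T.symm.contDiff.comp (contDiff_id.sub contDiff_const)))
    (.intro ((isCompact_closedBall _ _).image Z.sm_af.continuous) z0)
  have h0 : ∀ x ∉ Z.th '' closedBall 0 (min r r'),
      E.ext Z.a (fun y => gs _ q0 t v (Z.T.symm (y - Z.y))) x = 0 := fun x hx =>
    E.ext_zero Z.a z0 (by rwa [image_image])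
  have e1 : Z.lc E (E.ext Z.a fun y => gs _ q0 t v (Z.T.symm (y - Z.y))) = gs _ q0 t v :=
    funext fun z => by simp [lc, E.lo_ext, af]
  have sb : Z.th '' closedBall 0 (min r r') ⊆ O :=
    image_subset_iff.2 ((closedBall_subset_closedBall (min_le_right _ _)).trans hr)
  have m := At_mem P hB t hs
  have k0 := h t _ hs fun x hx => h0 x fun k =>
    hx (image_mono (closedBall_subset_closedBall (min_le_left _ _)) k)
  have k2 := (hc V E _ hs (Z.mono ((min_le_left _ _).trans r1) h0)).1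
  have k3 := (hc W F _ m (Z.mono ((min_le_left _ _).trans r1) (Z.At_zero t h0))).2
  rw [e1] at k0 k2
  have k1 := mul_le_mul_of_nonneg_left ((hK t t0).2 _ (Z.sm_lc F m).continuous k0) p2.le
  have p3 := (hK t t0).1
  refine ⟨_, hs, fun x hx => h0 x fun k => hx (sb k), fun x hx => Z.At_zero t h0 x fun k =>
    hx (sb k), (mul_pos p1 p3).trans_le k2, k3.trans (k1.trans (le_trans ?_
      (mul_le_mul_of_nonneg_left k2 (by positivity))))⟩
  rw [div_le_iff₀ (by positivity)] at t1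
  rw [← mul_assoc, ← mul_assoc (ε * t)]
  refine mul_le_mul_of_nonneg_right ?_ p3.le
  have : c₂ * (8 * (ε * c₁ / (16 * c₂)) * t) = ε * t * c₁ / 2 := by field_simp; norm_num
  nlinarith

end Zr

end Vale.Agent.P247I
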